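import Mathlib

/-
The algebra of finitely supported signed measures on binary words, with concatenation
as product, its l1 norm, and the trace law of a word under the deletion channel.
-/

open scoped BigOperators

namespace Vale.Agent.P321

/-- Binary words. -/
abbrev W := FreeMonoid Bool

instance : DecidableEq W := inferInstanceAs (DecidableEq (List Bool))

/-- Signed measures on words. -/
abbrev Alg := MonoidAlgebra ℝ W

/-- point mass -/
noncomputable def pt (w : W) : Alg := MonoidAlgebra.single w 1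

/-- total variation norm -/
noncomputable def nrm (f : Alg) : ℝ := f.coeff.sum fun _ c => |c|

/-- total mass -/
noncomputable def mass (f : Alg) : ℝ := f.coeff.sum fun _ c => c

/-- coefficientwise nonnegative -/
def Nonneg (f : Alg) : Prop := ∀ w, 0 ≤ f.coeff w

/-- probability measure -/
def IsPM (f : Alg) : Prop := Nonneg f ∧ mass f = 1

lemma pt_one : pt 1 = 1 := rfl

lemma pt_mul (a b : W) : pt a * pt b = pt (a * b) := by
  simp [pt, MonoidAlgebra.single_mul_single]

lemma coeff_pt (a w : W) : (pt a).coeff w = if a = w then 1 else 0 := by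
  classical
  simp [pt, MonoidAlgebra.coeff_single, Finsupp.single_apply]

lemma eq_sum_pt (f : Alg) : f = ∑ w ∈ f.coeff.support, f.coeff w • pt w := by
  classical
  apply MonoidAlgebra.coeff_injective
  rw [MonoidAlgebra.coeff_sum]
  conv_lhs => rw [← Finsupp.sum_single f.coeff]
  apply Finset.sum_congr rfl
  intro w _
  simp [pt, MonoidAlgebra.coeff_single]

lemma nrm_eq_sum_of_subset {f : Alg} {s : Finset W} (h : f.coeff.support ⊆ s) :
    nrm f = ∑ w ∈ s, |f.coeff w| :=
  Finsupp.sum_of_support_subset _ h _ (by simp)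

lemma nrm_nonneg (f : Alg) : 0 ≤ nrm f :=
  Finset.sum_nonneg fun _ _ => abs_nonneg _

lemma nrm_zero : nrm 0 = 0 := by simp [nrm]

lemma nrm_add (f g : Alg) : nrm (f + g) ≤ nrm f + nrm g := by
  classical
  have hs : (f + g).coeff.support ⊆ f.coeff.support ∪ g.coeff.support := by
    rw [MonoidAlgebra.coeff_add]; exact Finsupp.support_add
  rw [nrm_eq_sum_of_subset hs,
    nrm_eq_sum_of_subset (Finset.subset_union_left (s₂ := g.coeff.support)),
    nrm_eq_sum_of_subset (Finset.subset_union_right (s₁ := f.coeff.support)),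
    ← Finset.sum_add_distrib]
  exact Finset.sum_le_sum fun w _ => by
    rw [MonoidAlgebra.coeff_add, Finsupp.add_apply]; exact abs_add_le _ _

lemma nrm_smul (c : ℝ) (f : Alg) : nrm (c • f) = |c| * nrm f := by
  classical
  have hs : (c • f).coeff.support ⊆ f.coeff.support := by
    rw [MonoidAlgebra.coeff_smul]; exact Finsupp.support_smul
  rw [nrm_eq_sum_of_subset hs, nrm_eq_sum_of_subset (Finset.Subset.refl _), Finset.mul_sum]
  exact Finset.sum_congr rfl fun w _ => by simp [abs_mul]

lemma nrm_neg (f : Alg) : nrm (-f) = nrm f := by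
  have := nrm_smul (-1) f
  simpa using this

lemma nrm_sub (f g : Alg) : nrm (f - g) ≤ nrm f + nrm g := by
  simpa [sub_eq_add_neg, nrm_neg] using nrm_add f (-g)

lemma nrm_sub_comm (f g : Alg) : nrm (f - g) = nrm (g - f) := by
  rw [← nrm_neg (f - g), neg_sub]

lemma nrm_sub_le_sub_add_sub (a b c : Alg) : nrm (a - c) ≤ nrm (a - b) + nrm (b - c) := by
  have := nrm_add (a - b) (b - c)
  simpa using this

lemma nrm_sum_le {ι : Type*} (s : Finset ι) (f : ι → Alg) :
    nrm (∑ i ∈ s, f i) ≤ ∑ i ∈ s, nrm (f i) :=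
  Finset.le_sum_of_subadditive nrm (le_of_eq nrm_zero) nrm_add s f

lemma nrm_pt (w : W) : nrm (pt w) = 1 := by
  simp [nrm, pt, MonoidAlgebra.coeff_single]

lemma nrm_mul (f g : Alg) : nrm (f * g) ≤ nrm f * nrm g := by
  classical
  calc nrm (f * g)
      = nrm (∑ a ∈ f.coeff.support, ∑ b ∈ g.coeff.support,
          (f.coeff a * g.coeff b) • pt (a * b)) := by
        congr 1
        conv_lhs => rw [eq_sum_pt f, eq_sum_pt g]
        rw [Finset.sum_mul]
        refine Finset.sum_congr rfl fun a _ => ?_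
        rw [Finset.mul_sum]
        refine Finset.sum_congr rfl fun b _ => ?_
        rw [smul_mul_smul_comm, pt_mul]
    _ ≤ ∑ a ∈ f.coeff.support, ∑ b ∈ g.coeff.support,
          |f.coeff a * g.coeff b| := by
        refine (nrm_sum_le _ _).trans (Finset.sum_le_sum fun a _ => ?_)
        refine (nrm_sum_le _ _).trans (Finset.sum_le_sum fun b _ => ?_)
        rw [nrm_smul, nrm_pt, mul_one]
    _ = nrm f * nrm g := by
        simp [nrm, Finsupp.sum, Finset.sum_mul_sum, abs_mul]

/-- mass is a ring homomorphism -/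
noncomputable def massHom : Alg →ₐ[ℝ] ℝ := MonoidAlgebra.lift ℝ ℝ W 1

lemma mass_eq (f : Alg) : mass f = massHom f := by
  classical
  conv_rhs => rw [eq_sum_pt f]
  simp [mass, massHom, pt, Finsupp.sum]

lemma mass_mul (f g : Alg) : mass (f * g) = mass f * mass g := by simp [mass_eq]
lemma mass_add (f g : Alg) : mass (f + g) = mass f + mass g := by simp [mass_eq]
lemma mass_sub (f g : Alg) : mass (f - g) = mass f - mass g := by simp [mass_eq]
lemma mass_smul (c : ℝ) (f : Alg) : mass (c • f) = c * mass f := by simp [mass_eq]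
lemma mass_one : mass (1 : Alg) = 1 := by simp [mass_eq]
lemma mass_pow (f : Alg) (n : ℕ) : mass (f ^ n) = mass f ^ n := by simp [mass_eq]
lemma mass_pt (w : W) : mass (pt w) = 1 := by simp [mass_eq, massHom, pt]

lemma nrm_eq_mass {f : Alg} (h : Nonneg f) : nrm f = mass f := by
  simp only [nrm, mass, Finsupp.sum]
  exact Finset.sum_congr rfl fun w _ => abs_of_nonneg (h w)

lemma abs_mass_le (f : Alg) : |mass f| ≤ nrm f := by
  simp only [nrm, mass, Finsupp.sum]
  exact Finset.abs_sum_le_sum_abs _ _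

lemma nonneg_zero : Nonneg (0 : Alg) := fun w => by simp
lemma nonneg_pt (w : W) : Nonneg (pt w) := fun v => by
  classical
  rw [coeff_pt]; split_ifs <;> norm_num

lemma Nonneg.add {f g : Alg} (hf : Nonneg f) (hg : Nonneg g) : Nonneg (f + g) :=
  fun w => by rw [MonoidAlgebra.coeff_add, Finsupp.add_apply]; exact add_nonneg (hf w) (hg w)

lemma Nonneg.smul {f : Alg} {c : ℝ} (hc : 0 ≤ c) (hf : Nonneg f) : Nonneg (c • f) :=
  fun w => by rw [MonoidAlgebra.coeff_smul_apply, smul_eq_mul]; exact mul_nonneg hc (hf w)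

lemma nonneg_sum {ι : Type*} (s : Finset ι) (f : ι → Alg) (h : ∀ i ∈ s, Nonneg (f i)) :
    Nonneg (∑ i ∈ s, f i) :=
  Finset.sum_induction f Nonneg (fun _ _ => Nonneg.add) nonneg_zero h

lemma Nonneg.mul {f g : Alg} (hf : Nonneg f) (hg : Nonneg g) : Nonneg (f * g) := by
  classical
  rw [eq_sum_pt f, eq_sum_pt g, Finset.sum_mul]
  refine nonneg_sum _ _ fun a _ => ?_
  rw [Finset.mul_sum]
  refine nonneg_sum _ _ fun b _ => ?_
  rw [smul_mul_smul_comm, pt_mul]
  exact Nonneg.smul (mul_nonneg (hf a) (hg b)) (nonneg_pt _)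

lemma IsPM.one : IsPM (1 : Alg) := ⟨by rw [← pt_one]; exact nonneg_pt 1, mass_one⟩

lemma IsPM.mul {f g : Alg} (hf : IsPM f) (hg : IsPM g) : IsPM (f * g) :=
  ⟨hf.1.mul hg.1, by rw [mass_mul, hf.2, hg.2, one_mul]⟩

lemma IsPM.pow {f : Alg} (hf : IsPM f) : ∀ n : ℕ, IsPM (f ^ n)
  | 0 => by simpa using IsPM.one
  | n + 1 => by rw [pow_succ]; exact (hf.pow n).mul hf

lemma IsPM.nrm_eq {f : Alg} (hf : IsPM f) : nrm f = 1 := by rw [nrm_eq_mass hf.1, hf.2]

/-- law of the trace of one bit -/
noncomputable def dbit (q : ℝ) (a : Bool) : Alg := q • (1 : Alg) + (1 - q) • pt (FreeMonoid.of a)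

/-- law of the trace of a word -/
noncomputable def D (q : ℝ) (x : List Bool) : Alg := (x.map (dbit q)).prod

lemma D_nil (q : ℝ) : D q [] = 1 := rfl
lemma D_cons (q : ℝ) (a : Bool) (x : List Bool) : D q (a :: x) = dbit q a * D q x := by simp [D]
lemma D_append (q : ℝ) (x y : List Bool) : D q (x ++ y) = D q x * D q y := by simp [D]

lemma isPM_dbit {q : ℝ} (h0 : 0 ≤ q) (h1 : q ≤ 1) (a : Bool) : IsPM (dbit q a) := by
  refine ⟨(IsPM.one.1.smul h0).add ((nonneg_pt _).smul (by linarith)), ?_⟩
  simp [dbit, mass_add, mass_smul, mass_one, mass_pt]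

lemma isPM_D {q : ℝ} (h0 : 0 ≤ q) (h1 : q ≤ 1) : ∀ x, IsPM (D q x)
  | [] => IsPM.one
  | a :: x => by rw [D_cons]; exact (isPM_dbit h0 h1 a).mul (isPM_D h0 h1 x)

end Vale.Agent.P321
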