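import Mathlib
import Vale.Agent.P321.Ring

/-
Zero-two smoothing of powers of a probability measure in the convolution algebra, and the
two commutator estimates built on it (kernel averaging, Thue-Morse cancellation).
-/

open scoped BigOperators
open Finset

namespace Vale.Agent.P321

/-- binomial expectation, by recursion -/
noncomputable def Bexp (η : ℝ) : ℕ → (ℕ → ℝ) → ℝ
  | 0, f => f 0
  | n + 1, f => η * Bexp η n (fun j => f (j + 1)) + (1 - η) * Bexp η n f

section Bexp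
variable {η : ℝ}

lemma Bexp_add (n : ℕ) : ∀ f g, Bexp η n (fun j => f j + g j) = Bexp η n f + Bexp η n g := by
  induction n with
  | zero => intro f g; rfl
  | succ n ih => intro f g; simp only [Bexp, ih]; ring

lemma Bexp_smul (n : ℕ) (c : ℝ) : ∀ f, Bexp η n (fun j => c * f j) = c * Bexp η n f := by
  induction n with
  | zero => intro f; rfl
  | succ n ih => intro f; simp only [Bexp, ih]; ring

lemma Bexp_const (n : ℕ) (c : ℝ) : Bexp η n (fun _ => c) = c := by
  induction n with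
  | zero => rfl
  | succ n ih => simp only [Bexp, ih]; ring

lemma Bexp_mono (h0 : 0 ≤ η) (h1 : η ≤ 1) (n : ℕ) :
    ∀ f g, (∀ j, f j ≤ g j) → Bexp η n f ≤ Bexp η n g := by
  induction n with
  | zero => intro f g h; exact h 0
  | succ n ih =>
    intro f g h
    simp only [Bexp]
    exact add_le_add (mul_le_mul_of_nonneg_left (ih _ _ fun j => h _) h0)
      (mul_le_mul_of_nonneg_left (ih _ _ h) (by linarith))

lemma Bexp_mul_index (n : ℕ) :
    ∀ f : ℕ → ℝ, Bexp η (n + 1) (fun j => (j : ℝ) * f (j - 1)) = (n + 1) * η * Bexp η n f := by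
  induction n with
  | zero => intro f; simp [Bexp]
  | succ n ih =>
    intro f
    have e1 : (fun j => ((j + 1 : ℕ) : ℝ) * f (j + 1 - 1))
        = fun j : ℕ => (j : ℝ) * (fun i => f (i + 1)) (j - 1) + f j := by
      funext j
      rcases j with _ | j <;> simp
      ring
    show η * Bexp η (n + 1) (fun j => ((j + 1 : ℕ) : ℝ) * f (j + 1 - 1))
        + (1 - η) * Bexp η (n + 1) (fun j => (j : ℝ) * f (j - 1)) = _
    rw [e1, Bexp_add, ih (fun i => f (i + 1)), ih f]
    simp only [Bexp, Nat.cast_add, Nat.cast_one]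
    ring

lemma Bexp_inv (h0 : 0 ≤ η) (h1 : η ≤ 1) (n : ℕ) :
    (n + 1) * η * Bexp η n (fun j => 1 / ((j : ℝ) + 1)) ≤ 1 := by
  rw [← Bexp_mul_index]
  calc Bexp η (n + 1) (fun j => (j : ℝ) * (1 / (((j - 1 : ℕ) : ℝ) + 1)))
      ≤ Bexp η (n + 1) (fun _ => 1) := by
        refine Bexp_mono h0 h1 _ _ _ fun j => ?_
        rcases j with _ | j
        · simp
        · simp only [Nat.add_sub_cancel, Nat.cast_add, Nat.cast_one]
          rw [mul_one_div, div_self (by positivity)]
    _ = 1 := Bexp_const _ _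

lemma Bexp_inv_sqrt (h0 : 0 < η) (h1 : η ≤ 1) (n : ℕ) :
    Bexp η n (fun j => 1 / Real.sqrt ((j : ℝ) + 1)) ≤ 1 / Real.sqrt (η * (n + 1)) := by
  set t := Real.sqrt (η * (n + 1)) with ht
  have tpos : 0 < t := Real.sqrt_pos.mpr (by positivity)
  have key : ∀ j : ℕ, 1 / Real.sqrt ((j : ℝ) + 1) ≤ (t / 2) * (1 / ((j : ℝ) + 1)) + 1 / (2 * t) := by
    intro j
    have hs : 0 < Real.sqrt ((j : ℝ) + 1) := Real.sqrt_pos.mpr (by positivity)
    have h2 : Real.sqrt ((j : ℝ) + 1) ^ 2 = (j : ℝ) + 1 := Real.sq_sqrt (by positivity)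
    rw [← h2]
    field_simp
    rw [h2]
    nlinarith [sq_nonneg (t - Real.sqrt ((j : ℝ) + 1)), h2]
  refine (Bexp_mono h0.le h1 n _ _ key).trans ?_
  rw [Bexp_add, Bexp_smul, Bexp_const]
  have hB := Bexp_inv h0.le h1 n
  have ht2 : t ^ 2 = η * (n + 1) := Real.sq_sqrt (by positivity)
  have : t ^ 2 * Bexp η n (fun j => 1 / ((j : ℝ) + 1)) ≤ 1 := by rw [ht2]; linarith
  rw [le_div_iff₀ tpos]
  have e : (t / 2 * Bexp η n (fun j => 1 / ((j : ℝ) + 1)) + 1 / (2 * t)) * t
      = (t ^ 2 * Bexp η n (fun j => 1 / ((j : ℝ) + 1))) / 2 + 1 / 2 := by field_simp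
  rw [e]; linarith

/-- algebra valued symmetric binomial expectation -/
noncomputable def BA : ℕ → (ℕ → Alg) → Alg
  | 0, f => f 0
  | n + 1, f => (1 / 2 : ℝ) • BA n (fun j => f (j + 1)) + (1 / 2 : ℝ) • BA n f

lemma BA_add (n : ℕ) : ∀ f g, BA n (fun j => f j + g j) = BA n f + BA n g := by
  induction n with
  | zero => intro f g; rfl
  | succ n ih => intro f g; simp only [BA, ih, smul_add]; abel

lemma BA_mul_left (n : ℕ) (a : Alg) : ∀ f, BA n (fun j => a * f j) = a * BA n f := by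
  induction n with
  | zero => intro f; rfl
  | succ n ih => intro f; simp only [BA, ih, mul_add, mul_smul_comm]

lemma BA_pow (T : Alg) (n : ℕ) :
    BA n (fun j => T ^ j) = ((1 / 2 : ℝ) • (1 + T)) ^ n := by
  induction n with
  | zero => simp [BA]
  | succ n ih =>
    have e : (fun j => T ^ (j + 1)) = fun j => T * T ^ j := by funext j; rw [pow_succ']
    simp only [BA]
    rw [e, BA_mul_left, ih, pow_succ' ((1 / 2 : ℝ) • (1 + T)) n, smul_mul_assoc, add_mul, one_mul]
    module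

lemma BA_dev (T : Alg) (n : ℕ) :
    BA (n + 1) (fun j => (2 * (j : ℝ) - (n + 1)) • T ^ j)
      = (((n : ℝ) + 1) / 2) • ((T - 1) * ((1 / 2 : ℝ) • (1 + T)) ^ n) := by
  induction n with
  | zero =>
    simp [BA]
    module
  | succ n ih =>
    set S : Alg := (1 / 2 : ℝ) • (1 + T) with hS
    have e1 : (fun j => (2 * (((j + 1 : ℕ)) : ℝ) - (((n + 1 : ℕ) : ℝ) + 1)) • T ^ (j + 1))
        = fun j : ℕ => T * ((2 * (j : ℝ) - ((n : ℝ) + 1)) • T ^ j) + T * T ^ j := by
      funext j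
      rw [mul_smul_comm, ← pow_succ']
      push_cast
      module
    have e2 : (fun j => (2 * ((j : ℕ) : ℝ) - (((n + 1 : ℕ) : ℝ) + 1)) • T ^ j)
        = fun j : ℕ => (2 * (j : ℝ) - ((n : ℝ) + 1)) • T ^ j + (-1 : Alg) * T ^ j := by
      funext j
      rw [neg_one_mul]
      push_cast
      module
    show (1 / 2 : ℝ) • BA (n + 1) _ + (1 / 2 : ℝ) • BA (n + 1) _ = _
    rw [e1, e2, BA_add, BA_add, BA_mul_left, BA_mul_left, BA_mul_left, ih, BA_pow, ← hS]
    have c : T * ((T - 1) * S ^ n) + (T - 1) * S ^ n = (2 : ℝ) • ((T - 1) * S ^ (n + 1)) := by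
      have hST : S + S = 1 + T := by rw [hS]; module
      calc T * ((T - 1) * S ^ n) + (T - 1) * S ^ n = ((T - 1) * (1 + T)) * S ^ n := by
            noncomm_ring
        _ = ((T - 1) * (S + S)) * S ^ n := by rw [hST]
        _ = _ := by rw [two_smul, pow_succ' S n]; noncomm_ring
    have d : T * S ^ (n + 1) + (-1 : Alg) * S ^ (n + 1) = (T - 1) * S ^ (n + 1) := by
      noncomm_ring
    rw [mul_smul_comm]
    calc _ = (((n : ℝ) + 1) / 4) • (T * ((T - 1) * S ^ n) + (T - 1) * S ^ n)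
          + (1 / 2 : ℝ) • (T * S ^ (n + 1) + (-1 : Alg) * S ^ (n + 1)) := by module
      _ = _ := by rw [c, d]; push_cast; module

lemma nrm_BA (n : ℕ) : ∀ f, nrm (BA n f) ≤ Bexp (1 / 2) n (fun j => nrm (f j)) := by
  induction n with
  | zero => intro f; exact le_rfl
  | succ n ih =>
    intro f
    simp only [BA, Bexp]
    refine (nrm_add _ _).trans ?_
    rw [nrm_smul, nrm_smul]
    norm_num
    linarith [ih f, ih (fun j => f (j + 1))]

lemma Bexp_dev (n : ℕ) : Bexp (1 / 2) n (fun j => (2 * (j : ℝ) - n) ^ 2) = n := by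
  induction n with
  | zero => simp [Bexp]
  | succ n ih =>
    simp only [Bexp]
    rw [show (1 - 1 / 2 : ℝ) = 1 / 2 by norm_num, ← mul_add, ← Bexp_add]
    have e : (fun j => (2 * ((j + 1 : ℕ) : ℝ) - ((n + 1 : ℕ) : ℝ)) ^ 2
        + (2 * (j : ℝ) - ((n + 1 : ℕ) : ℝ)) ^ 2) = fun j : ℕ => 2 * ((2 * (j : ℝ) - n) ^ 2) + 2 := by
      funext j; push_cast; ring
    rw [e, Bexp_add, Bexp_smul, Bexp_const, ih]
    push_cast; ring

lemma binom_diff {T : Alg} (hT : IsPM T) (i : ℕ) :
    nrm ((T - 1) * ((1 / 2 : ℝ) • (1 + T)) ^ i) ≤ 2 / Real.sqrt ((i : ℝ) + 1) := by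
  have h := congrArg nrm (BA_dev T i)
  rw [nrm_smul, abs_of_nonneg (by positivity)] at h
  have hb : nrm (BA (i + 1) (fun j => (2 * (j : ℝ) - (i + 1)) • T ^ j))
      ≤ Real.sqrt ((i : ℝ) + 1) := by
    refine (nrm_BA _ _).trans ?_
    set s := Real.sqrt ((i : ℝ) + 1) with hs
    have spos : 0 < s := Real.sqrt_pos.mpr (by positivity)
    have hs2 : s ^ 2 = (i : ℝ) + 1 := Real.sq_sqrt (by positivity)
    refine (Bexp_mono (by norm_num) (by norm_num) _ _
      (fun j => 1 / (2 * s) * ((2 * (j : ℝ) - ((i + 1 : ℕ) : ℝ)) ^ 2) + s / 2) fun j => ?_).trans ?_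
    · rw [nrm_smul, (hT.pow j).nrm_eq, mul_one]
      push_cast
      set x := 2 * (j : ℝ) - ((i : ℝ) + 1)
      have e : 1 / (2 * s) * x ^ 2 + s / 2 = (x ^ 2 + s ^ 2) / (2 * s) := by field_simp
      rw [e, le_div_iff₀ (by positivity)]
      nlinarith [sq_nonneg (|x| - s), sq_abs x]
    · rw [Bexp_add, Bexp_smul, Bexp_const, Bexp_dev]
      push_cast
      rw [← hs2]
      field_simp
      linarith
  rw [h] at hb
  rw [le_div_iff₀ (Real.sqrt_pos.mpr (by positivity))]
  have hs2 := Real.mul_self_sqrt (show (0:ℝ) ≤ (i : ℝ) + 1 by positivity)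
  set s := Real.sqrt ((i : ℝ) + 1)
  have spos : 0 < s := Real.sqrt_pos.mpr (by positivity)
  nlinarith [hb]

end Bexp

/-- smoothing at rate sigma -/
def Smooth (T : Alg) (σ : ℝ) : Prop :=
  ∀ g : ℕ, nrm ((T - 1) * T ^ g) * Real.sqrt ((g : ℝ) + 1) ≤ σ

lemma Smooth.le_div {T : Alg} {σ : ℝ} (h : Smooth T σ) (g : ℕ) :
    nrm ((T - 1) * T ^ g) ≤ σ / Real.sqrt ((g : ℝ) + 1) := by
  rw [le_div_iff₀ (Real.sqrt_pos.mpr (by positivity))]; exact h g

lemma Smooth.pow_sub_one {T : Alg} {σ : ℝ} (hT : IsPM T) (h : Smooth T σ) (g j : ℕ) :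
    nrm ((T ^ j - 1) * T ^ g) ≤ j * (σ / Real.sqrt ((g : ℝ) + 1)) := by
  induction j with
  | zero => simp [nrm_zero]
  | succ j ih =>
    have e : (T ^ (j + 1) - 1) * T ^ g = T ^ j * ((T - 1) * T ^ g) + (T ^ j - 1) * T ^ g := by
      rw [pow_succ]; noncomm_ring
    rw [e]
    refine (nrm_add _ _).trans ?_
    have : nrm (T ^ j * ((T - 1) * T ^ g)) ≤ σ / Real.sqrt ((g : ℝ) + 1) := by
      refine (nrm_mul _ _).trans ?_
      rw [(hT.pow j).nrm_eq, one_mul]; exact h.le_div g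
    push_cast
    linarith

/-- zero-two law -/
theorem smooth_of_overlap {T C : Alg} (hT : IsPM T) (hC : Nonneg C) {h : ℕ}
    (h1 : Nonneg (T ^ h - C)) (h2 : Nonneg (T ^ (h + 1) - C)) (hη : 0 < mass C) :
    Smooth T (2 * Real.sqrt (((h : ℝ) + 1) / mass C)) := by
  set η := mass C with hηdef
  have hη1 : η ≤ 1 := by
    have := nrm_eq_mass h1
    have h' := nrm_nonneg (T ^ h - C)
    rw [this, mass_sub, (hT.pow h).2] at h'
    linarith
  set S : Alg := (1 / 2 : ℝ) • (1 + T) with hS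
  set R : Alg := T ^ (h + 1) - S * C with hR
  have hSn : Nonneg S := (IsPM.one.1.add hT.1).smul (by norm_num)
  have hSm : mass S = 1 := by rw [hS, mass_smul, mass_add, mass_one, hT.2]; norm_num
  have hRn : Nonneg R := by
    have e : R = (1 / 2 : ℝ) • ((T ^ (h + 1) - C) + T * (T ^ h - C)) := by
      rw [hR, hS, pow_succ', mul_sub, smul_mul_assoc, add_mul, one_mul]
      module
    rw [e]
    exact (h2.add (hT.1.mul h1)).smul (by norm_num)
  have hRm : mass R = 1 - η := by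
    rw [hR, mass_sub, mass_mul, (hT.pow _).2, hSm]; ring
  have hcomm : Commute S T := by
    rw [hS]; exact ((Commute.one_left T).add_left (Commute.refl T)).smul_left _
  have base : ∀ i : ℕ, nrm ((T - 1) * S ^ i) ≤ 2 / Real.sqrt ((i : ℝ) + 1) := binom_diff hT
  have key : ∀ n i : ℕ, nrm ((T - 1) * S ^ i * T ^ (n * (h + 1)))
      ≤ Bexp η n (fun j => 2 / Real.sqrt (((i + j : ℕ) : ℝ) + 1)) := by
    intro n
    induction n with
    | zero => intro i; simpa [Bexp] using base i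
    | succ n ih =>
      intro i
      have hk : T ^ (h + 1) = S * C + R := by rw [hR]; abel
      have e : (T - 1) * S ^ i * T ^ ((n + 1) * (h + 1))
          = (T - 1) * S ^ (i + 1) * T ^ (n * (h + 1)) * C
            + (T - 1) * S ^ i * T ^ (n * (h + 1)) * R := by
        rw [Nat.succ_mul, pow_add, hk, mul_add, mul_add, pow_succ]
        congr 1
        · have := (hcomm.pow_right (n * (h + 1))).eq
          simp only [mul_assoc]
          rw [← mul_assoc S (T ^ _) C, this, mul_assoc]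
        · rw [← mul_assoc]
      rw [e]
      refine (nrm_add _ _).trans ?_
      show _ ≤ η * Bexp η n _ + (1 - η) * Bexp η n _
      refine add_le_add ?_ ?_
      · refine (nrm_mul _ _).trans ?_
        rw [nrm_eq_mass hC, mul_comm]
        refine mul_le_mul_of_nonneg_left ((ih (i + 1)).trans (le_of_eq ?_)) hη.le
        congr 1; funext j; rw [show i + 1 + j = i + (j + 1) by ring]
      · refine (nrm_mul _ _).trans ?_
        rw [nrm_eq_mass hRn, hRm, mul_comm]
        exact mul_le_mul_of_nonneg_left (ih i) (by linarith)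
  intro g
  set k := h + 1 with hk
  set n := g / k
  have hg : g = n * k + g % k := by rw [mul_comm]; exact (Nat.div_add_mod g k).symm
  have hlt : g + 1 ≤ (n + 1) * k := by
    have := Nat.mod_lt g (show 0 < k by omega)
    rw [Nat.succ_mul]; omega
  have b1 : nrm ((T - 1) * T ^ g) ≤ 2 / Real.sqrt (η * (n + 1)) := by
    rw [hg, pow_add, ← mul_assoc]
    refine (nrm_mul _ _).trans ?_
    rw [(hT.pow _).nrm_eq, mul_one]
    have := key n 0
    rw [pow_zero, mul_one] at this
    refine this.trans ?_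
    have e : (fun j : ℕ => 2 / Real.sqrt (((0 + j : ℕ) : ℝ) + 1))
        = fun j : ℕ => 2 * (1 / Real.sqrt ((j : ℝ) + 1)) := by
      funext j; rw [zero_add, mul_one_div]
    rw [e, Bexp_smul]
    calc 2 * Bexp η n (fun j => 1 / Real.sqrt ((j : ℝ) + 1))
        ≤ 2 * (1 / Real.sqrt (η * (n + 1))) := by
          exact mul_le_mul_of_nonneg_left (Bexp_inv_sqrt hη hη1 n) (by norm_num)
      _ = _ := by rw [mul_one_div]
  refine (mul_le_mul_of_nonneg_right b1 (Real.sqrt_nonneg _)).trans ?_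
  have hc : ((g : ℝ) + 1) ≤ ((n : ℝ) + 1) * ((h : ℝ) + 1) := by exact_mod_cast hlt
  rw [div_mul_eq_mul_div, mul_div_assoc, ← Real.sqrt_div' _ (by positivity)]
  refine mul_le_mul_of_nonneg_left (Real.sqrt_le_sqrt ?_) (by norm_num)
  rw [div_le_div_iff₀ (by positivity) hη]
  calc ((g : ℝ) + 1) * η ≤ ((n : ℝ) + 1) * ((h : ℝ) + 1) * η := by
        exact mul_le_mul_of_nonneg_right hc hη.le
    _ = _ := by ring

end Vale.Agent.P321
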