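import Mathlib
import Vale.Agent.P321.Smooth

/-
Binomial point probabilities: peak bound, unimodality in the number of trials, and sums along
spaced sets.
-/

open scoped BigOperators
open Finset

namespace Vale.Agent.P321

/-- binomial point probability -/
noncomputable def Bp (π : ℝ) (n l : ℕ) : ℝ := Bexp π n (fun j => if j = l then 1 else 0)

variable {π : ℝ}

lemma Bexp_sum {ι : Type*} (n : ℕ) (s : Finset ι) (f : ι → ℕ → ℝ) :
    Bexp π n (fun j => ∑ i ∈ s, f i j) = ∑ i ∈ s, Bexp π n (f i) := by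
  classical
  induction s using Finset.induction_on with
  | empty => simpa using Bexp_const (η := π) n 0
  | @insert a s ha ih => simp only [sum_insert ha]; rw [Bexp_add, ih]

lemma Bp_zero_n (l : ℕ) : Bp π 0 l = if l = 0 then 1 else 0 := by
  simp [Bp, Bexp, eq_comm]

lemma Bp_succ_succ (n l : ℕ) : Bp π (n + 1) (l + 1) = π * Bp π n l + (1 - π) * Bp π n (l + 1) := by
  simp [Bp, Bexp]

lemma Bp_succ_zero (n : ℕ) : Bp π (n + 1) 0 = (1 - π) * Bp π n 0 := by
  simp [Bp, Bexp, Bexp_const]

lemma Bp_mul (n l : ℕ) :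
    ((l : ℝ) + 1) * Bp π (n + 1) (l + 1) = ((n : ℝ) + 1) * π * Bp π n l := by
  rw [Bp, Bp, ← Bexp_mul_index, ← Bexp_smul]
  congr 1
  funext j
  rcases j with _ | j
  · simp
  · by_cases h : j = l
    · subst h; simp
    · simp [h]

lemma Bp_nonneg (h0 : 0 ≤ π) (h1 : π ≤ 1) (n l : ℕ) : 0 ≤ Bp π n l := by
  have := Bexp_mono h0 h1 n (fun _ => (0 : ℝ)) (fun j => if j = l then 1 else 0)
    (fun j => by split_ifs <;> norm_num)
  rwa [Bexp_const] at this

lemma Bp_eq_zero (n : ℕ) : ∀ l, n < l → Bp π n l = 0 := by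
  induction n with
  | zero => intro l h; rw [Bp_zero_n, if_neg (by omega)]
  | succ n ih =>
    intro l h
    obtain ⟨l, rfl⟩ : ∃ j, l = j + 1 := ⟨l - 1, by omega⟩
    rw [Bp_succ_succ, ih _ (by omega), ih _ (by omega)]; simp

lemma sum_Bp_mul (n N : ℕ) (f : ℕ → ℝ) :
    ∑ l ∈ range N, Bp π n l * f l = Bexp π n (fun j => if j < N then f j else 0) := by
  have : ∀ l, Bp π n l * f l = Bexp π n (fun j => f l * if j = l then 1 else 0) := fun l => by
    rw [Bexp_smul, Bp, mul_comm]
  simp only [this, ← Bexp_sum]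
  congr 1
  funext j
  simp [mul_ite, Finset.sum_ite_eq]

lemma sum_Bp_mul_le (h0 : 0 ≤ π) (h1 : π ≤ 1) (n N : ℕ) (f : ℕ → ℝ) (hf : ∀ j, 0 ≤ f j) :
    ∑ l ∈ range N, Bp π n l * f l ≤ Bexp π n f := by
  rw [sum_Bp_mul]
  exact Bexp_mono h0 h1 _ _ _ fun j => by split_ifs; exacts [le_rfl, hf j]

lemma sum_Bp_le (h0 : 0 ≤ π) (h1 : π ≤ 1) (n N : ℕ) : ∑ l ∈ range N, Bp π n l ≤ 1 := by
  have := sum_Bp_mul_le h0 h1 n N (fun _ => 1) (fun _ => zero_le_one)
  simpa [Bexp_const] using this

/-- successive ratio in the number of trials -/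
lemma Bp_ratio (n l : ℕ) :
    Bp π (n + 1) (l + 1) * ((n : ℝ) - l) = ((n : ℝ) + 1) * (1 - π) * Bp π n (l + 1) := by
  linear_combination ((n : ℝ) + 1) * Bp_succ_succ (π := π) n l - Bp_mul (π := π) n l

lemma sum_Bp_trials (h0 : 0 < π) (h1 : π ≤ 1) (N : ℕ) :
    ∀ l, ∑ n ∈ range N, Bp π n l ≤ 1 / π := by
  intro l
  induction l with
  | zero =>
    have hz : ∀ n, Bp π n 0 = (1 - π) ^ n := by
      intro n
      induction n with
      | zero => simp [Bp_zero_n]
      | succ n ih => rw [Bp_succ_zero, ih, pow_succ']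
    simp only [hz]
    rw [le_div_iff₀ h0]
    have := geom_sum_mul (1 - π) N
    nlinarith [pow_nonneg (sub_nonneg.mpr h1) N]
  | succ l ih =>
    have e : ∑ n ∈ range N, Bp π (n + 1) (l + 1)
        = π * ∑ n ∈ range N, Bp π n l + (1 - π) * ∑ n ∈ range N, Bp π n (l + 1) := by
      simp only [Bp_succ_succ, sum_add_distrib, mul_sum]
    have e2 := sum_range_succ' (fun n => Bp π n (l + 1)) N
    have e3 := sum_range_succ (fun n => Bp π n (l + 1)) N
    have z : Bp π 0 (l + 1) = 0 := by rw [Bp_zero_n, if_neg (by omega)]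
    have := Bp_nonneg h0.le h1 N (l + 1)
    simp only [z, add_zero] at e2
    have key : π * ∑ n ∈ range N, Bp π n (l + 1) ≤ π * ∑ n ∈ range N, Bp π n l := by nlinarith
    exact (le_of_mul_le_mul_left key h0).trans ih

/-- the symbol used to count -/
noncomputable def tick : W := FreeMonoid.of true

lemma tick_pow_inj : Function.Injective (fun l : ℕ => tick ^ l) := by
  intro a b h
  have := congrArg FreeMonoid.length h
  have e : ∀ l : ℕ, FreeMonoid.length (tick ^ l) = l := by
    intro l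
    induction l with
    | zero => simp
    | succ l ih => rw [pow_succ, FreeMonoid.length_mul, ih]; simp [tick]
  simpa [e] using this

lemma pow_binom_alg (n : ℕ) :
    ((1 - π) • (1 : Alg) + π • pt tick) ^ n = ∑ l ∈ range (n + 1), Bp π n l • pt (tick ^ l) := by
  induction n with
  | zero => simp [Bp_zero_n, pt_one]
  | succ n ih =>
    have e1 : ∑ l ∈ range (n + 1 + 1), Bp π (n + 1) l • pt (tick ^ l)
        = (∑ l ∈ range (n + 1), (π * Bp π n l) • pt (tick ^ (l + 1))
            + ∑ l ∈ range (n + 1), ((1 - π) * Bp π n (l + 1)) • pt (tick ^ (l + 1)))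
          + ((1 - π) * Bp π n 0) • pt (tick ^ 0) := by
      rw [sum_range_succ', Bp_succ_zero]
      congr 1
      rw [← sum_add_distrib]
      exact sum_congr rfl fun l _ => by rw [Bp_succ_succ, add_smul]
    have e2 : ∑ l ∈ range (n + 1), ((1 - π) * Bp π n (l + 1)) • pt (tick ^ (l + 1))
          + ((1 - π) * Bp π n 0) • pt (tick ^ 0)
        = ∑ l ∈ range (n + 1), (1 - π) • Bp π n l • pt (tick ^ l) := by
      rw [← sum_range_succ' (fun l => ((1 - π) * Bp π n l) • pt (tick ^ l)), sum_range_succ,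
        Bp_eq_zero n (n + 1) (by omega), mul_zero, zero_smul, add_zero]
      exact sum_congr rfl fun l _ => mul_smul _ _ _
    have e3 : ∀ l ∈ range (n + 1), π • (pt tick * Bp π n l • pt (tick ^ l))
        = (π * Bp π n l) • pt (tick ^ (l + 1)) := by
      intro l _
      rw [mul_smul_comm, pt_mul, ← pow_succ', mul_smul]
    rw [e1, pow_succ', ih, add_mul, smul_mul_assoc, smul_mul_assoc, one_mul, mul_sum, smul_sum,
      smul_sum, sum_congr rfl e3, add_assoc, e2, add_comm]

theorem Bp_peak (h0 : 0 < π) (h1 : π < 1) :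
    ∃ c : ℝ, 0 ≤ c ∧ ∀ n l, Bp π n l ≤ c / Real.sqrt ((n : ℝ) + 1) := by
  set T : Alg := (1 - π) • (1 : Alg) + π • pt tick with hT
  have hpm : IsPM T := by
    refine ⟨(IsPM.one.1.smul (by linarith)).add ((nonneg_pt _).smul h0.le), ?_⟩
    simp [hT, mass_add, mass_smul, mass_one, mass_pt]
  have hsm : Smooth T (2 * Real.sqrt (((0 : ℕ) : ℝ) + 1) / 1 * (1 / Real.sqrt (1 - π))) := by
    have := smooth_of_overlap hpm (C := (1 - π) • (1 : Alg)) (IsPM.one.1.smul (by linarith)) (h := 0)
      (by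
        rw [pow_zero]
        have : (1 : Alg) - (1 - π) • 1 = π • 1 := by module
        rw [this]; exact IsPM.one.1.smul h0.le)
      (by rw [zero_add, pow_one, hT, add_sub_cancel_left]; exact (nonneg_pt _).smul h0.le)
      (by rw [mass_smul, mass_one]; linarith)
    intro g
    refine (this g).trans (le_of_eq ?_)
    rw [mass_smul, mass_one, mul_one]
    simp
  set σ := 2 * Real.sqrt (((0 : ℕ) : ℝ) + 1) / 1 * (1 / Real.sqrt (1 - π))
  have σ0 : 0 ≤ σ := by positivity
  refine ⟨σ / π, by positivity, fun n l => ?_⟩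
  have hco : ∀ N i, i ≤ N → (T ^ N).coeff (tick ^ i) = Bp π N i := by
    intro N i hi
    rw [hT, pow_binom_alg, MonoidAlgebra.coeff_sum, Finsupp.finsetSum_apply, sum_eq_single i]
    · simp [coeff_pt]
    · intro j _ hj
      simp [coeff_pt, tick_pow_inj.ne hj]
    · intro h; exfalso; apply h; simp; omega
  rcases Nat.lt_or_ge n l with h | h
  · rw [Bp_eq_zero n l h]; positivity
  have hd : ∀ i ≤ n, ((T - 1) * T ^ n).coeff (tick ^ i) = Bp π (n + 1) i - Bp π n i := by
    intro i hi
    rw [sub_mul, one_mul, ← pow_succ', MonoidAlgebra.coeff_sub, Finsupp.sub_apply,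
      hco _ _ (by omega), hco _ _ hi]
  have htel : ∀ L, ∑ i ∈ range (L + 1), (Bp π (n + 1) i - Bp π n i) = -(π * Bp π n L) := by
    intro L
    induction L with
    | zero => simp [Bp_succ_zero]; ring
    | succ L ih => rw [sum_range_succ, ih, Bp_succ_succ]; ring
  have key : π * Bp π n l ≤ nrm ((T - 1) * T ^ n) := by
    set f := (T - 1) * T ^ n with hf
    calc π * Bp π n l = |∑ i ∈ range (l + 1), f.coeff (tick ^ i)| := by
          rw [sum_congr rfl fun i hi => hd i (by simp at hi; omega), htel, abs_neg,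
            abs_of_nonneg (mul_nonneg h0.le (Bp_nonneg h0.le h1.le n l))]
      _ ≤ ∑ i ∈ range (l + 1), |f.coeff (tick ^ i)| := abs_sum_le_sum_abs _ _
      _ = ∑ w ∈ (range (l + 1)).image (fun i => tick ^ i), |f.coeff w| := by
          rw [sum_image tick_pow_inj.injOn]
      _ ≤ ∑ w ∈ (range (l + 1)).image (fun i => tick ^ i) ∪ f.coeff.support, |f.coeff w| :=
          sum_le_sum_of_subset_of_nonneg subset_union_left fun _ _ _ => abs_nonneg _
      _ = nrm f := (nrm_eq_sum_of_subset subset_union_right).symm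
  have := key.trans (hsm.le_div n)
  rw [div_div, mul_comm π (Real.sqrt _), ← div_div, le_div_iff₀ h0]
  linarith

/-- spacing of a set of naturals -/
def Spaced (S : ℕ) (G : Finset ℕ) : Prop := ∀ x ∈ G, ∀ y ∈ G, x < y → x + S ≤ y

lemma Spaced.subset {S : ℕ} {G H : Finset ℕ} (h : Spaced S G) (hs : H ⊆ G) : Spaced S H :=
  fun x hx y hy => h x (hs hx) y (hs hy)

lemma sum_spaced_le (S : ℕ) (hS : 0 < S) (a : ℕ → ℝ) (ha : ∀ n, 0 ≤ a n) (M : ℝ)
    (haM : ∀ n, a n ≤ M) (n0 N : ℕ) (hinc : ∀ m n, m ≤ n → n ≤ n0 → a m ≤ a n)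
    (hdec : ∀ m n, n0 ≤ m → m ≤ n → a n ≤ a m) (G : Finset ℕ) (hG : Spaced S G)
    (hN : ∀ n ∈ G, n < N) :
    ∑ n ∈ G, a n ≤ 2 * M + (2 / (S : ℝ)) * ∑ n ∈ range N, a n := by
  have hM : 0 ≤ M := (ha 0).trans (haM 0)
  have hSr : (0 : ℝ) < S := by exact_mod_cast hS
  have disj : ∀ (H : Finset ℕ), H ⊆ G → ∀ (f : ℕ → ℕ → ℕ),
      (∀ p ∈ H ×ˢ range S, f p.1 p.2 < N) →
      (∀ p ∈ H ×ˢ range S, ∀ p' ∈ H ×ˢ range S, f p.1 p.2 = f p'.1 p'.2 → p = p') →
      (∀ p ∈ H ×ˢ range S, a p.1 ≤ a (f p.1 p.2)) →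
      ∑ n ∈ H, a n ≤ (1 / (S : ℝ)) * ∑ n ∈ range N, a n := by
    intro H _ f h1 h2 h3
    rw [one_div_mul_eq_div, le_div_iff₀ hSr, sum_mul]
    calc ∑ n ∈ H, a n * (S : ℝ) = ∑ p ∈ H ×ˢ range S, a p.1 := by
          rw [sum_product]; simp [mul_comm]
      _ ≤ ∑ p ∈ H ×ˢ range S, a (f p.1 p.2) := sum_le_sum h3
      _ = ∑ n ∈ (H ×ˢ range S).image (fun p => f p.1 p.2), a n := by rw [sum_image h2]
      _ ≤ ∑ n ∈ range N, a n := by
          refine sum_le_sum_of_subset_of_nonneg ?_ fun n _ _ => ha n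
          intro n hn
          simp only [mem_image] at hn
          obtain ⟨p, hp, rfl⟩ := hn
          exact mem_range.mpr (h1 p hp)
  rw [← sum_filter_add_sum_filter_not G (fun n => n ≤ n0)]
  set Gl := G.filter (fun n => n ≤ n0) with hGl
  set Gr := G.filter (fun n => ¬ n ≤ n0) with hGr
  have hl : ∑ n ∈ Gl, a n ≤ M + (1 / (S : ℝ)) * ∑ n ∈ range N, a n := by
    rcases Gl.eq_empty_or_nonempty with h | h
    · rw [h, sum_empty]
      have := sum_nonneg (s := range N) fun n _ => ha n
      positivity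
    set top := Gl.max' h
    have htop : top ∈ Gl := max'_mem _ _
    rw [← insert_erase htop, sum_insert (notMem_erase _ _)]
    refine add_le_add (haM _) (disj _ ((erase_subset _ _).trans (filter_subset _ _))
      (fun n i => n + i) ?_ ?_ ?_)
    · intro p hp
      simp only [mem_product, mem_erase, mem_range] at hp
      have h1 := le_max' _ _ hp.1.2
      have h2 := mem_filter.mp hp.1.2
      have h3 := mem_filter.mp htop
      have := hG _ h2.1 _ h3.1 (lt_of_le_of_ne h1 hp.1.1)
      have := hN _ h3.1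
      omega
    · intro p hp p' hp' he
      simp only [mem_product, mem_erase, mem_range, hGl, mem_filter] at hp hp'
      rcases lt_trichotomy p.1 p'.1 with hlt | heq | hlt
      · have := hG _ hp.1.2.1 _ hp'.1.2.1 hlt; omega
      · exact Prod.ext heq (by omega)
      · have := hG _ hp'.1.2.1 _ hp.1.2.1 hlt; omega
    · intro p hp
      simp only [mem_product, mem_erase, mem_range] at hp
      have h1 := le_max' _ _ hp.1.2
      have h2 := mem_filter.mp hp.1.2
      have h3 := mem_filter.mp htop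
      have := hG _ h2.1 _ h3.1 (lt_of_le_of_ne h1 hp.1.1)
      exact hinc _ _ (by omega) (by omega)
  have hr : ∑ n ∈ Gr, a n ≤ M + (1 / (S : ℝ)) * ∑ n ∈ range N, a n := by
    rcases Gr.eq_empty_or_nonempty with h | h
    · rw [h, sum_empty]
      have := sum_nonneg (s := range N) fun n _ => ha n
      positivity
    set bot := Gr.min' h
    have hbot : bot ∈ Gr := min'_mem _ _
    rw [← insert_erase hbot, sum_insert (notMem_erase _ _)]
    refine add_le_add (haM _) (disj _ ((erase_subset _ _).trans (filter_subset _ _))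
      (fun n i => n - i) ?_ ?_ ?_)
    · intro p hp
      simp only [mem_product, mem_erase, mem_range] at hp
      have := hN _ (mem_filter.mp hp.1.2).1
      omega
    · intro p hp p' hp' he
      simp only [mem_product, mem_erase, mem_range] at hp hp'
      have hb1 := lt_of_le_of_ne (min'_le _ _ hp.1.2) (Ne.symm hp.1.1)
      have hb2 := lt_of_le_of_ne (min'_le _ _ hp'.1.2) (Ne.symm hp'.1.1)
      have hp1 := (mem_filter.mp hp.1.2).1
      have hp1' := (mem_filter.mp hp'.1.2).1
      have := hG _ (mem_filter.mp hbot).1 _ hp1 hb1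
      have := hG _ (mem_filter.mp hbot).1 _ hp1' hb2
      rcases lt_trichotomy p.1 p'.1 with hlt | heq | hlt
      · have := hG _ hp1 _ hp1' hlt; omega
      · exact Prod.ext heq (by omega)
      · have := hG _ hp1' _ hp1 hlt; omega
    · intro p hp
      simp only [mem_product, mem_erase, mem_range] at hp
      have hb1 := lt_of_le_of_ne (min'_le _ _ hp.1.2) (Ne.symm hp.1.1)
      have := hG _ (mem_filter.mp hbot).1 _ (mem_filter.mp hp.1.2).1 hb1
      have := (mem_filter.mp hbot).2
      exact hdec _ _ (by omega) (by omega)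
  have e : 2 * M + 2 / (S : ℝ) * ∑ n ∈ range N, a n
      = (M + 1 / (S : ℝ) * ∑ n ∈ range N, a n) + (M + 1 / (S : ℝ) * ∑ n ∈ range N, a n) := by ring
  rw [e]; exact add_le_add hl hr

theorem sum_Bp_spaced {c : ℝ} (h0 : 0 < π) (h1 : π < 1)
    (hc : 0 ≤ c) (hpk : ∀ n l, Bp π n l ≤ c / Real.sqrt ((n : ℝ) + 1))
    (S : ℕ) (hS : 0 < S) (G : Finset ℕ) (hG : Spaced S G) (l : ℕ) :
    ∑ n ∈ G, Bp π n l ≤ 2 * (c / Real.sqrt ((l : ℝ) + 1)) + 2 / ((S : ℝ) * π) := by
  have hM : ∀ n, Bp π n l ≤ c / Real.sqrt ((l : ℝ) + 1) := by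
    intro n
    rcases Nat.lt_or_ge n l with h | h
    · rw [Bp_eq_zero n l h]; positivity
    · refine (hpk n l).trans ?_
      gcongr
  set N := G.sup id + 1
  -- the mode
  have hmode : ∃ n0, (∀ m n, m ≤ n → n ≤ n0 → Bp π m l ≤ Bp π n l) ∧
      ∀ m n, n0 ≤ m → m ≤ n → Bp π n l ≤ Bp π m l := by
    rcases l with _ | l
    · refine ⟨0, fun m n hmn hn => by
        rw [show m = 0 by omega, show n = 0 by omega], fun m n _ hmn => ?_⟩
      induction n, hmn using Nat.le_induction with
      | base => exact le_rfl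
      | succ n _ ih =>
        refine le_trans ?_ ih
        rw [Bp_succ_zero]
        nlinarith [Bp_nonneg h0.le h1.le n 0]
    set n0 := ⌈((l : ℝ) + (1 - π)) / π⌉₊ with hn0
    have hln : l + 1 ≤ n0 := by
      rw [hn0]
      refine Nat.lt_ceil.mpr ?_
      rw [lt_div_iff₀ h0]
      have : (0:ℝ) ≤ (l:ℝ) := Nat.cast_nonneg _
      nlinarith
    refine ⟨n0, fun m n hmn => ?_, fun m n hm hmn => ?_⟩
    · induction n, hmn using Nat.le_induction with
      | base => intro _; exact le_rfl
      | succ n hn ih =>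
        intro hle
        refine (ih (by omega)).trans ?_
        rcases Nat.lt_or_ge l n with hln' | hln'
        · have hlt : (n : ℝ) < ((l : ℝ) + (1 - π)) / π := Nat.lt_ceil.mp (by omega : n < n0)
          rw [lt_div_iff₀ h0] at hlt
          have hr := Bp_ratio (π := π) n l
          have hpos : (0 : ℝ) < (n : ℝ) - l := by
            have : (l : ℝ) < n := by exact_mod_cast hln'
            linarith
          have h2 : (n : ℝ) - l ≤ ((n : ℝ) + 1) * (1 - π) := by linarith
          have := mul_le_mul_of_nonneg_right h2 (Bp_nonneg h0.le h1.le n (l + 1))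
          rw [← hr] at this
          exact le_of_mul_le_mul_left (by linarith) hpos
        · rw [Bp_eq_zero n (l + 1) (by omega)]
          exact Bp_nonneg h0.le h1.le _ _
    · induction n, hmn using Nat.le_induction with
      | base => exact le_rfl
      | succ n hn ih =>
        refine le_trans ?_ ih
        have hge : ((l : ℝ) + (1 - π)) / π ≤ n :=
          (Nat.le_ceil _).trans (by exact_mod_cast (by omega : n0 ≤ n))
        rw [div_le_iff₀ h0] at hge
        have hr := Bp_ratio (π := π) n l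
        have hpos : (0 : ℝ) < (n : ℝ) - l := by
          have : (l : ℝ) + 1 ≤ n := by exact_mod_cast (by omega : l + 1 ≤ n)
          linarith
        have h2 : ((n : ℝ) + 1) * (1 - π) ≤ (n : ℝ) - l := by linarith
        have := mul_le_mul_of_nonneg_right h2 (Bp_nonneg h0.le h1.le n (l + 1))
        rw [← hr] at this
        exact le_of_mul_le_mul_left (by linarith) hpos
  obtain ⟨n0, hinc, hdec⟩ := hmode
  refine (sum_spaced_le S hS (fun n => Bp π n l) (fun n => Bp_nonneg h0.le h1.le n l) _ hM n0 N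
    hinc hdec G hG fun n hn => Nat.lt_succ_of_le (le_sup (f := id) hn)).trans ?_
  refine add_le_add_right (le_trans (mul_le_mul_of_nonneg_left (sum_Bp_trials h0 h1.le N l)
    (by positivity)) (le_of_eq ?_)) _
  field_simp

/-- inverse square roots along a spaced set -/
lemma sum_inv_sqrt_spaced (S : ℕ) (hS : 0 < S) (G : Finset ℕ) (hG : Spaced S G)
    (hmin : ∀ n ∈ G, S ≤ n + 1) :
    (∀ n ∈ G, G.card * S ≤ G.sup id + 1) ∧
    ∑ n ∈ G, 1 / Real.sqrt ((n : ℝ) + 1) ≤ 2 * Real.sqrt G.card / Real.sqrt S := by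
  induction G using Finset.induction_on_max with
  | empty => simp
  | insert a G hlt ih =>
    have ha : a ∉ G := fun h => lt_irrefl _ (hlt a h)
    obtain ⟨ih1, ih2⟩ := ih (hG.subset (subset_insert _ _)) fun n hn => hmin n (mem_insert_of_mem hn)
    have hsup : (insert a G).sup id = a := by
      rw [sup_insert]
      exact sup_eq_left.mpr (Finset.sup_le fun x hx => (hlt x hx).le)
    have key : (insert a G).card * S ≤ a + 1 := by
      rw [card_insert_of_notMem ha, Nat.succ_mul]
      rcases G.eq_empty_or_nonempty with h | h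
      · subst h; simpa using hmin a (mem_insert_self _ _)
      · have h1 := ih1 _ (max'_mem _ h)
        have : G.sup id = G.max' h := by rw [max'_eq_sup', ← sup'_eq_sup h]
        rw [this] at h1
        have := hG _ (mem_insert_of_mem (max'_mem _ h)) _ (mem_insert_self _ _) (hlt _ (max'_mem _ h))
        omega
    refine ⟨fun n _ => by rw [hsup]; exact key, ?_⟩
    rw [sum_insert ha, card_insert_of_notMem ha] at *
    have hsS : 0 < Real.sqrt S := Real.sqrt_pos.mpr (by exact_mod_cast hS)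
    have h2 : 1 / Real.sqrt ((a : ℝ) + 1)
        ≤ 1 / (Real.sqrt ((G.card : ℝ) + 1) * Real.sqrt S) := by
      rw [← Real.sqrt_mul (by positivity)]
      gcongr
      exact_mod_cast key
    have hc0 : 0 < Real.sqrt ((G.card : ℝ) + 1) := Real.sqrt_pos.mpr (by positivity)
    set r := Real.sqrt ((G.card : ℝ) + 1)
    set r0 := Real.sqrt (G.card : ℝ)
    have hr : r ^ 2 = (G.card : ℝ) + 1 := Real.sq_sqrt (by positivity)
    have hr0 : r0 ^ 2 = (G.card : ℝ) := Real.sq_sqrt (by positivity)
    have h3 : 1 / r + 2 * r0 ≤ 2 * r := by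
      rw [div_add' _ _ _ hc0.ne', div_le_iff₀ hc0]
      nlinarith [sq_nonneg (r - r0)]
    push_cast
    rw [le_div_iff₀ hsS] at ih2 ⊢
    have h4 : 1 / (r * Real.sqrt S) * Real.sqrt S = 1 / r := by field_simp
    nlinarith [mul_le_mul_of_nonneg_right h2 hsS.le]

lemma Bexp_variance (n : ℕ) :
    Bexp π n (fun j => ((j : ℝ) - π * n) ^ 2) = n * π * (1 - π) := by
  induction n with
  | zero => simp [Bexp]
  | succ n ih =>
    have hmean : ∀ n : ℕ, Bexp π n (fun j => (j : ℝ) - π * n) = 0 := by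
      intro n
      induction n with
      | zero => simp [Bexp]
      | succ n ih =>
        simp only [Bexp]
        have e1 : (fun j : ℕ => ((j + 1 : ℕ) : ℝ) - π * ((n + 1 : ℕ) : ℝ))
            = fun j : ℕ => ((j : ℝ) - π * n) + (1 - π) := by funext j; push_cast; ring
        have e2 : (fun j : ℕ => (j : ℝ) - π * ((n + 1 : ℕ) : ℝ))
            = fun j : ℕ => ((j : ℝ) - π * n) + (-π) := by funext j; push_cast; ring
        rw [e1, e2, Bexp_add, Bexp_add, Bexp_const, Bexp_const, ih]; ring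
    simp only [Bexp]
    have e1 : (fun j : ℕ => (((j + 1 : ℕ) : ℝ) - π * ((n + 1 : ℕ) : ℝ)) ^ 2)
        = fun j : ℕ => (((j : ℝ) - π * n) ^ 2 + 2 * (1 - π) * ((j : ℝ) - π * n)) + (1 - π) ^ 2 := by
      funext j; push_cast; ring
    have e2 : (fun j : ℕ => ((j : ℝ) - π * ((n + 1 : ℕ) : ℝ)) ^ 2)
        = fun j : ℕ => (((j : ℝ) - π * n) ^ 2 + -2 * π * ((j : ℝ) - π * n)) + π ^ 2 := by
      funext j; push_cast; ring
    rw [e1, e2, Bexp_add, Bexp_add, Bexp_add, Bexp_add, Bexp_smul, Bexp_smul, Bexp_const,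
      Bexp_const, hmean, ih]
    push_cast; ring

end Vale.Agent.P321
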