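import Mathlib
import Vale.Agent.P321.Smooth

/-
Commutator estimates: averaging a block over translations, and Thue-Morse cancellation of
translates, inside powers of a smoothing measure.
-/

open scoped BigOperators
open Finset

namespace Vale.Agent.P321

/-- the block Z placed after a copies of T and before c copies -/
noncomputable def place (T Z : Alg) (a c : ℕ) : Alg := T ^ a * Z * T ^ c

/-- iterated difference with averaged translations -/
noncomputable def diffIter (T Z : Alg) (J : ℕ) : ℕ → ℕ → ℕ → Alg
  | 0, a, c => place T Z a c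
  | m + 1, a, c => diffIter T Z J m a c
      - (1 / (J : ℝ)) • ∑ j ∈ Icc 1 J, diffIter T Z J m (a - j) (c + j)

/-- averaging kernel -/
noncomputable def ker (J : ℕ) : ℕ → ℕ → ℝ
  | 0, _ => 0
  | m + 1, κ => ker J m κ + (1 / (J : ℝ)) *
      ∑ j ∈ Icc 1 J, ((if κ = j then 1 else 0) - if j ≤ κ then ker J m (κ - j) else 0)

lemma ker_eq_zero_of_gt (J : ℕ) : ∀ m κ, m * J < κ → ker J m κ = 0 := by
  intro m
  induction m with
  | zero => intro κ _; rfl
  | succ m ih =>
    intro κ h
    rw [Nat.succ_mul] at h
    rw [ker, ih κ (by omega), Finset.sum_eq_zero]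
    · simp
    intro j hj
    rw [mem_Icc] at hj
    rw [if_neg (by omega), if_pos (by omega), ih (κ - j) (by omega)]
    simp

lemma ker_shift_sum (J m j : ℕ) (hj : j ≤ J) {M : Type*} [AddCommMonoid M] [Module ℝ M]
    (v : ℕ → M) :
    ∑ κ ∈ range ((m + 1) * J + 1), (if j ≤ κ then ker J m (κ - j) else 0) • v κ
      = ∑ i ∈ range (m * J + 1), ker J m i • v (i + j) := by
  have hsub : range ((m + 1) * J + 1) = range j ∪ Ico j ((m + 1) * J + 1) := by
    ext x; simp [Nat.succ_mul]; omega
  rw [hsub, sum_union (by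
    rw [disjoint_left]; intro x hx hx'; simp at hx hx'; omega)]
  rw [Finset.sum_eq_zero (s := range j) (fun x hx => by
    simp at hx; rw [if_neg (by omega), zero_smul]), zero_add, sum_Ico_eq_sum_range]
  symm
  refine sum_subset_zero_on_sdiff ?_ ?_ ?_
  · intro x hx; simp [Nat.succ_mul] at hx ⊢; omega
  · intro x hx
    simp [Nat.succ_mul] at hx
    rw [if_pos (by omega), show j + x - j = x by omega,
      ker_eq_zero_of_gt J m x (by omega), zero_smul]
  · intro x _
    rw [if_pos (by omega), show j + x - j = x by omega, add_comm j x]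

lemma diffIter_eq (T Z : Alg) (J : ℕ) : ∀ m a c, diffIter T Z J m a c
    = place T Z a c - ∑ κ ∈ range (m * J + 1), ker J m κ • place T Z (a - κ) (c + κ) := by
  intro m
  induction m with
  | zero => intro a c; simp [diffIter, ker]
  | succ m ih =>
    intro a c
    set v : ℕ → Alg := fun κ => place T Z (a - κ) (c + κ) with hv
    have key : ∑ κ ∈ range ((m + 1) * J + 1), ker J (m + 1) κ • v κ
        = (∑ κ ∈ range (m * J + 1), ker J m κ • v κ)
          + (1 / (J : ℝ)) • ∑ j ∈ Icc 1 J,
              (v j - ∑ i ∈ range (m * J + 1), ker J m i • v (i + j)) := by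
      simp only [ker, add_smul, mul_smul, sum_smul, sub_smul, Finset.sum_add_distrib,
        ← Finset.smul_sum]
      congr 1
      · symm
        refine sum_subset (fun x hx => by simp [Nat.succ_mul] at hx ⊢; omega) fun x _ hx => ?_
        simp at hx
        rw [ker_eq_zero_of_gt J m x (by omega), zero_smul]
      · congr 1
        rw [Finset.sum_comm]
        refine sum_congr rfl fun j hj => ?_
        rw [mem_Icc] at hj
        rw [sum_sub_distrib, ker_shift_sum J m j hj.2]
        congr 1
        rw [sum_eq_single j]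
        · simp
        · intro b _ hb; rw [if_neg hb, zero_smul]
        · intro h; exfalso; apply h; simp [Nat.succ_mul]; omega
    rw [key, diffIter, ih a c]
    have : ∀ j, diffIter T Z J m (a - j) (c + j)
        = v j - ∑ i ∈ range (m * J + 1), ker J m i • v (i + j) := by
      intro j
      rw [ih (a - j) (c + j)]
      congr 1
      refine sum_congr rfl fun i _ => ?_
      simp only [hv]
      rw [Nat.sub_sub, add_comm j i, add_assoc, add_comm i j]
    simp only [this, hv]
    abel

lemma place_hom (T Z : Alg) (a c e f : ℕ) :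
    place T Z (e + a) (c + f) = T ^ e * place T Z a c * T ^ f := by
  simp [place, pow_add, mul_assoc]

lemma diffIter_hom (T Z : Alg) (J : ℕ) : ∀ m a c e f, m * J ≤ a →
    diffIter T Z J m (e + a) (c + f) = T ^ e * diffIter T Z J m a c * T ^ f := by
  intro m
  induction m with
  | zero => intro a c e f _; exact place_hom T Z a c e f
  | succ m ih =>
    intro a c e f h
    rw [Nat.succ_mul] at h
    rw [diffIter, diffIter, ih a c e f (by omega)]
    have : ∀ j ∈ Icc 1 J, diffIter T Z J m (e + a - j) (c + f + j)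
        = T ^ e * diffIter T Z J m (a - j) (c + j) * T ^ f := by
      intro j hj
      rw [mem_Icc] at hj
      rw [← ih (a - j) (c + j) e f (by omega)]
      congr 1 <;> omega
    rw [sum_congr rfl this, ← sum_mul, ← mul_sum, mul_sub, sub_mul, mul_smul_comm, smul_mul_assoc]

variable {T : Alg} {σ : ℝ}

theorem nrm_diffIter (hT : IsPM T) (hs : Smooth T σ) (Z : Alg) {J : ℕ} (hJ : 0 < J) (g : ℕ) :
    ∀ m a c, m * (J + g) ≤ a → m * g ≤ c →
      nrm (diffIter T Z J m a c) ≤ (2 * J * (σ / Real.sqrt ((g : ℝ) + 1))) ^ m * nrm Z := by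
  intro m
  induction m with
  | zero =>
    intro a c _ _
    simp only [diffIter, place, pow_zero, one_mul]
    refine (nrm_mul _ _).trans ?_
    refine (mul_le_mul_of_nonneg_right (nrm_mul _ _) (nrm_nonneg _)).trans ?_
    rw [(hT.pow a).nrm_eq, (hT.pow c).nrm_eq]; simp
  | succ m ih =>
    intro a c ha hc
    set η := σ / Real.sqrt ((g : ℝ) + 1) with hη
    set B := (2 * J * η) ^ m * nrm Z
    rw [Nat.succ_mul] at ha hc
    have hJr : (0 : ℝ) < J := by exact_mod_cast hJ
    have e : diffIter T Z J (m + 1) a c = (1 / (J : ℝ)) • ∑ j ∈ Icc 1 J,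
        (diffIter T Z J m a c - diffIter T Z J m (a - j) (c + j)) := by
      rw [diffIter, sum_sub_distrib, smul_sub, sum_const, Nat.card_Icc]
      congr 1
      rw [← Nat.cast_smul_eq_nsmul ℝ, smul_smul]
      simp [hJr.ne']
    rw [e, nrm_smul, abs_of_nonneg (by positivity)]
    have hd : ∀ j ∈ Icc 1 J,
        nrm (diffIter T Z J m a c - diffIter T Z J m (a - j) (c + j)) ≤ 2 * (J * η) * B := by
      intro j hj
      rw [mem_Icc] at hj
      set a1 := a - j with ha1
      have hmJ : m * J ≤ m * (J + g) := Nat.mul_le_mul_left _ (by omega)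
      have hA : diffIter T Z J m a c = T ^ j * diffIter T Z J m a1 c := by
        have := diffIter_hom T Z J m a1 c j 0 (by omega)
        rwa [show j + a1 = a by omega, add_zero, pow_zero, mul_one] at this
      have hB : diffIter T Z J m a1 (c + j) = diffIter T Z J m a1 c * T ^ j := by
        have := diffIter_hom T Z J m a1 c 0 j (by omega)
        rwa [zero_add, pow_zero, one_mul] at this
      have hL : diffIter T Z J m a1 c = T ^ g * diffIter T Z J m (a1 - g) c := by
        have := diffIter_hom T Z J m (a1 - g) c g 0 (by omega)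
        rwa [show g + (a1 - g) = a1 by omega, add_zero, pow_zero, mul_one] at this
      have hR : diffIter T Z J m a1 c = diffIter T Z J m a1 (c - g) * T ^ g := by
        have := diffIter_hom T Z J m a1 (c - g) 0 g (by omega)
        rwa [show c - g + g = c by omega, zero_add, pow_zero, one_mul] at this
      have e : diffIter T Z J m a c - diffIter T Z J m a1 (c + j)
          = (T ^ j - 1) * T ^ g * diffIter T Z J m (a1 - g) c
            - diffIter T Z J m a1 (c - g) * ((T ^ j - 1) * T ^ g) := by
        have hc' : T ^ g * T ^ j = T ^ j * T ^ g := by rw [← pow_add, ← pow_add, add_comm]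
        calc diffIter T Z J m a c - diffIter T Z J m a1 (c + j)
            = (T ^ j - 1) * diffIter T Z J m a1 c - diffIter T Z J m a1 c * (T ^ j - 1) := by
              rw [hA, hB]; noncomm_ring
          _ = _ := by
              conv_lhs => arg 1; rw [hL]
              conv_lhs => arg 2; rw [hR]
              rw [sub_mul (T ^ j) 1 (T ^ g), one_mul, mul_assoc _ (T ^ g) (T ^ j - 1), mul_sub, hc', mul_one]
              noncomm_ring
      rw [e]
      refine (nrm_sub _ _).trans ?_
      have h1 : nrm ((T ^ j - 1) * T ^ g) ≤ J * η := by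
        refine (hs.pow_sub_one hT g j).trans ?_
        refine mul_le_mul_of_nonneg_right (by exact_mod_cast hj.2) ?_
        exact (nrm_nonneg _).trans (hs.le_div g)
      have h2 : nrm (diffIter T Z J m (a1 - g) c) ≤ B := ih _ _ (by omega) (by omega)
      have h3 : nrm (diffIter T Z J m a1 (c - g)) ≤ B := ih _ _ (by omega) (by omega)
      have h0 : 0 ≤ (J : ℝ) * η := (nrm_nonneg _).trans h1
      have := (nrm_mul ((T ^ j - 1) * T ^ g) (diffIter T Z J m (a1 - g) c)).trans
        (mul_le_mul h1 h2 (nrm_nonneg _) h0)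
      have := (nrm_mul (diffIter T Z J m a1 (c - g)) ((T ^ j - 1) * T ^ g)).trans
        (mul_le_mul h3 h1 (nrm_nonneg _) ((nrm_nonneg _).trans h3))
      linarith
    calc 1 / (J : ℝ) * nrm (∑ j ∈ Icc 1 J,
          (diffIter T Z J m a c - diffIter T Z J m (a - j) (c + j)))
        ≤ 1 / (J : ℝ) * ∑ j ∈ Icc 1 J, 2 * (J * η) * B :=
          mul_le_mul_of_nonneg_left ((nrm_sum_le _ _).trans (sum_le_sum hd)) (by positivity)
      _ = (2 * J * η) ^ (m + 1) * nrm Z := by
          rw [sum_const, Nat.card_Icc]; simp [B, pow_succ]; field_simp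

/-- replacing a block by its averaged translates -/
theorem smooth_replace (hT : IsPM T) (hs : Smooth T σ) (Z : Alg) {J : ℕ} (hJ : 0 < J) (g m a c : ℕ)
    (ha : m * (J + g) ≤ a) (hc : m * g ≤ c) :
    nrm (place T Z a c - ∑ κ ∈ range (m * J + 1), ker J m κ • place T Z (a - κ) (c + κ))
      ≤ (2 * J * (σ / Real.sqrt ((g : ℝ) + 1))) ^ m * nrm Z := by
  rw [← diffIter_eq]; exact nrm_diffIter hT hs Z hJ g m a c ha hc

lemma ker_l1 (J : ℕ) : ∀ m, ∑ κ ∈ range (m * J + 1), |ker J m κ| ≤ 3 ^ m := by
  intro m
  induction m with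
  | zero => simp [ker]
  | succ m ih =>
    rcases Nat.eq_zero_or_pos J with hJ | hJ
    · subst hJ
      simp [ker] at ih ⊢
      exact ih.trans (by gcongr <;> norm_num)
    have hJr : (0 : ℝ) < J := by exact_mod_cast hJ
    have hext : ∑ κ ∈ range ((m + 1) * J + 1), |ker J m κ| = ∑ κ ∈ range (m * J + 1), |ker J m κ| := by
      symm
      refine sum_subset (fun x hx => by simp [Nat.succ_mul] at hx ⊢; omega) fun x _ hx => ?_
      simp at hx
      rw [ker_eq_zero_of_gt J m x (by omega), abs_zero]
    calc ∑ κ ∈ range ((m + 1) * J + 1), |ker J (m + 1) κ|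
        ≤ ∑ κ ∈ range ((m + 1) * J + 1), (|ker J m κ| + (1 / (J : ℝ)) * ∑ j ∈ Icc 1 J,
            ((if κ = j then (1 : ℝ) else 0) + if j ≤ κ then |ker J m (κ - j)| else 0)) := by
          refine sum_le_sum fun κ _ => ?_
          rw [ker]
          refine (abs_add_le _ _).trans (add_le_add_right ?_ _)
          rw [abs_mul, abs_of_pos (by positivity : (0:ℝ) < 1 / J)]
          refine mul_le_mul_of_nonneg_left ((abs_sum_le_sum_abs _ _).trans (sum_le_sum fun j _ => ?_))
            (by positivity)
          refine (abs_sub _ _).trans (le_of_eq ?_)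
          split_ifs <;> simp
      _ ≤ 3 ^ m + (1 / (J : ℝ)) * ∑ j ∈ Icc 1 J, ((1 : ℝ) + 3 ^ m) := by
          rw [sum_add_distrib, ← mul_sum, sum_comm, hext]
          refine add_le_add ih (mul_le_mul_of_nonneg_left (sum_le_sum fun j hj => ?_) (by positivity))
          rw [mem_Icc] at hj
          rw [sum_add_distrib]
          refine add_le_add ?_ ?_
          · rw [sum_ite_eq']; split_ifs <;> norm_num
          · rw [← sum_filter]
            refine le_trans ?_ ih
            refine le_trans (le_of_eq ?_) le_rfl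
            refine sum_bij_ne_zero (fun κ _ _ => κ - j) ?_ ?_ ?_ ?_
            · intro x hx hne
              simp only [mem_filter, mem_range] at hx
              rw [mem_range]
              by_contra hlt
              exact hne (by rw [ker_eq_zero_of_gt J m _ (by omega), abs_zero])
            · intro x hx _ y hy _ h
              simp only [mem_filter, mem_range] at hx hy
              omega
            · intro i hi hne
              simp only [mem_range] at hi
              refine ⟨i + j, by simp [Nat.succ_mul]; omega, by simpa using hne, by omega⟩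
            · intro x _ _; rfl
      _ ≤ 3 ^ (m + 1) := by
          rw [sum_const, Nat.card_Icc]
          simp only [add_tsub_cancel_right, nsmul_eq_mul]
          rw [one_div, ← mul_assoc, inv_mul_cancel₀ hJr.ne', one_mul, pow_succ]
          have : (1 : ℝ) ≤ 3 ^ m := one_le_pow₀ (by norm_num)
          linarith

lemma ker_sup (J : ℕ) : ∀ m κ, |ker J m κ| ≤ 3 ^ m / J := by
  intro m
  induction m with
  | zero => intro κ; simp [ker]
  | succ m ih =>
    intro κ
    rw [ker]
    refine (abs_add_le _ _).trans ?_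
    rw [abs_mul, abs_of_nonneg (by positivity : (0:ℝ) ≤ 1 / J)]
    have h1 : |∑ j ∈ Icc 1 J, ((if κ = j then (1:ℝ) else 0) - if j ≤ κ then ker J m (κ - j) else 0)|
        ≤ 1 + 3 ^ m := by
      refine (abs_sum_le_sum_abs _ _).trans ?_
      refine (sum_le_sum fun j _ => abs_sub _ _).trans ?_
      rw [sum_add_distrib]
      refine add_le_add ?_ ?_
      · calc _ = ∑ j ∈ Icc 1 J, (if κ = j then (1:ℝ) else 0) :=
              sum_congr rfl fun j _ => by split_ifs <;> simp
          _ ≤ 1 := by rw [sum_ite_eq]; split_ifs <;> norm_num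
      · calc ∑ j ∈ Icc 1 J, |if j ≤ κ then ker J m (κ - j) else 0|
            = ∑ j ∈ (Icc 1 J).filter (fun j => j ≤ κ), |ker J m (κ - j)| := by
              rw [sum_filter]
              exact sum_congr rfl fun j _ => by split_ifs <;> simp
          _ = ∑ i ∈ ((Icc 1 J).filter (fun j => j ≤ κ)).image (fun j => κ - j), |ker J m i| := by
              rw [sum_image]
              intro x hx y hy h
              simp at hx hy h
              omega
          _ ≤ ∑ i ∈ range (κ + m * J + 1), |ker J m i| := by
              refine sum_le_sum_of_subset_of_nonneg ?_ fun _ _ _ => abs_nonneg _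
              intro x hx
              simp at hx ⊢
              omega
          _ = ∑ i ∈ range (m * J + 1), |ker J m i| := by
              symm
              refine sum_subset (fun x hx => by simp at hx ⊢; omega) fun x _ hx => ?_
              simp at hx
              rw [ker_eq_zero_of_gt J m x (by omega), abs_zero]
          _ ≤ 3 ^ m := ker_l1 J m
    calc |ker J m κ| + 1 / (J : ℝ) * |∑ j ∈ Icc 1 J,
          ((if κ = j then (1:ℝ) else 0) - if j ≤ κ then ker J m (κ - j) else 0)|
        ≤ 3 ^ m / J + 1 / (J : ℝ) * (1 + 3 ^ m) :=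
          add_le_add (ih κ) (mul_le_mul_of_nonneg_left h1 (by positivity))
      _ ≤ 3 ^ (m + 1) / J := by
          rw [one_div_mul_eq_div, ← add_div, pow_succ]
          have : (1 : ℝ) ≤ 3 ^ m := one_le_pow₀ (by norm_num)
          gcongr
          linarith

/-- Thue-Morse sign -/
def sgn : ℕ → ℕ → ℝ
  | 0, _ => 1
  | l + 1, i => if i < 2 ^ l then sgn l i else - sgn l (i - 2 ^ l)

/-- signed sum of translates -/
noncomputable def tmSum (T Z : Alg) : ℕ → ℕ → ℕ → Alg
  | 0, a, c => place T Z a c
  | l + 1, a, c => tmSum T Z l a c - tmSum T Z l (a + 2 ^ l) (c - 2 ^ l)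

lemma tmSum_eq (T Z : Alg) : ∀ l a c,
    tmSum T Z l a c = ∑ i ∈ range (2 ^ l), sgn l i • place T Z (a + i) (c - i) := by
  intro l
  induction l with
  | zero => intro a c; simp [tmSum, sgn]
  | succ l ih =>
    intro a c
    rw [tmSum, ih, ih, show 2 ^ (l + 1) = 2 ^ l + 2 ^ l by rw [pow_succ]; omega,
      sum_range_add, sub_eq_add_neg, ← sum_neg_distrib]
    congr 1
    · refine sum_congr rfl fun i hi => ?_
      rw [mem_range] at hi
      rw [sgn, if_pos hi]
    · refine sum_congr rfl fun i _ => ?_
      rw [sgn, if_neg (by omega), Nat.add_sub_cancel_left, neg_smul, add_assoc, Nat.sub_sub]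

lemma tmSum_hom (T Z : Alg) : ∀ l a c e f, 2 ^ l ≤ c + 1 →
    tmSum T Z l (e + a) (c + f) = T ^ e * tmSum T Z l a c * T ^ f := by
  intro l
  induction l with
  | zero => intro a c e f _; exact place_hom T Z a c e f
  | succ l ih =>
    intro a c e f h
    rw [pow_succ] at h
    rw [tmSum, tmSum, ih a c e f (by omega), mul_sub, sub_mul]
    congr 1
    rw [add_assoc, Nat.sub_add_comm (by omega) , ih _ _ e f (by omega)]

theorem nrm_tmSum (hT : IsPM T) (hs : Smooth T σ) (Z : Alg) (g : ℕ) :
    ∀ l a c, l * g ≤ a → l * g + 2 ^ l ≤ c →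
      nrm (tmSum T Z l a c) ≤ (2 * 2 ^ l * (σ / Real.sqrt ((g : ℝ) + 1))) ^ l * nrm Z := by
  intro l
  induction l with
  | zero =>
    intro a c _ _
    simp only [tmSum, place, pow_zero, one_mul]
    refine (nrm_mul _ _).trans ?_
    refine (mul_le_mul_of_nonneg_right (nrm_mul _ _) (nrm_nonneg _)).trans ?_
    rw [(hT.pow a).nrm_eq, (hT.pow c).nrm_eq]; simp
  | succ l ih =>
    intro a c ha hc
    rw [Nat.succ_mul] at ha hc
    have h2 : 2 ^ (l + 1) = 2 ^ l + 2 ^ l := by rw [pow_succ]; omega
    rw [h2] at hc
    have h2pos : 0 < 2 ^ l := Nat.two_pow_pos l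
    set e := 2 ^ l with he
    set η := σ / Real.sqrt ((g : ℝ) + 1) with hη
    set B := (2 * (2 : ℝ) ^ l * η) ^ l * nrm Z
    have h1 : tmSum T Z l a c = tmSum T Z l a (c - e - g) * (T ^ g * T ^ e) := by
      have := tmSum_hom T Z l a (c - e - g) 0 (g + e) (by omega)
      rwa [show c - e - g + (g + e) = c by omega, zero_add, pow_zero, one_mul, pow_add] at this
    have h1' : tmSum T Z l a (c - e - g) * T ^ g = tmSum T Z l a (c - e) := by
      have := tmSum_hom T Z l a (c - e - g) 0 g (by omega)
      rwa [show c - e - g + g = c - e by omega, zero_add, pow_zero, one_mul, eq_comm] at this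
    have h3 : tmSum T Z l a (c - e) = T ^ g * tmSum T Z l (a - g) (c - e) := by
      have := tmSum_hom T Z l (a - g) (c - e) g 0 (by omega)
      rwa [show g + (a - g) = a by omega, add_zero, pow_zero, mul_one] at this
    have h4 : tmSum T Z l (a + e) (c - e) = T ^ e * tmSum T Z l a (c - e) := by
      have := tmSum_hom T Z l a (c - e) e 0 (by omega)
      rwa [show e + a = a + e by omega, add_zero, pow_zero, mul_one] at this
    have eq : tmSum T Z (l + 1) a c = tmSum T Z l a (c - e - g) * ((T ^ e - 1) * T ^ g)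
        - ((T ^ e - 1) * T ^ g) * tmSum T Z l (a - g) (c - e) := by
      rw [tmSum, ← he, h1, h4]
      have hc' : T ^ g * T ^ e = T ^ e * T ^ g := by rw [← pow_add, ← pow_add, add_comm]
      rw [sub_mul, one_mul, mul_sub, h1', sub_mul, mul_assoc (T ^ e) (T ^ g), ← h3, ← mul_assoc, ← hc']
      noncomm_ring
    rw [eq]
    refine (nrm_sub _ _).trans ?_
    have k1 : nrm ((T ^ e - 1) * T ^ g) ≤ (2 : ℝ) ^ l * η := by
      refine (hs.pow_sub_one hT g e).trans (le_of_eq ?_)
      simp [he, hη]
    have k0 : 0 ≤ (2 : ℝ) ^ l * η := (nrm_nonneg _).trans k1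
    have k2 : nrm (tmSum T Z l a (c - e - g)) ≤ B := ih _ _ (by omega) (by omega)
    have k3 : nrm (tmSum T Z l (a - g) (c - e)) ≤ B := ih _ _ (by omega) (by omega)
    have B0 : 0 ≤ B := (nrm_nonneg _).trans k2
    have := (nrm_mul (tmSum T Z l a (c - e - g)) ((T ^ e - 1) * T ^ g)).trans
      (mul_le_mul k2 k1 (nrm_nonneg _) B0)
    have := (nrm_mul ((T ^ e - 1) * T ^ g) (tmSum T Z l (a - g) (c - e))).trans
      (mul_le_mul k1 k3 (nrm_nonneg _) k0)
    have hη0 : 0 ≤ η := (mul_nonneg_iff_of_pos_left (by positivity)).mp k0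
    calc _ ≤ 2 * ((2 : ℝ) ^ l * η) * B := by linarith
      _ ≤ (2 * (2 : ℝ) ^ (l + 1) * η) ^ (l + 1) * nrm Z := by
          have : (2 * (2 : ℝ) ^ l * η) ≤ 2 * (2 : ℝ) ^ (l + 1) * η := by
            gcongr <;> norm_num
          calc 2 * ((2 : ℝ) ^ l * η) * B = (2 * (2:ℝ) ^ l * η) ^ (l + 1) * nrm Z := by
                simp [B, pow_succ]; ring
            _ ≤ _ := by
                refine mul_le_mul_of_nonneg_right ?_ (nrm_nonneg _)
                gcongr

end Vale.Agent.P321
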