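import Mathlib
import Vale.Agent.P321.Ring

/-
Finite product expectations over coordinates indexed by natural numbers, and the pushforward
to words by concatenation.
-/

open scoped BigOperators
open Finset

namespace Vale.Agent.P321

/-- default assignment: all empty words -/
def om0 : ℕ → W := fun _ => 1

/-- overwrite the coordinates in I -/
def patch (ω : ℕ → W) (I : Finset ℕ) (g : ∀ i ∈ I, W) : ℕ → W :=
  fun i => if h : i ∈ I then g i h else ω i

/-- expectation over the coordinates in I, i.i.d. with law T, the others fixed -/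
noncomputable def Ew {V : Type*} [AddCommGroup V] [Module ℝ V] (T : Alg) (I : Finset ℕ)
    (F : (ℕ → W) → V) (ω : ℕ → W) : V :=
  ∑ g ∈ I.pi (fun _ => T.coeff.support), (∏ i ∈ I.attach, T.coeff (g i.1 i.2)) • F (patch ω I g)

/-- expectation with default background -/
noncomputable def E {V : Type*} [AddCommGroup V] [Module ℝ V] (T : Alg) (I : Finset ℕ)
    (F : (ℕ → W) → V) : V := Ew T I F om0

section Basic

variable {V V' : Type*} [AddCommGroup V] [Module ℝ V] [AddCommGroup V'] [Module ℝ V']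
variable (T : Alg) (I : Finset ℕ) (F G : (ℕ → W) → V) (ω : ℕ → W)

lemma Ew_empty : Ew T ∅ F ω = F ω := by
  have : patch ω ∅ (fun i h => absurd h (by simp)) = ω := by funext i; simp [patch]
  simp [Ew]
  exact congrArg F this

lemma Ew_add : Ew T I (fun x => F x + G x) ω = Ew T I F ω + Ew T I G ω := by
  simp [Ew, smul_add, sum_add_distrib]

lemma Ew_neg : Ew T I (fun x => - F x) ω = - Ew T I F ω := by
  simp [Ew, sum_neg_distrib]

lemma Ew_sub : Ew T I (fun x => F x - G x) ω = Ew T I F ω - Ew T I G ω := by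
  simp [Ew, smul_sub, sum_sub_distrib]

lemma Ew_smul (c : ℝ) : Ew T I (fun x => c • F x) ω = c • Ew T I F ω := by
  simp [Ew, smul_sum, smul_comm c]

lemma Ew_zero : Ew T I (fun _ => (0 : V)) ω = 0 := by simp [Ew]

lemma Ew_sum {ι : Type*} (s : Finset ι) (F : ι → (ℕ → W) → V) :
    Ew T I (fun x => ∑ i ∈ s, F i x) ω = ∑ i ∈ s, Ew T I (F i) ω := by
  simp [Ew, smul_sum]; rw [sum_comm]

lemma Ew_congr {F G : (ℕ → W) → V}
    (h : ∀ x : ℕ → W, (∀ i ∈ I, x i ∈ T.coeff.support) → (∀ i ∉ I, x i = ω i) → F x = G x) :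
    Ew T I F ω = Ew T I G ω := by
  refine sum_congr rfl fun g hg => ?_
  rw [h (patch ω I g)]
  · intro i hi; simp only [patch, dif_pos hi]; exact (mem_pi.mp hg) i hi
  · intro i hi; simp [patch, dif_neg hi]

lemma Ew_linear (L : V →ₗ[ℝ] V') : Ew T I (fun x => L (F x)) ω = L (Ew T I F ω) := by
  simp [Ew, map_sum]

lemma Ew_insert {i : ℕ} (hi : i ∉ I) :
    Ew T (insert i I) F ω
      = ∑ w ∈ T.coeff.support, T.coeff w • Ew T I F (Function.update ω i w) := by
  classical
  simp only [Ew, smul_sum, smul_smul]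
  rw [← sum_product']
  refine sum_bij' (fun g _ => (g i (mem_insert_self i I), fun j hj => g j (mem_insert_of_mem hj)))
    (fun p _ => fun j hj => if h : j = i then p.1 else p.2 j (mem_of_mem_insert_of_ne hj h))
    ?_ ?_ ?_ ?_ ?_
  · intro g hg
    simp only [mem_product, mem_pi] at hg ⊢
    exact ⟨hg _ _, fun j hj => hg _ _⟩
  · intro p hp
    simp only [mem_product, mem_pi] at hp ⊢
    intro j hj
    split_ifs with h
    · exact hp.1
    · exact hp.2 _ _
  · intro g hg
    funext j hj
    split_ifs with h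
    · subst h; rfl
    · rfl
  · intro p hp
    refine Prod.ext ?_ ?_
    · simp
    · funext j hj
      have : j ≠ i := fun h => hi (h ▸ hj)
      simp [this]
  · intro g hg
    congr 1
    · rw [attach_insert, prod_insert (by simp [hi])]
      congr 1
      rw [prod_image]
      intro a _ b _ h
      exact Subtype.ext (by simpa using congrArg Subtype.val h)
    · congr 1
      funext j
      by_cases h1 : j = i
      · subst h1; simp [patch, hi]
      · by_cases h2 : j ∈ I <;> simp [patch, h1, h2]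

lemma Ew_insert' {i : ℕ} (hi : i ∉ I) :
    Ew T (insert i I) F ω
      = ∑ w ∈ T.coeff.support, T.coeff w • Ew T I (fun x => F (Function.update x i w)) ω := by
  rw [Ew_insert T I F ω hi]
  refine sum_congr rfl fun w _ => congrArg _ ?_
  refine sum_congr rfl fun g _ => congrArg _ (congrArg F ?_)
  funext j
  by_cases h1 : j = i
  · subst h1; simp [patch, hi]
  · simp [patch, h1]

lemma Ew_singleton (i : ℕ) :
    Ew T {i} F ω = ∑ w ∈ T.coeff.support, T.coeff w • F (Function.update ω i w) := by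
  rw [← insert_empty_eq i, Ew_insert T ∅ F ω (by simp)]
  simp [Ew_empty]

lemma Ew_union {J : Finset ℕ} : Disjoint I J → ∀ ω,
    Ew T (I ∪ J) F ω = Ew T I (fun x => Ew T J F x) ω := by
  induction I using Finset.induction_on with
  | empty => intro _ ω; simp [Ew_empty]
  | @insert i I hi ih =>
    intro h ω
    rw [disjoint_insert_left] at h
    rw [insert_union, Ew_insert _ _ _ _ (by simp [hi, h.1]), Ew_insert _ _ _ _ hi]
    exact sum_congr rfl fun w _ => by rw [ih h.2]

lemma Ew_swap {J : Finset ℕ} (h : Disjoint I J) :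
    Ew T I (fun x => Ew T J F x) ω = Ew T J (fun x => Ew T I F x) ω := by
  rw [← Ew_union T I F h, ← Ew_union T J F h.symm, union_comm]

lemma Ew_indep {S : Set ℕ} (hF : DependsOn F S) (h : ∀ i ∈ I, i ∉ S) (hT : IsPM T) :
    Ew T I F ω = F ω := by
  induction I using Finset.induction_on generalizing ω with
  | empty => exact Ew_empty T F ω
  | @insert i I hi ih =>
    rw [Ew_insert _ _ _ _ hi]
    have : ∀ w, Ew T I F (Function.update ω i w) = F ω := by
      intro w
      rw [ih _ (fun j hj => h j (mem_insert_of_mem hj))]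
      refine hF fun j hj => ?_
      rw [Function.update_of_ne]
      rintro rfl
      exact h j (mem_insert_self _ _) hj
    simp only [this, ← sum_smul]
    have hm : ∑ w ∈ T.coeff.support, T.coeff w = 1 := hT.2
    rw [hm, one_smul]

lemma Ew_const (hT : IsPM T) (c : V) : Ew T I (fun _ => c) ω = c :=
  Ew_indep T I (fun _ => c) ω (S := ∅) (fun _ _ _ => rfl) (by simp) hT

lemma Ew_dependsOn {S : Set ℕ} (hF : DependsOn F S) :
    DependsOn (fun x => Ew T I F x) {i | i ∈ S ∧ i ∉ I} := by
  intro x y h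
  refine sum_congr rfl fun g _ => congrArg _ (hF fun j hj => ?_)
  by_cases hI : j ∈ I
  · simp [patch, hI]
  · simp [patch, hI]; exact h j ⟨hj, hI⟩

lemma Ew_base {S : Set ℕ} (hF : DependsOn F S) (h : ∀ i ∈ S, i ∈ I) (ω' : ℕ → W) :
    Ew T I F ω = Ew T I F ω' :=
  Ew_dependsOn T I F hF fun i hi => absurd (h i hi.1) hi.2

lemma Ew_mul_left {S : Set ℕ} (A : (ℕ → W) → Alg) (B : (ℕ → W) → Alg)
    (hA : DependsOn A S) (h : ∀ i ∈ I, i ∉ S) :
    Ew T I (fun x => A x * B x) ω = A ω * Ew T I B ω := by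
  simp only [Ew, mul_sum, mul_smul_comm]
  refine sum_congr rfl fun g _ => congrArg _ (congrArg (· * _) (hA fun j hj => ?_))
  have : j ∉ I := fun hI => h j hI hj
  simp [patch, this]

lemma Ew_smul_left {S : Set ℕ} (a : (ℕ → W) → ℝ) (B : (ℕ → W) → V)
    (ha : DependsOn a S) (h : ∀ i ∈ I, i ∉ S) :
    Ew T I (fun x => a x • B x) ω = a ω • Ew T I B ω := by
  simp only [Ew, smul_sum]
  refine sum_congr rfl fun g _ => ?_
  have : a (patch ω I g) = a ω := ha fun j hj => by
    have : j ∉ I := fun hI => h j hI hj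
    simp [patch, this]
  rw [this, smul_comm]

lemma Ew_image (φ : ℕ → ℕ) (hφ : Function.Injective φ) : ∀ ω : ℕ → W,
    Ew T (I.image φ) (fun x => F (x ∘ φ)) ω = Ew T I F (ω ∘ φ) := by
  induction I using Finset.induction_on with
  | empty => intro ω; simp [Ew_empty]
  | @insert i I hi ih =>
    intro ω
    rw [image_insert, Ew_insert _ _ _ _ (by simpa [hφ.eq_iff] using hi), Ew_insert _ _ _ _ hi]
    exact sum_congr rfl fun w _ => by rw [ih, Function.update_comp_eq_of_injective _ hφ]

end Basic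

section Real

variable {T : Alg} (hT : IsPM T) (I : Finset ℕ) (ω : ℕ → W)
include hT

lemma wt_nonneg (g : ∀ i ∈ I, W) : 0 ≤ ∏ i ∈ I.attach, T.coeff (g i.1 i.2) :=
  prod_nonneg fun i _ => hT.1 _

lemma Ew_nonneg {F : (ℕ → W) → ℝ} (h : ∀ x, 0 ≤ F x) : 0 ≤ Ew T I F ω :=
  sum_nonneg fun g _ => mul_nonneg (wt_nonneg hT I g) (h _)

lemma Ew_mono {F G : (ℕ → W) → ℝ} (h : ∀ x, F x ≤ G x) : Ew T I F ω ≤ Ew T I G ω :=
  sum_le_sum fun g _ => mul_le_mul_of_nonneg_left (h _) (wt_nonneg hT I g)

lemma abs_Ew_le (F : (ℕ → W) → ℝ) : |Ew T I F ω| ≤ Ew T I (fun x => |F x|) ω := by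
  refine (abs_sum_le_sum_abs _ _).trans (le_of_eq (sum_congr rfl fun g _ => ?_))
  rw [smul_eq_mul, abs_mul, abs_of_nonneg (wt_nonneg hT I g)]; rfl

lemma nrm_Ew_le (F : (ℕ → W) → Alg) : nrm (Ew T I F ω) ≤ Ew T I (fun x => nrm (F x)) ω := by
  refine (nrm_sum_le _ _).trans (le_of_eq (sum_congr rfl fun g _ => ?_))
  rw [nrm_smul, abs_of_nonneg (wt_nonneg hT I g), smul_eq_mul]

/-- expectation on a larger coordinate set -/
lemma Ew_superset {V : Type*} [AddCommGroup V] [Module ℝ V] {F : (ℕ → W) → V} {J : Finset ℕ}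
    (hJ : I ⊆ J) (hF : DependsOn F ↑I) : Ew T J F ω = Ew T I F ω := by
  rw [← union_sdiff_of_subset hJ, Ew_union T I F disjoint_sdiff]
  refine Ew_congr T I ω fun x _ _ => ?_
  exact Ew_indep T _ F x hF (fun i hi => by simp at hi ⊢; exact hi.2) hT

end Real

/-- ordered product of slot elements -/
noncomputable def sprod (X : ℕ → Alg) : ℕ → Alg
  | 0 => 1
  | g + 1 => sprod X g * X g

lemma sprod_const (T : Alg) : ∀ g, sprod (fun _ => T) g = T ^ g
  | 0 => rfl
  | g + 1 => by rw [sprod, sprod_const T g, pow_succ]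

lemma sprod_congr {X Y : ℕ → Alg} : ∀ g, (∀ i < g, X i = Y i) → sprod X g = sprod Y g
  | 0, _ => rfl
  | g + 1, h => by rw [sprod, sprod, sprod_congr g (fun i hi => h i (by omega)), h g (by omega)]

lemma sprod_add (X : ℕ → Alg) (a : ℕ) :
    ∀ b, sprod X (a + b) = sprod X a * sprod (fun i => X (a + i)) b
  | 0 => by simp [sprod]
  | b + 1 => by rw [← add_assoc, sprod, sprod, sprod_add X a b, mul_assoc]

/-- pushforward of a density on N units to words -/
noncomputable def piN (T : Alg) (N : ℕ) (F : (ℕ → W) → ℝ) : Alg :=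
  E T (range N) (fun ω => F ω • sprod (fun i => pt (ω i)) N)

lemma sprod_pt_isPM (ω : ℕ → W) : ∀ N, IsPM (sprod (fun i => pt (ω i)) N)
  | 0 => IsPM.one
  | N + 1 => (sprod_pt_isPM ω N).mul ⟨nonneg_pt _, mass_pt _⟩

lemma sprod_pt_dependsOn (a : ℕ) :
    DependsOn (fun ω : ℕ → W => sprod (fun i => pt (ω i)) a) ↑(range a) := fun x y h =>
  sprod_congr a fun i hi => congrArg pt (h i (by simpa using hi))

lemma nrm_piN_le {T : Alg} (hT : IsPM T) (N : ℕ) (F : (ℕ → W) → ℝ) :
    nrm (piN T N F) ≤ E T (range N) (fun ω => |F ω|) := by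
  refine (nrm_Ew_le hT _ _ _).trans (le_of_eq (Ew_congr T _ _ fun x _ _ => ?_))
  rw [nrm_smul, (sprod_pt_isPM x N).nrm_eq, mul_one]

lemma piN_concat (T : Alg) (a b : ℕ) (f g : (ℕ → W) → ℝ) (hf : DependsOn f ↑(range a))
    (hg : DependsOn g ↑(range b)) :
    piN T (a + b) (fun ω => f ω * g (ω ∘ (fun i => a + i))) = piN T a f * piN T b g := by
  set φ : ℕ → ℕ := fun i => a + i
  have hsplit : range (a + b) = range a ∪ (range b).image φ := by
    rw [range_add]; congr 1; ext x; simp [φ]
  have hdisj : Disjoint (range a) ((range b).image φ) := by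
    rw [disjoint_left]; intro x hx hx'; simp [φ] at hx hx'; omega
  have hinner : ∀ x : ℕ → W,
      Ew T ((range b).image φ) (fun ω => (f ω * g (ω ∘ φ)) • sprod (fun i => pt (ω i)) (a + b)) x
        = f x • sprod (fun i => pt (x i)) a * piN T b g := by
    intro x
    have e : (fun ω : ℕ → W => (f ω * g (ω ∘ φ)) • sprod (fun i => pt (ω i)) (a + b))
        = fun ω => (f ω • sprod (fun i => pt (ω i)) a)
            * (fun y : ℕ → W => g y • sprod (fun i => pt (y i)) b) (ω ∘ φ) := by
      funext ω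
      rw [sprod_add, smul_mul_smul_comm]
      rfl
    have hd : DependsOn (fun y : ℕ → W => f y • sprod (fun i => pt (y i)) a) ↑(range a) :=
      fun u v h => by simp only [hf h, sprod_pt_dependsOn a h]
    rw [e, Ew_mul_left T _ x _ _ hd (fun i hi => by simp [φ] at hi ⊢; omega)]
    congr 1
    rw [Ew_image T (range b) (fun y : ℕ → W => g y • sprod (fun i => pt (y i)) b) φ
      (fun u v h => by simpa [φ] using h) x]
    exact Ew_base T _ _ _ (S := ↑(range b))
      (fun u v h => by simp only [hg h, sprod_pt_dependsOn b h]) (fun i hi => hi) _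
  rw [piN, E, hsplit, Ew_union T _ _ hdisj, Ew_congr T _ _ fun x _ _ => hinner x]
  exact Ew_linear T (range a) (fun x => f x • sprod (fun i => pt (x i)) a) om0
    (LinearMap.mulRight ℝ (piN T b g))

lemma piN_zero (T : Alg) (F : (ℕ → W) → ℝ) : piN T 0 F = F om0 • (1 : Alg) := by
  rw [piN, E, range_zero, Ew_empty]; rfl

lemma piN_single (T : Alg) (F : (ℕ → W) → ℝ) :
    piN T 1 F = ∑ w ∈ T.coeff.support, (T.coeff w * F (Function.update om0 0 w)) • pt w := by
  rw [piN, E, range_one, Ew_singleton]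
  exact sum_congr rfl fun w _ => by simp [sprod, smul_smul]

lemma piN_one (T : Alg) : ∀ N, piN T N (fun _ => 1) = T ^ N
  | 0 => by rw [piN_zero, one_smul, pow_zero]
  | N + 1 => by
    have h := piN_concat T N 1 (fun _ => 1) (fun _ => 1) (fun _ _ _ => rfl) (fun _ _ _ => rfl)
    simp only [one_mul] at h
    rw [h, piN_one T N, pow_succ]
    congr 1
    rw [piN_single]
    simp only [mul_one]
    exact (eq_sum_pt T).symm

lemma piN_add (T : Alg) (N : ℕ) (F G : (ℕ → W) → ℝ) :
    piN T N (fun ω => F ω + G ω) = piN T N F + piN T N G := by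
  rw [piN, piN, piN, E, E, E, ← Ew_add]; simp only [add_smul]

lemma piN_smul (T : Alg) (N : ℕ) (c : ℝ) (F : (ℕ → W) → ℝ) :
    piN T N (fun ω => c * F ω) = c • piN T N F := by
  rw [piN, piN, E, E, ← Ew_smul]; simp only [smul_smul]

lemma piN_sum (T : Alg) (N : ℕ) {ι : Type*} (s : Finset ι) (F : ι → (ℕ → W) → ℝ) :
    piN T N (fun ω => ∑ i ∈ s, F i ω) = ∑ i ∈ s, piN T N (F i) := by
  simp only [piN, E]; rw [← Ew_sum]; simp only [sum_smul]

/-- translation of a density -/
def shiftF {α : Type*} (e : ℕ) (f : (ℕ → W) → α) : (ℕ → W) → α := fun ω => f (ω ∘ (fun i => e + i))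

lemma piN_shift (T : Alg) (e l r : ℕ) (f : (ℕ → W) → ℝ) (hf : DependsOn f ↑(range l)) :
    piN T (e + l + r) (shiftF e f) = T ^ e * piN T l f * T ^ r := by
  have h1 := piN_concat T e l (fun _ => 1) f (fun _ _ _ => rfl) hf
  simp only [one_mul] at h1
  have hd : DependsOn (shiftF e f) ↑(range (e + l)) := fun x y h => hf fun i hi => by
    simp only [coe_range, Set.mem_Iio] at hi
    exact h (e + i) (by simp [coe_range]; omega)
  have h2 := piN_concat T (e + l) r (shiftF e f) (fun _ => 1) hd (fun _ _ _ => rfl)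
  simp only [mul_one] at h2
  rw [h2, piN_one]
  congr 1
  rw [show piN T (e + l) (shiftF e f) = _ from h1, piN_one]

end Vale.Agent.P321
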