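import Mathlib
import Vale.Agent.P321.Expect

/-
Even moments on finite product spaces: Minkowski, two-smoothness, and the orthogonality
inequality for families of terms that are centred in each of their coordinates.
-/

open scoped BigOperators
open Finset

namespace Vale.Agent.P321

variable {T : Alg}

/-- the 2k-th moment of f is at most w^(2k) -/
def Bd (T : Alg) (k : ℕ) (I : Finset ℕ) (f : (ℕ → W) → ℝ) (w : ℝ) : Prop :=
  0 ≤ w ∧ E T I (fun ω => f ω ^ (2 * k)) ≤ w ^ (2 * k)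

lemma le_of_eps {x : ℝ} {φ : ℝ → ℝ} (hφ : Continuous φ) (h : ∀ ε > 0, x ≤ φ ε) : x ≤ φ 0 := by
  by_contra hc
  rw [not_le] at hc
  obtain ⟨δ, hδ, hδ'⟩ := Metric.continuousAt_iff.mp hφ.continuousAt (x - φ 0) (by linarith)
  have := hδ' (x := δ / 2) (by rw [Real.dist_eq, sub_zero, abs_of_pos (by linarith)]; linarith)
  rw [Real.dist_eq] at this
  have := h (δ / 2) (by linarith)
  have := abs_lt.mp ‹|φ (δ / 2) - φ 0| < x - φ 0›
  linarith

/-- Minkowski for weighted k-th powers -/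
lemma mink_pow {α ι : Type*} (A : Finset α) (wt : α → ℝ) (hwt : ∀ x ∈ A, 0 ≤ wt x)
    (s : Finset ι) (a : ι → α → ℝ) (B : ι → ℝ) (k : ℕ) (hk : 1 ≤ k)
    (ha : ∀ i ∈ s, ∀ x ∈ A, 0 ≤ a i x) (hB : ∀ i ∈ s, 0 ≤ B i)
    (h : ∀ i ∈ s, ∑ x ∈ A, wt x * a i x ^ k ≤ B i ^ k) :
    ∑ x ∈ A, wt x * (∑ i ∈ s, a i x) ^ k ≤ (∑ i ∈ s, B i) ^ k := by
  rcases s.eq_empty_or_nonempty with rfl | hne
  · simp [zero_pow (by omega : k ≠ 0)]
  have hφ : Continuous fun ε : ℝ => (∑ i ∈ s, (B i + ε)) ^ k := by fun_prop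
  refine (le_of_eps hφ fun ε hε => ?_).trans (le_of_eq (by simp))
  set S := ∑ i ∈ s, (B i + ε) with hS
  have hpos : ∀ i ∈ s, 0 < B i + ε := fun i hi => by have := hB i hi; linarith
  have Spos : 0 < S := sum_pos hpos hne
  have hx : ∀ x ∈ A, (∑ i ∈ s, a i x) ^ k
      ≤ ∑ i ∈ s, (B i + ε) / S * (a i x * S / (B i + ε)) ^ k := by
    intro x hxA
    refine le_trans (le_of_eq ?_) (Real.pow_arith_mean_le_arith_mean_pow s _ _ ?_ ?_ ?_ k)
    · congr 1
      refine sum_congr rfl fun i hi => ?_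
      have := hpos i hi
      field_simp
    · intro i hi; have := hpos i hi; positivity
    · rw [← sum_div, div_self Spos.ne']
    · intro i hi
      have := hpos i hi; have := ha i hi x hxA
      positivity
  refine (sum_le_sum fun x hxA => mul_le_mul_of_nonneg_left (hx x hxA) (hwt x hxA)).trans ?_
  simp only [mul_sum]
  rw [sum_comm]
  calc ∑ i ∈ s, ∑ x ∈ A, wt x * ((B i + ε) / S * (a i x * S / (B i + ε)) ^ k)
      = ∑ i ∈ s, (B i + ε) / S * (S / (B i + ε)) ^ k * ∑ x ∈ A, wt x * a i x ^ k := by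
        refine sum_congr rfl fun i _ => ?_
        rw [mul_sum]
        refine sum_congr rfl fun x _ => ?_
        rw [mul_div_assoc, mul_pow]; ring
    _ ≤ ∑ i ∈ s, (B i + ε) / S * S ^ k := by
        refine sum_le_sum fun i hi => ?_
        have hp := hpos i hi
        rw [mul_assoc]
        refine mul_le_mul_of_nonneg_left ?_ (by positivity)
        calc (S / (B i + ε)) ^ k * ∑ x ∈ A, wt x * a i x ^ k
            ≤ (S / (B i + ε)) ^ k * (B i + ε) ^ k := by
              refine mul_le_mul_of_nonneg_left ((h i hi).trans ?_) (by positivity)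
              exact pow_le_pow_left₀ (hB i hi) (by linarith) k
          _ = S ^ k := by rw [← mul_pow, div_mul_cancel₀ _ hp.ne']
    _ = S ^ k := by rw [← sum_mul, ← sum_div, div_self Spos.ne', one_mul]

/-- Minkowski for even moments of an expectation -/
lemma mink_even {ι : Type*} (hT : IsPM T) (I : Finset ℕ) (s : Finset ι) (f : ι → (ℕ → W) → ℝ)
    (w : ι → ℝ) (k : ℕ) (hk : 1 ≤ k) (h : ∀ i ∈ s, Bd T k I (f i) (w i)) :
    Bd T k I (fun ω => ∑ i ∈ s, f i ω) (∑ i ∈ s, w i) := by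
  refine ⟨sum_nonneg fun i hi => (h i hi).1, ?_⟩
  have e : ∀ F : (ℕ → W) → ℝ, E T I F = ∑ g ∈ I.pi (fun _ => T.coeff.support),
      (∏ i ∈ I.attach, T.coeff (g i.1 i.2)) * F (patch om0 I g) := fun F => rfl
  rw [e]
  refine le_trans (sum_le_sum fun g _ => mul_le_mul_of_nonneg_left ?_ (wt_nonneg hT I g))
    (mink_pow _ _ (fun g _ => wt_nonneg hT I g) s (fun i g => |f i (patch om0 I g)|) w (2 * k)
      (by omega) (fun i _ g _ => abs_nonneg _) (fun i hi => (h i hi).1) fun i hi => ?_)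
  · rw [← (even_two_mul k).pow_abs]
    exact pow_le_pow_left₀ (abs_nonneg _) (abs_sum_le_sum_abs _ _) _
  · refine le_trans (le_of_eq ?_) (h i hi).2
    rw [e]
    exact sum_congr rfl fun g _ => by rw [(even_two_mul k).pow_abs]

lemma Bd.mono {k : ℕ} {I : Finset ℕ} {f : (ℕ → W) → ℝ} {w w' : ℝ} (h : Bd T k I f w)
    (hw : w ≤ w') : Bd T k I f w' :=
  ⟨h.1.trans hw, h.2.trans (pow_le_pow_left₀ h.1 hw _)⟩

lemma Bd.const_mul {k : ℕ} {I : Finset ℕ} {f : (ℕ → W) → ℝ} {w : ℝ} (h : Bd T k I f w) (c : ℝ) :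
    Bd T k I (fun ω => c * f ω) (|c| * w) := by
  refine ⟨mul_nonneg (abs_nonneg _) h.1, ?_⟩
  have : E T I (fun ω => (c * f ω) ^ (2 * k)) = c ^ (2 * k) * E T I (fun ω => f ω ^ (2 * k)) := by
    simp only [E, mul_pow]
    exact Ew_smul T I (fun ω => f ω ^ (2 * k)) om0 (c ^ (2 * k))
  rw [this, mul_pow, (even_two_mul k).pow_abs]
  exact mul_le_mul_of_nonneg_left h.2 ((even_two_mul k).pow_nonneg c)

lemma bernoulli_abs {t : ℝ} (n : ℕ) (_hn : 1 ≤ n) (ht : 0 ≤ t) :
    (n : ℝ) * t ≤ t ^ n + ((n : ℝ) - 1) := by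
  have := one_add_mul_sub_le_pow (show (-1 : ℝ) ≤ t by linarith) n
  linarith

lemma Bd.abs_le {k : ℕ} {I : Finset ℕ} {f : (ℕ → W) → ℝ} {w : ℝ} (hT : IsPM T) (hk : 1 ≤ k)
    (h : Bd T k I f w) : E T I (fun ω => |f ω|) ≤ w := by
  have hφ : Continuous fun ε : ℝ => w + ε := by fun_prop
  refine (le_of_eps hφ fun ε hε => ?_).trans (le_of_eq (add_zero w))
  have hp : 0 < w + ε := by linarith [h.1]
  have hn : (1 : ℝ) ≤ (2 * k : ℕ) := by exact_mod_cast (by omega : 1 ≤ 2 * k)
  set n : ℝ := ((2 * k : ℕ) : ℝ)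
  have key : ∀ ω, |f ω| ≤ (w + ε) / n * (((w + ε) ^ (2 * k))⁻¹ * f ω ^ (2 * k)) + (w + ε) * ((n - 1) / n) := by
    intro ω
    have hb := bernoulli_abs (t := |f ω| / (w + ε)) (2 * k) (by omega) (by positivity)
    rw [div_pow, (even_two_mul k).pow_abs] at hb
    calc |f ω| = (w + ε) / n * (n * (|f ω| / (w + ε))) := by field_simp
      _ ≤ (w + ε) / n * (f ω ^ (2 * k) / (w + ε) ^ (2 * k) + (n - 1)) :=
          mul_le_mul_of_nonneg_left hb (by positivity)
      _ = _ := by rw [div_eq_inv_mul (f ω ^ (2 * k))]; ring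
  refine (Ew_mono hT I _ key).trans ?_
  have e : Ew T I (fun ω => (w + ε) / n * (((w + ε) ^ (2 * k))⁻¹ * f ω ^ (2 * k))
      + (w + ε) * ((n - 1) / n)) om0 = (w + ε) / n * (((w + ε) ^ (2 * k))⁻¹ * E T I (fun ω => f ω ^ (2 * k)))
      + (w + ε) * ((n - 1) / n) := by
    rw [Ew_add, Ew_const T I om0 hT]
    congr 1
    simp only [← mul_assoc]
    exact Ew_smul T I (fun ω => f ω ^ (2 * k)) om0 _
  rw [e]
  have hle : ((w + ε) ^ (2 * k))⁻¹ * E T I (fun ω => f ω ^ (2 * k)) ≤ 1 := by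
    rw [inv_mul_le_iff₀ (by positivity), mul_one]
    exact h.2.trans (pow_le_pow_left₀ h.1 (by linarith) _)
  have := mul_le_mul_of_nonneg_left hle (show 0 ≤ (w + ε) / n by positivity)
  have : (w + ε) / n * 1 + (w + ε) * ((n - 1) / n) = w + ε := by field_simp; ring
  linarith

lemma nrm_piN_le_of_Bd {k : ℕ} {f : (ℕ → W) → ℝ} {w : ℝ} (hT : IsPM T) (hk : 1 ≤ k) (N : ℕ)
    (h : Bd T k (range N) f w) : nrm (piN T N f) ≤ w :=
  (nrm_piN_le hT N f).trans (h.abs_le hT hk)

lemma mixed_pow_le {k : ℕ} (a b : ℕ) (U V : ℝ) (ha : a + b = 2 * k) :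
    |U| ^ a * |V| ^ b ≤ U ^ (2 * k) + V ^ (2 * k) := by
  rcases le_total |U| |V| with h | h
  · calc |U| ^ a * |V| ^ b ≤ |V| ^ a * |V| ^ b := by gcongr
      _ = V ^ (2 * k) := by rw [← pow_add, ha, (even_two_mul k).pow_abs]
      _ ≤ _ := le_add_of_nonneg_left ((even_two_mul k).pow_nonneg U)
  · calc |U| ^ a * |V| ^ b ≤ |U| ^ a * |U| ^ b := by gcongr
      _ = U ^ (2 * k) := by rw [← pow_add, ha, (even_two_mul k).pow_abs]
      _ ≤ _ := le_add_of_nonneg_right ((even_two_mul k).pow_nonneg V)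

lemma taylor_bound (k : ℕ) (hk : 1 ≤ k) (u v : ℝ) :
    (u + v) ^ (2 * k) ≤ u ^ (2 * k) + (2 * k : ℕ) * (u ^ (2 * k - 1) * v)
      + 2 ^ (2 * k) * (u ^ (2 * k - 2) * v ^ 2 + v ^ (2 * k)) := by
  obtain ⟨n, hn⟩ : ∃ n, 2 * k = n + 2 := ⟨2 * k - 2, by omega⟩
  have he : Even n := by
    rcases Nat.even_or_odd n with h | h
    · exact h
    · obtain ⟨r, hr⟩ := h; omega
  rw [hn, show n + 2 - 1 = n + 1 by omega, show n + 2 - 2 = n by omega]
  rw [add_comm u v, add_pow, sum_range_succ', sum_range_succ']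
  simp only [pow_zero, one_mul, Nat.choose_zero_right, Nat.cast_one, mul_one,
    Nat.choose_one_right, pow_one, zero_add, Nat.sub_zero]
  have hb : ∀ j ∈ range (n + 1),
      v ^ (j + 1 + 1) * u ^ (n + 2 - (j + 1 + 1)) * ((n + 2).choose (j + 1 + 1) : ℝ)
        ≤ (u ^ n * v ^ 2 + v ^ (n + 2)) * ((n + 2).choose (j + 1 + 1) : ℝ) := by
    intro j hj
    rw [mem_range] at hj
    refine mul_le_mul_of_nonneg_right ((le_abs_self _).trans ?_) (Nat.cast_nonneg _)
    rw [abs_mul, abs_pow, abs_pow, show n + 2 - (j + 1 + 1) = n - j by omega]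
    rcases le_total |v| |u| with h | h
    · refine le_trans ?_ (le_add_of_nonneg_right ((he.add even_two).pow_nonneg v))
      calc |v| ^ (j + 1 + 1) * |u| ^ (n - j) = |v| ^ 2 * (|v| ^ j * |u| ^ (n - j)) := by ring
        _ ≤ |v| ^ 2 * (|u| ^ j * |u| ^ (n - j)) := by gcongr
        _ = u ^ n * v ^ 2 := by
            rw [← pow_add, show j + (n - j) = n by omega, sq_abs, he.pow_abs]; ring
    · refine le_trans ?_ (le_add_of_nonneg_left (mul_nonneg (he.pow_nonneg u) (sq_nonneg v)))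
      calc |v| ^ (j + 1 + 1) * |u| ^ (n - j) ≤ |v| ^ (j + 1 + 1) * |v| ^ (n - j) := by gcongr
        _ = v ^ (n + 2) := by
            rw [← pow_add, show j + 1 + 1 + (n - j) = n + 2 by omega,
              (he.add even_two).pow_abs]
  have hc : ∑ j ∈ range (n + 1), ((n + 2).choose (j + 1 + 1) : ℝ) ≤ 2 ^ (n + 2) := by
    have hnat := Nat.sum_range_choose (n + 2)
    rw [sum_range_succ', sum_range_succ'] at hnat
    have : ∑ j ∈ range (n + 1), (n + 2).choose (j + 1 + 1) ≤ 2 ^ (n + 2) := by omega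
    exact_mod_cast this
  have h0 : 0 ≤ u ^ n * v ^ 2 + v ^ (n + 2) :=
    add_nonneg (mul_nonneg (he.pow_nonneg u) (sq_nonneg v)) ((he.add even_two).pow_nonneg v)
  have := (sum_le_sum hb).trans (le_of_eq (mul_sum _ _ _).symm)
  have := mul_le_mul_of_nonneg_left hc h0
  have hn' : ∀ j ∈ range (n + 1), n + 2 - (j + 1 + 1) = n - j := fun j _ => by omega
  rw [show n + 2 - 1 = n + 1 by omega]
  push_cast
  rw [sum_congr rfl fun j hj => by rw [← hn' j hj]]
  linarith

/-- the constant of two-smoothness -/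
def smC (k : ℕ) : ℝ := 2 * (2 * (2 ^ (2 * k) * 2))

lemma smC_ge_one (k : ℕ) : 1 ≤ smC k := by
  have : (1 : ℝ) ≤ 2 ^ (2 * k) := one_le_pow₀ (by norm_num)
  rw [smC]; linarith

/-- two-smoothness of even moments -/
lemma smooth2 (hT : IsPM T) (I : Finset ℕ) (k : ℕ) (hk : 1 ≤ k) (u v : (ℕ → W) → ℝ) (A B : ℝ)
    (hA : 0 ≤ A) (hB : 0 ≤ B) (hu : E T I (fun ω => u ω ^ (2 * k)) ≤ A ^ k)
    (hv : E T I (fun ω => v ω ^ (2 * k)) ≤ B ^ k)
    (hc : E T I (fun ω => u ω ^ (2 * k - 1) * v ω) = 0) :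
    E T I (fun ω => (u ω + v ω) ^ (2 * k)) ≤ (A + smC k * B) ^ k := by
  have hφ : Continuous fun ε : ℝ => (A + ε + smC k * (B + ε)) ^ k := by fun_prop
  refine (le_of_eps hφ fun ε hε => ?_).trans (le_of_eq (by simp))
  set A' := A + ε with hA'
  set B' := B + ε with hB'
  have Ap : 0 < A' := by linarith
  have Bp : 0 < B' := by linarith
  have hu' : E T I (fun ω => u ω ^ (2 * k)) ≤ A' ^ k :=
    hu.trans (pow_le_pow_left₀ hA (by linarith) _)
  have hv' : E T I (fun ω => v ω ^ (2 * k)) ≤ B' ^ k :=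
    hv.trans (pow_le_pow_left₀ hB (by linarith) _)
  have mixed : E T I (fun ω => u ω ^ (2 * k - 2) * v ω ^ 2) ≤ 2 * (A' ^ (k - 1) * B') := by
    have hp : ∀ ω, u ω ^ (2 * k - 2) * v ω ^ 2
        ≤ A' ^ (k - 1) * B' * ((A' ^ k)⁻¹ * u ω ^ (2 * k) + (B' ^ k)⁻¹ * v ω ^ (2 * k)) := by
      intro ω
      have sA := Real.mul_self_sqrt Ap.le
      have sB := Real.mul_self_sqrt Bp.le
      have sAp : 0 < Real.sqrt A' := Real.sqrt_pos.mpr Ap
      have sBp : 0 < Real.sqrt B' := Real.sqrt_pos.mpr Bp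
      have h := mixed_pow_le (k := k) (2 * k - 2) 2 (u ω / Real.sqrt A') (v ω / Real.sqrt B') (by omega)
      have e1 : (Real.sqrt A') ^ (2 * k) = A' ^ k := by rw [pow_mul, Real.sq_sqrt Ap.le]
      have e2 : (Real.sqrt B') ^ (2 * k) = B' ^ k := by rw [pow_mul, Real.sq_sqrt Bp.le]
      have e3 : (Real.sqrt A') ^ (2 * k - 2) = A' ^ (k - 1) := by
        rw [show 2 * k - 2 = 2 * (k - 1) by omega, pow_mul, Real.sq_sqrt Ap.le]
      have hev : Even (2 * k - 2) := ⟨k - 1, by omega⟩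
      rw [hev.pow_abs, sq_abs, div_pow, div_pow, div_pow, div_pow, e1, e2, e3, Real.sq_sqrt Bp.le] at h
      calc u ω ^ (2 * k - 2) * v ω ^ 2
          = A' ^ (k - 1) * B' * (u ω ^ (2 * k - 2) / A' ^ (k - 1) * (v ω ^ 2 / B')) := by
            field_simp
        _ ≤ A' ^ (k - 1) * B' * (u ω ^ (2 * k) / A' ^ k + v ω ^ (2 * k) / B' ^ k) :=
            mul_le_mul_of_nonneg_left h (by positivity)
        _ = _ := by rw [div_eq_inv_mul, div_eq_inv_mul]
    refine (Ew_mono hT I _ hp).trans ?_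
    rw [show (fun ω => A' ^ (k - 1) * B' * ((A' ^ k)⁻¹ * u ω ^ (2 * k) + (B' ^ k)⁻¹ * v ω ^ (2 * k)))
      = fun ω => (A' ^ (k - 1) * B' * (A' ^ k)⁻¹) • u ω ^ (2 * k)
        + (A' ^ (k - 1) * B' * (B' ^ k)⁻¹) • v ω ^ (2 * k) by funext ω; simp [smul_eq_mul]; ring,
      Ew_add, Ew_smul, Ew_smul, smul_eq_mul, smul_eq_mul]
    have h1 := mul_le_mul_of_nonneg_left hu' (show 0 ≤ A' ^ (k - 1) * B' * (A' ^ k)⁻¹ by positivity)
    have h2 := mul_le_mul_of_nonneg_left hv' (show 0 ≤ A' ^ (k - 1) * B' * (B' ^ k)⁻¹ by positivity)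
    simp only [E] at h1 h2
    rw [inv_mul_cancel_right₀ (by positivity)] at h1 h2
    linarith
  have total : E T I (fun ω => (u ω + v ω) ^ (2 * k))
      ≤ A' ^ k + 2 ^ (2 * k) * (2 * (A' ^ (k - 1) * B') + B' ^ k) := by
    refine (Ew_mono hT I _ fun ω => taylor_bound k hk (u ω) (v ω)).trans ?_
    rw [show (fun x => u x ^ (2 * k) + ((2 * k : ℕ) : ℝ) * (u x ^ (2 * k - 1) * v x)
        + 2 ^ (2 * k) * (u x ^ (2 * k - 2) * v x ^ 2 + v x ^ (2 * k)))
      = fun x => (u x ^ (2 * k) + ((2 * k : ℕ) : ℝ) • (u x ^ (2 * k - 1) * v x))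
        + (2 ^ (2 * k) : ℝ) • (u x ^ (2 * k - 2) * v x ^ 2 + v x ^ (2 * k)) from rfl,
      Ew_add, Ew_add, Ew_smul, Ew_smul, Ew_add]
    simp only [E] at hc hu' hv' mixed
    rw [hc, smul_zero, add_zero, smul_eq_mul]
    exact add_le_add hu' (mul_le_mul_of_nonneg_left (add_le_add mixed hv') (by positivity))
  refine total.trans ?_
  set c : ℝ := 2 ^ (2 * k) * 2
  have c1 : 1 ≤ c := by
    have : (1 : ℝ) ≤ 2 ^ (2 * k) := one_le_pow₀ (by norm_num)
    linarith
  have hC : smC k * B' = 2 * (2 * c) * B' := rfl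
  rw [hC]
  set x := 2 * (2 * c) * B' with hx
  have xp : 0 ≤ x := by positivity
  obtain ⟨k, rfl⟩ : ∃ j, k = j + 1 := ⟨k - 1, by omega⟩
  simp only [Nat.add_sub_cancel]
  have h1 : A' ^ (k + 1) + x * A' ^ k ≤ (A' + x) ^ (k + 1) := by
    rw [pow_succ (A' + x)]
    have : A' ^ k ≤ (A' + x) ^ k := pow_le_pow_left₀ Ap.le (by linarith) _
    nlinarith [mul_le_mul_of_nonneg_right this (show 0 ≤ A' + x by linarith), pow_succ A' k]
  have h2 : A' ^ (k + 1) + x ^ (k + 1) ≤ (A' + x) ^ (k + 1) := by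
    exact pow_add_pow_le Ap.le xp (by omega)
  have h3 : 2 * (2 * c) * B' ^ (k + 1) ≤ x ^ (k + 1) := by
    rw [hx, mul_pow]
    refine mul_le_mul_of_nonneg_right ?_ (by positivity)
    exact le_self_pow₀ (by linarith) (by omega)
  have hh : c = 2 ^ (2 * (k + 1)) * 2 := rfl
  have : (0:ℝ) ≤ 2 ^ (2 * (k + 1)) * B' ^ (k + 1) := by positivity
  have : (0:ℝ) ≤ c * (A' ^ k * B') := by positivity
  nlinarith [h1, h2, h3]

/-- centred in every coordinate of S -/
def Cen (T : Alg) (S : Finset ℕ) (f : (ℕ → W) → ℝ) : Prop :=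
  ∀ i ∈ S, ∀ ω, Ew T {i} f ω = 0

/-- a term: coordinates, density, norm bound -/
structure Term where
  S : Finset ℕ
  f : (ℕ → W) → ℝ
  w : ℝ

/-- a well formed term -/
structure Term.Good (t : Term) (T : Alg) (k : ℕ) : Prop where
  dep : DependsOn t.f ↑t.S
  cen : Cen T t.S t.f
  bd : Bd T k t.S t.f t.w

/-- weighted coincidence sum of a family -/
def nuC {ι : Type*} (C : ℝ) (s : Finset ι) (S : ι → Finset ℕ) (w : ι → ℝ) : ℝ :=
  ∑ i ∈ s, ∑ j ∈ s, if S i = S j then C ^ (S i).card * (w i * w j) else 0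

lemma nuC_nonneg {ι : Type*} {C : ℝ} (hC : 0 ≤ C) (s : Finset ι) (S : ι → Finset ℕ) (w : ι → ℝ)
    (hw : ∀ i ∈ s, 0 ≤ w i) : 0 ≤ nuC C s S w := by
  refine sum_nonneg fun i hi => sum_nonneg fun j hj => ?_
  split_ifs
  · exact mul_nonneg (pow_nonneg hC _) (mul_nonneg (hw i hi) (hw j hj))
  · exact le_rfl

lemma E_insert_comm {V : Type*} [AddCommGroup V] [Module ℝ V] (T : Alg) (I : Finset ℕ)
    (F : (ℕ → W) → V) {i : ℕ} (hi : i ∉ I) :
    E T (insert i I) F = ∑ w ∈ T.coeff.support, T.coeff w • E T I (fun x => F (Function.update x i w)) :=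
  Ew_insert' T I F om0 hi

/-- orthogonality inequality for even moments -/
theorem es_ineq (hT : IsPM T) (k : ℕ) (hk : 1 ≤ k) (I : Finset ℕ) :
    ∀ {ι : Type} (s : Finset ι) (t : ι → Term), (∀ i ∈ s, (t i).Good T k) →
      (∀ i ∈ s, (t i).S ⊆ I) →
      E T I (fun ω => (∑ i ∈ s, (t i).f ω) ^ (2 * k))
        ≤ (nuC (smC k) s (fun i => (t i).S) (fun i => (t i).w)) ^ k := by
  induction I using Finset.induction_on with
  | empty =>
    intro ι s t hg hS
    have e : ∀ i ∈ s, (t i).S = ∅ := fun i hi => subset_empty.mp (hS i hi)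
    have hn : nuC (smC k) s (fun i => (t i).S) (fun i => (t i).w) = (∑ i ∈ s, (t i).w) ^ 2 := by
      rw [sq, sum_mul_sum, nuC]
      refine sum_congr rfl fun i hi => sum_congr rfl fun j hj => ?_
      simp [e i hi, e j hj]
    rw [hn, ← pow_mul]
    refine (mink_even hT ∅ s (fun i => (t i).f) (fun i => (t i).w) k hk fun i hi => ?_).2
    have := (hg i hi).bd
    rwa [e i hi] at this
  | @insert i0 I hi0 ih =>
    intro ι s t hg hS
    classical
    set C := smC k with hCdef
    have hC1 : 1 ≤ C := smC_ge_one k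
    set su := s.filter (fun i => i0 ∉ (t i).S) with hsu
    set sv := s.filter (fun i => i0 ∈ (t i).S) with hsv
    set u := fun ω => ∑ i ∈ su, (t i).f ω with hu
    set v := fun ω => ∑ i ∈ sv, (t i).f ω with hv
    have hsplit : ∀ ω, ∑ i ∈ s, (t i).f ω = u ω + v ω := by
      intro ω
      rw [hu, hv, add_comm]
      exact (sum_filter_add_sum_filter_not s _ _).symm
    have hmu : ∀ {i}, i ∈ su → i ∈ s ∧ i0 ∉ (t i).S := fun h => mem_filter.mp h
    have hmv : ∀ {i}, i ∈ sv → i ∈ s ∧ i0 ∈ (t i).S := fun h => mem_filter.mp h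
    have udep : DependsOn u ↑I := by
      intro x y h
      refine sum_congr rfl fun i hi => (hg i (hmu hi).1).dep fun j hj => ?_
      refine h j ?_
      have := hS i (hmu hi).1 hj
      simp only [mem_insert] at this
      rcases this with rfl | h'
      · exact absurd hj (hmu hi).2
      · exact h'
    -- the part free of the new coordinate
    have hu2 : E T (insert i0 I) (fun ω => u ω ^ (2 * k))
        ≤ (nuC C su (fun i => (t i).S) (fun i => (t i).w)) ^ k := by
      rw [E, Ew_superset hT I om0 (subset_insert i0 I) (fun x y h => by simp only [udep h])]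
      exact ih su t (fun i hi => hg i (hmu hi).1) fun i hi => by
        intro j hj
        have := hS i (hmu hi).1 hj
        simp only [mem_insert] at this
        rcases this with rfl | h'
        · exact absurd hj (hmu hi).2
        · exact h'
    -- the centred part
    set wy : W → ι → ℝ := fun y i =>
      (E T ((t i).S.erase i0) (fun ω => (t i).f (Function.update ω i0 y) ^ (2 * k)))
        ^ ((1 : ℝ) / (2 * k : ℕ)) with hwy
    set ty : W → ι → Term := fun y i =>
      ⟨(t i).S.erase i0, fun ω => (t i).f (Function.update ω i0 y), wy y i⟩ with hty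
    have wy0 : ∀ y i, 0 ≤ E T ((t i).S.erase i0)
        (fun ω => (t i).f (Function.update ω i0 y) ^ (2 * k)) := fun y i =>
      Ew_nonneg hT _ _ fun x => (even_two_mul k).pow_nonneg _
    have wyp : ∀ y i, (wy y i) ^ (2 * k)
        = E T ((t i).S.erase i0) (fun ω => (t i).f (Function.update ω i0 y) ^ (2 * k)) := by
      intro y i
      rw [hwy]; dsimp only
      rw [← Real.rpow_natCast, ← Real.rpow_mul (wy0 y i), one_div, inv_mul_cancel₀ (by positivity),
        Real.rpow_one]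
    have hgy : ∀ y, ∀ i ∈ sv, (ty y i).Good T k := by
      intro y i hi
      refine ⟨?_, ?_, ⟨Real.rpow_nonneg (wy0 y i) _, le_of_eq (wyp y i).symm⟩⟩
      · intro a b h
        refine (hg i (hmv hi).1).dep fun j hj => ?_
        by_cases hj0 : j = i0
        · subst hj0; simp
        · simp [Function.update_of_ne hj0]
          exact h j (mem_erase.mpr ⟨hj0, hj⟩)
      · intro j hj ω
        rw [mem_erase] at hj
        have := (hg i (hmv hi).1).cen j hj.2 (Function.update ω i0 y)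
        rw [Ew_singleton] at this ⊢
        simp only [hty]
        refine Eq.trans (sum_congr rfl fun w _ => ?_) this
        rw [Function.update_comm hj.1.symm]
    set Bv := nuC C sv (fun i => (t i).S.erase i0) (fun i => (t i).w) with hBv
    have hv2 : E T (insert i0 I) (fun ω => v ω ^ (2 * k)) ≤ Bv ^ k := by
      rw [E_insert_comm T I _ hi0]
      have h1 : ∀ y, E T I (fun ω => v (Function.update ω i0 y) ^ (2 * k))
          ≤ (∑ p ∈ sv ×ˢ sv, if (t p.1).S.erase i0 = (t p.2).S.erase i0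
              then C ^ ((t p.1).S.erase i0).card * (wy y p.1 * wy y p.2) else 0) ^ k := by
        intro y
        refine (ih sv (ty y) (hgy y) fun i hi => ?_).trans (le_of_eq ?_)
        · intro j hj
          simp only [hty, mem_erase] at hj
          have := hS i (hmv hi).1 hj.2
          simp only [mem_insert] at this
          exact this.resolve_left hj.1
        · rw [nuC, sum_product]
      refine (sum_le_sum fun y _ => smul_le_smul_of_nonneg_left (h1 y) (hT.1 y)).trans ?_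
      rw [hBv, nuC, ← sum_product']
      refine mink_pow _ _ (fun y _ => hT.1 y) _ _ _ k hk ?_ ?_ ?_
      · intro p hp y _
        rw [mem_product] at hp
        split_ifs
        · exact mul_nonneg (pow_nonneg (by linarith) _) (mul_nonneg
            (Real.rpow_nonneg (wy0 y p.1) _) (Real.rpow_nonneg (wy0 y p.2) _))
        · exact le_rfl
      · intro p hp
        rw [mem_product] at hp
        split_ifs
        · exact mul_nonneg (pow_nonneg (by linarith) _)
            (mul_nonneg (hg _ (hmv hp.1).1).bd.1 (hg _ (hmv hp.2).1).bd.1)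
        · exact le_rfl
      · intro p hp
        rw [mem_product] at hp
        split_ifs with heq
        swap
        · simp [zero_pow (by omega : k ≠ 0)]
        have tot : ∀ i ∈ sv, ∑ y ∈ T.coeff.support, T.coeff y * wy y i ^ (2 * k)
            ≤ (t i).w ^ (2 * k) := by
          intro i hi
          refine le_trans (le_of_eq ?_) (hg i (hmv hi).1).bd.2
          conv_rhs => rw [← insert_erase (hmv hi).2]
          rw [E_insert_comm T _ _ (notMem_erase _ _)]
          exact sum_congr rfl fun y _ => by rw [wyp, smul_eq_mul]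
        have ha := (hg _ (hmv hp.1).1).bd.1
        have hb := (hg _ (hmv hp.2).1).bd.1
        simp only [mul_pow]
        rw [show ∀ (c : ℝ), ∑ y ∈ T.coeff.support, T.coeff y * (c * (wy y p.1 ^ k * wy y p.2 ^ k))
            = c * ∑ y ∈ T.coeff.support, T.coeff y * (wy y p.1 ^ k * wy y p.2 ^ k) from fun c => by
          rw [mul_sum]; exact sum_congr rfl fun y _ => by ring]
        refine mul_le_mul_of_nonneg_left ?_ (pow_nonneg (pow_nonneg (by linarith) _) _)
        calc _ ≤ Real.sqrt (∑ y ∈ T.coeff.support, T.coeff y * wy y p.1 ^ (2 * k))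
              * Real.sqrt (∑ y ∈ T.coeff.support, T.coeff y * wy y p.2 ^ (2 * k)) := by
              refine le_trans (le_of_eq ?_) (Real.sum_sqrt_mul_sqrt_le _
                (f := fun y => T.coeff y * wy y p.1 ^ (2 * k))
                (g := fun y => T.coeff y * wy y p.2 ^ (2 * k))
                (fun y => mul_nonneg (hT.1 y) ((even_two_mul k).pow_nonneg _))
                (fun y => mul_nonneg (hT.1 y) ((even_two_mul k).pow_nonneg _)))
              refine sum_congr rfl fun y _ => ?_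
              rw [Real.sqrt_mul (hT.1 y), Real.sqrt_mul (hT.1 y), mul_comm 2 k, pow_mul, pow_mul,
                Real.sqrt_sq (pow_nonneg (Real.rpow_nonneg (wy0 y p.1) _) _),
                Real.sqrt_sq (pow_nonneg (Real.rpow_nonneg (wy0 y p.2) _) _)]
              have := Real.mul_self_sqrt (hT.1 y)
              linear_combination (-(wy y p.1 ^ k * wy y p.2 ^ k)) * this
          _ ≤ Real.sqrt ((t p.1).w ^ (2 * k)) * Real.sqrt ((t p.2).w ^ (2 * k)) := by
              exact mul_le_mul (Real.sqrt_le_sqrt (tot _ hp.1)) (Real.sqrt_le_sqrt (tot _ hp.2))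
                (Real.sqrt_nonneg _) (Real.sqrt_nonneg _)
          _ = _ := by
              rw [mul_comm 2 k, pow_mul, pow_mul, Real.sqrt_sq (pow_nonneg ha _),
                Real.sqrt_sq (pow_nonneg hb _)]
    have hc : E T (insert i0 I) (fun ω => u ω ^ (2 * k - 1) * v ω) = 0 := by
      rw [E, insert_eq, union_comm, Ew_union T I _ (disjoint_singleton_right.mpr hi0),
        Ew_congr T I om0 (G := fun _ => (0 : ℝ)) ?_, Ew_zero]
      intro x _ _
      have h1 : DependsOn (fun ω => u ω ^ (2 * k - 1)) ↑I := fun a b h => by simp only [udep h]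
      have := Ew_smul_left T {i0} x (fun ω => u ω ^ (2 * k - 1)) v h1
        (fun i hi => by simp at hi; subst hi; simpa using hi0)
      simp only [smul_eq_mul] at this
      rw [this]
      have hvz : Ew T {i0} v x = 0 := by
        rw [hv, Ew_sum]
        exact sum_eq_zero fun i hi => (hg i (hmv hi).1).cen i0 (hmv hi).2 x
      rw [hvz, mul_zero]
    have wu0 : ∀ i ∈ su, 0 ≤ (t i).w := fun i hi => (hg i (hmu hi).1).bd.1
    have wv0 : ∀ i ∈ sv, 0 ≤ (t i).w := fun i hi => (hg i (hmv hi).1).bd.1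
    have := smooth2 hT (insert i0 I) k hk u v _ Bv (nuC_nonneg (by linarith) su _ _ wu0)
      (nuC_nonneg (by linarith) sv _ _ wv0) hu2 hv2 hc
    simp only [hsplit]
    refine this.trans (le_of_eq ?_)
    congr 1
    rw [hBv, ← hCdef, nuC, nuC, nuC, mul_sum]
    conv_rhs => rw [← sum_filter_add_sum_filter_not s (fun i => i0 ∈ (t i).S), add_comm]
    congr 1
    · refine sum_congr rfl fun i hi => ?_
      refine sum_subset (filter_subset _ _) fun j hj hj' => if_neg fun he => hj' ?_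
      exact mem_filter.mpr ⟨hj, by rw [← he]; exact (hmu hi).2⟩
    · refine sum_congr rfl fun i hi => ?_
      rw [mul_sum]
      refine Eq.trans (sum_congr rfl fun j hj => ?_)
        (sum_subset (filter_subset _ _) fun j hj hj' => if_neg fun he => hj' ?_)
      · have hi' := (hmv hi).2
        have hj' := (hmv hj).2
        by_cases he : (t i).S = (t j).S
        · rw [if_pos (by rw [he]), if_pos he, ← mul_assoc, ← pow_succ', card_erase_add_one hi']
        · rw [if_neg, if_neg he, mul_zero]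
          intro h
          exact he (by rw [← insert_erase hi', ← insert_erase hj', h])
      · exact mem_filter.mpr ⟨hj, by rw [← he]; exact (hmv hi).2⟩

/-- uniform-degree form -/
theorem es_bd (hT : IsPM T) (k : ℕ) (hk : 1 ≤ k) (I : Finset ℕ) {ι : Type} (s : Finset ι)
    (t : ι → Term) (hg : ∀ i ∈ s, (t i).Good T k) (hS : ∀ i ∈ s, (t i).S ⊆ I) (d : ℕ)
    (hd : ∀ i ∈ s, (t i).S.card ≤ d) {N : ℝ} (hN : 0 ≤ N)
    (h : nuC 1 s (fun i => (t i).S) (fun i => (t i).w) ≤ N ^ 2) :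
    Bd T k I (fun ω => ∑ i ∈ s, (t i).f ω) (smC k ^ d * N) := by
  have hC := smC_ge_one k
  have hC0 : 0 ≤ smC k := by linarith
  refine ⟨mul_nonneg (pow_nonneg hC0 _) hN, (es_ineq hT k hk I s t hg hS).trans ?_⟩
  rw [pow_mul]
  refine pow_le_pow_left₀ (nuC_nonneg hC0 _ _ _ fun i hi => (hg i hi).bd.1) ?_ _
  calc nuC (smC k) s (fun i => (t i).S) (fun i => (t i).w)
      ≤ smC k ^ d * nuC 1 s (fun i => (t i).S) (fun i => (t i).w) := by
        rw [nuC, nuC, mul_sum]
        refine sum_le_sum fun i hi => ?_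
        rw [mul_sum]
        refine sum_le_sum fun j hj => ?_
        split_ifs
        · rw [one_pow, one_mul]
          exact mul_le_mul_of_nonneg_right (pow_le_pow_right₀ hC (hd i hi))
            (mul_nonneg (hg i hi).bd.1 (hg j hj).bd.1)
        · simp
    _ ≤ smC k ^ d * N ^ 2 := mul_le_mul_of_nonneg_left h (pow_nonneg hC0 _)
    _ ≤ (smC k ^ d * N) ^ 2 := by
        rw [mul_pow]
        exact mul_le_mul_of_nonneg_right (le_self_pow₀ (one_le_pow₀ hC) (by norm_num)) (sq_nonneg N)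

end Vale.Agent.P321
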