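import Mathlib
import Vale.Agent.P321.Lp
import Vale.Agent.P321.Comm

/-
Families of centred terms, their basic operations, and the invariant carried from one level of
the construction to the next.
-/

open scoped BigOperators
open Finset

namespace Vale.Agent.P321

variable {T : Alg} {k : ℕ}

/-- the coordinates of slot i -/
def slotI (M i : ℕ) : Finset ℕ := Ico (i * M) ((i + 1) * M)

/-- the coordinates of a set of slots -/
def unitsOf (M : ℕ) (O : Finset ℕ) : Finset ℕ := O.biUnion (slotI M)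

lemma Ew_mul_real {I : Finset ℕ} {S : Set ℕ} (hI : ∀ i ∈ I, i ∉ S) (f g : (ℕ → W) → ℝ)
    (hf : DependsOn f S) (ω : ℕ → W) :
    Ew T I (fun x => f x * g x) ω = f ω * Ew T I g ω := by
  simpa using Ew_smul_left T I ω f g hf hI

lemma Bd.extend (hT : IsPM T) {I J : Finset ℕ} {f : (ℕ → W) → ℝ} {w : ℝ} (h : Bd T k I f w)
    (hd : DependsOn f ↑I) (hIJ : I ⊆ J) : Bd T k J f w := by
  refine ⟨h.1, ?_⟩
  rw [E, Ew_superset hT I om0 hIJ (fun x y hxy => by simp only [hd hxy])]
  exact h.2

lemma E_mul_disjoint {I J : Finset ℕ} (h : Disjoint I J) (f g : (ℕ → W) → ℝ)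
    (hf : DependsOn f ↑I) (hg : DependsOn g ↑J) :
    E T (I ∪ J) (fun ω => f ω * g ω) = E T I f * E T J g := by
  rw [E, Ew_union T I _ h]
  have : ∀ x, Ew T J (fun ω => f ω * g ω) x = f x * Ew T J g om0 := fun x => by
    rw [Ew_mul_real (fun i hi => by simpa using Finset.disjoint_right.mp h hi) f g hf x,
      Ew_base T J g x hg (fun i hi => hi) om0]
  rw [Ew_congr T I om0 fun x _ _ => this x, E, E]
  have h2 := Ew_linear T I (fun x => f x) om0 (LinearMap.mulRight ℝ (Ew T J g om0))
  simpa using h2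

/-- product of two terms -/
def Term.mul (t t' : Term) : Term := ⟨t.S ∪ t'.S, fun ω => t.f ω * t'.f ω, t.w * t'.w⟩

lemma Term.Good.mul (hT : IsPM T) {t t' : Term} (h : t.Good T k) (h' : t'.Good T k)
    (hd : Disjoint t.S t'.S) : (t.mul t').Good T k := by
  refine ⟨?_, ?_, ⟨mul_nonneg h.bd.1 h'.bd.1, ?_⟩⟩
  · intro x y hxy
    show t.f x * t'.f x = t.f y * t'.f y
    rw [h.dep (fun i hi => hxy i (by simp [Term.mul]; exact Or.inl hi)),
      h'.dep (fun i hi => hxy i (by simp [Term.mul]; exact Or.inr hi))]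
  · intro i hi ω
    rw [Term.mul] at hi
    rcases Finset.mem_union.mp hi with hi | hi
    · have : Ew T {i} (fun x => t'.f x * t.f x) ω = 0 := by
        rw [Ew_mul_real (fun j hj => by
          simp at hj; subst hj; simpa using Finset.disjoint_left.mp hd hi) t'.f t.f h'.dep ω,
          h.cen i hi ω, mul_zero]
      simpa [Term.mul, mul_comm] using this
    · show Ew T {i} (fun x => t.f x * t'.f x) ω = 0
      rw [Ew_mul_real (fun j hj => by
        simp at hj; subst hj; simpa using Finset.disjoint_right.mp hd hi) t.f t'.f h.dep ω,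
        h'.cen i hi ω, mul_zero]
  · show E T (t.S ∪ t'.S) (fun ω => (t.f ω * t'.f ω) ^ (2 * k)) ≤ (t.w * t'.w) ^ (2 * k)
    simp only [mul_pow]
    rw [E_mul_disjoint hd _ _ (fun x y hxy => by simp only [h.dep hxy])
      (fun x y hxy => by simp only [h'.dep hxy])]
    exact mul_le_mul h.bd.2 h'.bd.2 (Ew_nonneg hT _ _ fun x => (even_two_mul k).pow_nonneg _)
      (pow_nonneg h.bd.1 _ )

/-- translated term -/
def Term.shift (e : ℕ) (t : Term) : Term := ⟨t.S.image (fun i => e + i), shiftF e t.f, t.w⟩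

lemma shiftF_dependsOn {α : Type*} {S : Finset ℕ} {f : (ℕ → W) → α} (hf : DependsOn f ↑S) (e : ℕ) :
    DependsOn (shiftF e f) ↑(S.image (fun i => e + i)) := fun x y h =>
  hf fun i hi => h (e + i) (by simpa using hi)

lemma E_shiftF {V : Type*} [AddCommGroup V] [Module ℝ V] (S : Finset ℕ) (f : (ℕ → W) → V) (e : ℕ) :
    E T (S.image (fun i => e + i)) (shiftF e f) = E T S f :=
  Ew_image T S f (fun i => e + i) (fun a b h => by simpa using h) om0

lemma Term.Good.shift {t : Term} (h : t.Good T k) (e : ℕ) : (t.shift e).Good T k := by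
  refine ⟨shiftF_dependsOn h.dep e, ?_, ⟨h.bd.1, ?_⟩⟩
  · intro i hi ω
    simp only [Term.shift, mem_image] at hi
    obtain ⟨j, hj, rfl⟩ := hi
    have := Ew_image T {j} t.f (fun i => e + i) (fun a b h => by simpa using h) ω
    rw [image_singleton] at this
    exact this.trans (h.cen j hj _)
  · have := E_shiftF (T := T) t.S (fun ω => t.f ω ^ (2 * k)) e
    exact le_trans (le_of_eq this) h.bd.2

/-- a finite family of terms -/
structure Fam where
  ι : Type
  [fin : Fintype ι]
  t : ι → Term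

attribute [instance] Fam.fin

/-- total weight -/
def Fam.wt (F : Fam) : ℝ := ∑ i, (F.t i).w

/-- the density of a family -/
def Fam.fn (F : Fam) : (ℕ → W) → ℝ := fun ω => ∑ i, (F.t i).f ω

/-- the measure of a family on N units -/
noncomputable def Fam.val (F : Fam) (T : Alg) (N : ℕ) : Alg := piN T N F.fn

/-- well formed family, all terms within a window -/
structure Fam.Good (F : Fam) (T : Alg) (k d lo hi : ℕ) : Prop where
  good : ∀ i, (F.t i).Good T k
  win : ∀ i, (F.t i).S ⊆ Ico lo hi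
  ne : ∀ i, (F.t i).S.Nonempty
  deg : ∀ i, (F.t i).S.card ≤ d

/-- translation of a family -/
def Fam.shift (e : ℕ) (F : Fam) : Fam := ⟨F.ι, fun i => (F.t i).shift e⟩

lemma Fam.shift_wt (e : ℕ) (F : Fam) : (F.shift e).wt = F.wt := rfl

lemma Fam.shift_fn (e : ℕ) (F : Fam) : (F.shift e).fn = shiftF e F.fn := rfl

lemma Fam.Good.shift {F : Fam} {d lo hi : ℕ} (h : F.Good T k d lo hi) (e : ℕ) :
    (F.shift e).Good T k d (e + lo) (e + hi) := by
  refine ⟨fun i => (h.good i).shift e, fun i j hj => ?_, fun i => ?_, fun i => ?_⟩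
  · simp only [Fam.shift, Term.shift, mem_image] at hj
    obtain ⟨x, hx, rfl⟩ := hj
    have := h.win i hx
    simp only [mem_Ico] at this ⊢
    omega
  · exact (h.ne i).image _
  · exact card_image_le.trans (h.deg i)

lemma Fam.wt_nonneg {F : Fam} {d lo hi : ℕ} (h : F.Good T k d lo hi) : 0 ≤ F.wt :=
  sum_nonneg fun i _ => (h.good i).bd.1

lemma Fam.fn_dependsOn {F : Fam} {d lo hi : ℕ} (h : F.Good T k d lo hi) :
    DependsOn F.fn ↑(Ico lo hi) := fun _ _ hxy =>
  sum_congr rfl fun i _ => (h.good i).dep fun j hj => hxy j (h.win i hj)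

lemma Fam.fn_bd (hT : IsPM T) (hk : 1 ≤ k) {F : Fam} {d lo hi : ℕ} (h : F.Good T k d lo hi)
    {I : Finset ℕ} (hI : Ico lo hi ⊆ I) : Bd T k I F.fn F.wt :=
  mink_even hT I univ (fun i => (F.t i).f) (fun i => (F.t i).w) k hk fun i _ =>
    (h.good i).bd.extend hT (h.good i).dep ((h.win i).trans hI)

lemma Term.Good.cen_set {t : Term} (h : t.Good T k) {J : Finset ℕ} {i : ℕ}
    (hi : i ∈ t.S) (hJ : i ∈ J) (ω : ℕ → W) : Ew T J t.f ω = 0 := by
  rw [← insert_erase hJ, insert_eq, union_comm, Ew_union T _ _ (disjoint_singleton_right.mpr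
    (notMem_erase _ _)), Ew_congr T _ _ (G := fun _ => (0 : ℝ)) (fun x _ _ => h.cen i hi x), Ew_zero]

/-- a family inside one slot has zero slot average -/
lemma Fam.fn_cen {F : Fam} {d lo hi : ℕ} (h : F.Good T k d lo hi) {J : Finset ℕ}
    (hJ : Ico lo hi ⊆ J) (ω : ℕ → W) : Ew T J F.fn ω = 0 := by
  have e : Ew T J F.fn ω = ∑ i, Ew T J (F.t i).f ω := Ew_sum T J ω univ fun i => (F.t i).f
  rw [e]
  refine sum_eq_zero fun i _ => ?_
  obtain ⟨j, hj⟩ := h.ne i
  exact (h.good i).cen_set hj (hJ (h.win i hj)) ω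

/-- translation averaged coincidence bound -/
lemma young_bound {ι : Type*} [Fintype ι] (S : ι → Finset ℕ) (w : ι → ℝ) (hw : ∀ i, 0 ≤ w i)
    (hne : ∀ i, (S i).Nonempty) (R : Finset ℕ) (c : ℕ → ℝ) (off : ℕ → ℕ)
    (hoff : Set.InjOn off ↑R) {P L : ℝ} (hP : ∀ κ ∈ R, |c κ| ≤ P) (hP0 : 0 ≤ P)
    (hL : ∑ κ ∈ R, |c κ| ≤ L) :
    nuC 1 (R ×ˢ (univ : Finset ι)) (fun p => (S p.2).image (fun x => off p.1 + x))
      (fun p => |c p.1| * w p.2) ≤ P * L * (∑ i, w i) ^ 2 := by
  have hsub : ∀ p ∈ R ×ˢ (univ : Finset ι), ∀ j : ι,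
      ∑ κ' ∈ R, (if (S p.2).image (fun x => off p.1 + x) = (S j).image (fun x => off κ' + x)
        then |c κ'| else 0) ≤ P := by
    intro p _ j
    by_cases h : ∃ κ' ∈ R, (S p.2).image (fun x => off p.1 + x) = (S j).image (fun x => off κ' + x)
    · obtain ⟨κ0, hκ0, e0⟩ := h
      refine le_trans (le_of_eq (sum_eq_single κ0 (fun κ hκ hne' => ?_) (fun h => absurd hκ0 h))) ?_
      · refine if_neg fun e => hne' (hoff hκ hκ0 ?_)
        have hm := congrArg (fun s : Finset ℕ => s.min) (e.symm.trans e0)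
        obtain ⟨x, hx⟩ := Finset.min_of_nonempty (hne j)
        have hmin : ∀ a : ℕ, ((S j).image (fun x => a + x)).min = ↑(a + x) := by
          intro a
          refine le_antisymm (Finset.min_le (mem_image.mpr ⟨x, Finset.mem_of_min hx, rfl⟩)) ?_
          refine Finset.le_min fun y hy => ?_
          obtain ⟨z, hz, rfl⟩ := mem_image.mp hy
          exact WithTop.coe_le_coe.mpr (Nat.add_le_add_left (Finset.min_le_of_eq hz hx) a)
        simp only [hmin] at hm
        exact Nat.add_right_cancel (WithTop.coe_injective hm : off κ + x = off κ0 + x)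
      · rw [if_pos e0]; exact hP κ0 hκ0
    · refine le_trans (le_of_eq (sum_eq_zero fun κ hκ => if_neg fun e => h ⟨κ, hκ, e⟩)) hP0
  calc nuC 1 (R ×ˢ (univ : Finset ι)) (fun p => (S p.2).image (fun x => off p.1 + x))
        (fun p => |c p.1| * w p.2)
      = ∑ p ∈ R ×ˢ (univ : Finset ι), ∑ j : ι, |c p.1| * w p.2 * w j *
          ∑ κ' ∈ R, (if (S p.2).image (fun x => off p.1 + x) = (S j).image (fun x => off κ' + x)
            then |c κ'| else 0) := by
        refine sum_congr rfl fun p _ => ?_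
        rw [sum_product_right]
        refine sum_congr rfl fun j _ => ?_
        rw [mul_sum]
        refine sum_congr rfl fun κ _ => ?_
        split_ifs <;> ring
    _ ≤ ∑ p ∈ R ×ˢ (univ : Finset ι), ∑ j : ι, |c p.1| * w p.2 * w j * P := by
        refine sum_le_sum fun p hp => sum_le_sum fun j _ => ?_
        exact mul_le_mul_of_nonneg_left (hsub p hp j)
          (mul_nonneg (mul_nonneg (abs_nonneg _) (hw _)) (hw _))
    _ = (∑ κ ∈ R, |c κ|) * P * (∑ i, w i) ^ 2 := by
        rw [sum_product, sq, sum_mul, sum_mul]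
        refine sum_congr rfl fun κ _ => ?_
        rw [sum_mul_sum, mul_sum]
        refine sum_congr rfl fun i _ => ?_
        rw [mul_sum]
        exact sum_congr rfl fun j _ => by ring
    _ ≤ P * L * (∑ i, w i) ^ 2 := by
        rw [mul_comm P L]
        exact mul_le_mul_of_nonneg_right (mul_le_mul_of_nonneg_right hL hP0) (sq_nonneg _)

/-- slots 01, and 1 at the landmarks -/
def slotStr (x : List Bool) : List Bool := x.flatMap fun b => if b then [true] else [false, true]

/-- the base unit: L slots 01 followed by a landmark -/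
def unitStr (L : ℕ) : List Bool := slotStr (List.replicate L false ++ [true])

/-- the data of one level -/
structure Stage where
  u : List Bool
  x : List Bool
  y : List Bool
  G : Fam
  Dl : Fam

/-- number of units in a slot -/
def slotLen (b A : ℕ) : ℕ := b ^ (A + 1)

/-- half width of the active window -/
def winLen (b A K : ℕ) : ℕ := K * b ^ (A / 2)

/-- the invariant of one level -/
structure Stage.OK (s : Stage) (q : ℝ) (k d Q g δ A b K : ℕ) : Prop where
  len : (s.x.length : ℝ) ≤ K * (b : ℝ) ^ (2 * A + 1)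
  leny : s.y.length = s.x.length
  ne : s.x ≠ s.y
  smooth : ∃ σ : ℝ, Smooth (D q s.u) σ ∧ σ ^ 2 ≤ K * (b : ℝ) ^ A
  goodG : s.G.Good (D q s.u) k d (slotLen b A / 2 - winLen b A K) (slotLen b A / 2 + winLen b A K)
  goodD : s.Dl.Good (D q s.u) k d (slotLen b A / 2 - winLen b A K) (slotLen b A / 2 + winLen b A K)
  wtG : s.G.wt * (b : ℝ) ^ g ≤ K
  wtD : s.Dl.wt * (b : ℝ) ^ δ ≤ K
  errG : nrm (D q s.x - D q s.u ^ slotLen b A - s.G.val (D q s.u) (slotLen b A)) * (b : ℝ) ^ Q ≤ K
  errD : nrm (D q s.y - D q s.x - s.Dl.val (D q s.u) (slotLen b A)) * (b : ℝ) ^ Q ≤ K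

end Vale.Agent.P321
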