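import Mathlib
import Vale.Agent.P321.Defs

/-
Smoothing of powers of the next unit: T' = T^M + (centred short family) + error, so that T'^n is
close to T^(M n) up to n of order M sigma^2.  The difference is padded by T^(M n) on one side,
expanded forwards, each centred block is spread over translates by the averaging kernel, and
the growth of the coincidence sum is controlled step by step.  The other side follows by
reversing all words.
-/

open scoped BigOperators
open Finset

namespace Vale.Agent.P321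

/-! ### reversal of words -/

/-- reversal of words as a homomorphism to the opposite algebra -/
noncomputable def chRevHom : Alg →ₐ[ℝ] Algᵐᵒᵖ :=
  MonoidAlgebra.lift ℝ Algᵐᵒᵖ W
    { toFun := fun w => MulOpposite.op (pt w.reverse)
      map_one' := by
        show MulOpposite.op (pt (FreeMonoid.reverse (1 : W))) = 1
        rw [show FreeMonoid.reverse (1 : W) = 1 from rfl, pt_one]
        rfl
      map_mul' := fun a b => by
        rw [FreeMonoid.reverse_mul, ← pt_mul, MulOpposite.op_mul] }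

/-- reversal of the words of a measure -/
noncomputable def chRev : Alg →ₗ[ℝ] Alg :=
  (MulOpposite.opLinearEquiv ℝ).symm.toLinearMap.comp chRevHom.toLinearMap

lemma chRev_apply (f : Alg) : chRev f = MulOpposite.unop (chRevHom f) := rfl

lemma chRev_pt (w : W) : chRev (pt w) = pt w.reverse := by
  rw [chRev_apply, chRevHom, pt, MonoidAlgebra.lift_single, one_smul]
  rfl

lemma chRev_mul (a b : Alg) : chRev (a * b) = chRev b * chRev a := by
  simp [chRev_apply]

lemma chRev_one : chRev (1 : Alg) = 1 := by simp [chRev_apply]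

lemma chRev_pow (a : Alg) (n : ℕ) : chRev (a ^ n) = chRev a ^ n := by
  simp [chRev_apply]

lemma chRev_sum_pt (f : Alg) :
    chRev f = ∑ w ∈ f.coeff.support, f.coeff w • pt w.reverse := by
  conv_lhs => rw [eq_sum_pt f]
  rw [map_sum]
  exact sum_congr rfl fun w _ => by rw [map_smul, chRev_pt]

lemma chRev_chRev (f : Alg) : chRev (chRev f) = f := by
  rw [chRev_sum_pt f, map_sum]
  conv_rhs => rw [eq_sum_pt f]
  exact sum_congr rfl fun w _ => by rw [map_smul, chRev_pt, FreeMonoid.reverse_reverse]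

lemma nrm_chRev_le (f : Alg) : nrm (chRev f) ≤ nrm f := by
  rw [chRev_sum_pt]
  refine (nrm_sum_le _ _).trans (le_of_eq ?_)
  rw [nrm_eq_sum_of_subset (Finset.Subset.refl _)]
  exact sum_congr rfl fun w _ => by rw [nrm_smul, nrm_pt, mul_one]

lemma chRev_coeff (f : Alg) (w : W) : (chRev f).coeff w.reverse = f.coeff w := by
  classical
  rw [chRev_sum_pt, MonoidAlgebra.coeff_sum, Finsupp.finsetSum_apply]
  rw [sum_eq_single w]
  · simp [coeff_pt]
  · intro v _ hv
    have : v.reverse ≠ w.reverse := fun h => hv <| by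
      rw [← FreeMonoid.reverse_reverse (a := v), h, FreeMonoid.reverse_reverse]
    simp [coeff_pt, this]
  · intro h
    rw [Finsupp.notMem_support_iff] at h
    simp [h]

lemma isPM_chRev {f : Alg} (hf : IsPM f) : IsPM (chRev f) := by
  refine ⟨fun w => ?_, ?_⟩
  · rw [← FreeMonoid.reverse_reverse (a := w), chRev_coeff]
    exact hf.1 _
  · conv_rhs => rw [← hf.2]
    rw [chRev_sum_pt, mass_eq, map_sum]
    simp only [map_smul, ← mass_eq, mass_pt, smul_eq_mul, mul_one]
    rfl

lemma smooth_chRev {T : Alg} {σ : ℝ} (h : Smooth T σ) : Smooth (chRev T) σ := by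
  intro g
  refine le_trans (mul_le_mul_of_nonneg_right ?_ (Real.sqrt_nonneg _)) (h g)
  have hc : (chRev T - 1) * chRev T ^ g = chRev ((T - 1) * T ^ g) := by
    rw [chRev_mul, map_sub, chRev_one, chRev_pow, sub_mul, mul_sub, one_mul, mul_one, ← pow_succ,
      ← pow_succ']
  rw [hc]
  exact nrm_chRev_le _

lemma chRev_linsum {V : Type*} [AddCommGroup V] [Module ℝ V] (T : Alg) (G : W → V) :
    ∑ w ∈ (chRev T).coeff.support, (chRev T).coeff w • G w
      = ∑ w ∈ T.coeff.support, T.coeff w • G w.reverse := by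
  refine sum_bij' (fun w _ => w.reverse) (fun w _ => w.reverse) ?_ ?_ ?_ ?_ ?_
  · intro w hw
    rw [Finsupp.mem_support_iff] at hw ⊢
    rwa [← FreeMonoid.reverse_reverse (a := w), chRev_coeff] at hw
  · intro w hw
    rw [Finsupp.mem_support_iff] at hw ⊢
    rwa [chRev_coeff]
  · intro w _; exact FreeMonoid.reverse_reverse
  · intro w _; exact FreeMonoid.reverse_reverse
  · intro w _
    rw [FreeMonoid.reverse_reverse]
    congr 1
    conv_lhs => rw [← FreeMonoid.reverse_reverse (a := w), chRev_coeff]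

/-- reversal of every word of an assignment -/
def chRevW (ω : ℕ → W) : ℕ → W := fun i => (ω i).reverse

lemma chRevW_chRevW (ω : ℕ → W) : chRevW (chRevW ω) = ω := by
  funext i; exact FreeMonoid.reverse_reverse

lemma Ew_chRev {V : Type*} [AddCommGroup V] [Module ℝ V] (T : Alg) (I : Finset ℕ)
    (F : (ℕ → W) → V) : ∀ ω : ℕ → W,
    Ew (chRev T) I F ω = Ew T I (fun x => F (chRevW x)) (chRevW ω) := by
  induction I using Finset.induction_on with
  | empty => intro ω; simp [Ew_empty, chRevW_chRevW]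
  | @insert i I hi ih =>
    intro ω
    rw [Ew_insert _ _ _ _ hi, Ew_insert _ _ _ _ hi, chRev_linsum T]
    refine sum_congr rfl fun w _ => congrArg _ ?_
    rw [ih]
    congr 1
    funext j
    by_cases hj : j = i
    · subst hj; simp [chRevW, FreeMonoid.reverse_reverse]
    · simp [chRevW, Function.update_of_ne hj]

/-- reflection of the first M coordinates -/
def chRefl (M i : ℕ) : ℕ := if i < M then M - 1 - i else i

lemma chRefl_chRefl (M i : ℕ) : chRefl M (chRefl M i) = i := by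
  unfold chRefl; split_ifs <;> omega

lemma chRefl_inj (M : ℕ) : Function.Injective (chRefl M) :=
  Function.LeftInverse.injective (g := chRefl M) (chRefl_chRefl M)

lemma chRefl_range (M : ℕ) : (range M).image (chRefl M) = range M := by
  ext i
  simp only [mem_image, mem_range]
  refine ⟨?_, fun h => ⟨chRefl M i, ?_, chRefl_chRefl M i⟩⟩
  · rintro ⟨j, hj, rfl⟩
    unfold chRefl; split_ifs; omega
  · unfold chRefl; split_ifs; omega

lemma chRev_sprod (X : ℕ → Alg) : ∀ M,
    chRev (sprod X M) = sprod (fun i => chRev (X (M - 1 - i))) M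
  | 0 => chRev_one
  | M + 1 => by
    rw [sprod, chRev_mul, chRev_sprod X M,
      show sprod (fun i => chRev (X (M + 1 - 1 - i))) (M + 1)
        = sprod (fun i => chRev (X (M + 1 - 1 - i))) (1 + M) by rw [add_comm], sprod_add]
    congr 1
    · simp [sprod]
    · refine sprod_congr M fun i hi => ?_
      rw [show M + 1 - 1 - (1 + i) = M - 1 - i by omega]

/-- a family read backwards -/
def chFamRev (M : ℕ) (G : Fam) : Fam :=
  ⟨G.ι, fun i => ⟨(G.t i).S.image (chRefl M),
    fun ω => (G.t i).f (fun j => (ω (chRefl M j)).reverse), (G.t i).w⟩⟩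

lemma chFamRev_wt (M : ℕ) (G : Fam) : (chFamRev M G).wt = G.wt := rfl

lemma chFamRev_good {T : Alg} {k : ℕ} {M d lo : ℕ} {G : Fam}
    (h : G.Good T k d lo (M - lo)) : (chFamRev M G).Good (chRev T) k d lo (M - lo) := by
  refine ⟨fun i => ?_, fun i => ?_, fun i => (h.ne i).image _, fun i =>
    card_image_le.trans (h.deg i)⟩
  · have key : ∀ (J : Finset ℕ) (φ : (ℕ → W) → ℝ) (ω : ℕ → W),
        Ew (chRev T) (J.image (chRefl M)) (fun x => φ (fun j => (x (chRefl M j)).reverse)) ω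
          = Ew T J φ (chRevW ω ∘ chRefl M) := by
      intro J φ ω
      rw [Ew_chRev]
      have e : (fun x : ℕ → W => φ (fun j => (chRevW x (chRefl M j)).reverse))
          = fun x => φ (x ∘ chRefl M) := by
        funext x; congr 1; funext j; exact FreeMonoid.reverse_reverse
      rw [e]
      exact Ew_image T J φ (chRefl M) (chRefl_inj M) _
    refine ⟨?_, ?_, (h.good i).bd.1, ?_⟩
    · intro x y hxy
      refine (h.good i).dep fun j hj => ?_
      rw [hxy (chRefl M j) (by simpa [chFamRev] using ⟨j, hj, rfl⟩)]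
    · intro j hj ω
      simp only [chFamRev, mem_image] at hj
      obtain ⟨x, hx, rfl⟩ := hj
      have := key {x} (G.t i).f ω
      rw [image_singleton] at this
      exact this.trans ((h.good i).cen x hx _)
    · have := key (G.t i).S (fun y => (G.t i).f y ^ (2 * k)) om0
      refine le_trans (le_of_eq ?_) (h.good i).bd.2
      refine Eq.trans this ?_
      rw [E]
      congr 1
  · intro j hj
    simp only [chFamRev, mem_image] at hj
    obtain ⟨x, hx, rfl⟩ := hj
    have := h.win i hx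
    simp only [mem_Ico] at this ⊢
    unfold chRefl
    split_ifs <;> omega

lemma chFamRev_val (T : Alg) (M : ℕ) (G : Fam) :
    (chFamRev M G).val (chRev T) M = chRev (G.val T M) := by
  simp only [Fam.val, piN, E]
  rw [Ew_chRev, ← Ew_linear T (range M) _ om0 chRev]
  have e0 : chRevW om0 = om0 := rfl
  rw [e0]
  set F : (ℕ → W) → Alg := fun y => G.fn y • sprod (fun i => chRev (pt (y (M - 1 - i)))) M with hF
  have e1 : (fun x : ℕ → W => (chFamRev M G).fn (chRevW x) • sprod (fun i => pt (chRevW x i)) M)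
      = fun x => F (x ∘ chRefl M) := by
    funext x
    have ef : (chFamRev M G).fn (chRevW x) = G.fn (x ∘ chRefl M) := by
      refine sum_congr rfl fun i _ => ?_
      show (G.t i).f _ = (G.t i).f _
      congr 1; funext j; exact FreeMonoid.reverse_reverse
    rw [ef, hF]
    refine congrArg _ (sprod_congr M fun i hi => ?_)
    rw [chRev_pt]
    simp only [Function.comp, chRevW]
    rw [show chRefl M (M - 1 - i) = i by unfold chRefl; split_ifs <;> omega]
  rw [e1]
  conv_lhs => rw [← chRefl_range M]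
  rw [Ew_image T (range M) F (chRefl M) (chRefl_inj M) om0]
  refine Ew_congr T _ _ fun x _ _ => ?_
  rw [hF, map_smul, chRev_sprod]

/-! ### the forward expansion -/

lemma chTele (P X : Alg) : ∀ L : ℕ,
    X ^ L - P ^ L = ∑ q ∈ range L, P ^ q * (X - P) * X ^ (L - q - 1) := by
  intro L
  induction L with
  | zero => simp
  | succ L ih =>
    rw [sum_range_succ, show L + 1 - L - 1 = 0 by omega, pow_zero, mul_one]
    have e : ∑ q ∈ range L, P ^ q * (X - P) * X ^ (L + 1 - q - 1)
        = (∑ q ∈ range L, P ^ q * (X - P) * X ^ (L - q - 1)) * X := by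
      rw [sum_mul]
      refine sum_congr rfl fun q hq => ?_
      rw [mem_range] at hq
      rw [show L + 1 - q - 1 = L - q - 1 + 1 by omega, pow_succ, ← mul_assoc]
    rw [e, ← ih, sub_mul, mul_sub, pow_succ, pow_succ]
    abel

/-- the averaging kernel for a gap of so many slots -/
noncomputable def chKer (m gap κ : ℕ) : ℝ :=
  if gap = 0 then (if κ = 0 then 1 else 0) else ker (Nat.sqrt gap) m κ

lemma chKer_l1 (m gap : ℕ) (R : Finset ℕ) : ∑ κ ∈ R, |chKer m gap κ| ≤ 3 ^ m := by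
  rcases Nat.eq_zero_or_pos gap with hg | hg
  · subst hg
    calc ∑ κ ∈ R, |chKer m 0 κ| = ∑ κ ∈ R, (if κ = 0 then (1 : ℝ) else 0) :=
          sum_congr rfl fun κ _ => by simp [chKer]; split_ifs <;> simp
      _ ≤ 1 := by rw [sum_ite_eq']; split_ifs <;> norm_num
      _ ≤ 3 ^ m := one_le_pow₀ (by norm_num)
  · set J := Nat.sqrt gap
    calc ∑ κ ∈ R, |chKer m gap κ| = ∑ κ ∈ R, |ker J m κ| :=
          sum_congr rfl fun κ _ => by rw [chKer, if_neg hg.ne']
      _ ≤ ∑ κ ∈ R ∪ range (m * J + 1), |ker J m κ| :=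
          sum_le_sum_of_subset_of_nonneg subset_union_left fun _ _ _ => abs_nonneg _
      _ = ∑ κ ∈ range (m * J + 1), |ker J m κ| := by
          symm
          refine sum_subset subset_union_right fun x _ hx => ?_
          simp at hx
          rw [ker_eq_zero_of_gt J m x (by omega), abs_zero]
      _ ≤ 3 ^ m := ker_l1 J m

/-- the sup bound of the kernel -/
noncomputable def chSup (m gap : ℕ) : ℝ := 3 ^ m / ((max 1 (Nat.sqrt gap) : ℕ) : ℝ)

lemma chSup_nonneg (m gap : ℕ) : 0 ≤ chSup m gap := by unfold chSup; positivity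

lemma chKer_sup (m gap κ : ℕ) : |chKer m gap κ| ≤ chSup m gap := by
  rcases Nat.eq_zero_or_pos gap with hg | hg
  · subst hg
    have : (1 : ℝ) ≤ 3 ^ m := one_le_pow₀ (by norm_num)
    simp [chKer, chSup]
    split_ifs <;> simp <;> linarith
  · have : 1 ≤ Nat.sqrt gap := Nat.le_sqrt.mpr (by omega)
    rw [chKer, if_neg hg.ne', chSup, max_eq_right this]
    exact ker_sup _ m κ

lemma chSup_sum (m : ℕ) : ∀ n, ∑ gap ∈ range n, chSup m gap ≤ 3 ^ m * (4 * Real.sqrt n) := by
  intro n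
  induction n with
  | zero => simp
  | succ n ih =>
    rw [sum_range_succ]
    set J := max 1 (Nat.sqrt n) with hJ
    have hJ1 : (1 : ℝ) ≤ (J : ℝ) := by exact_mod_cast le_max_left _ _
    have h4 : n + 1 ≤ 4 * J ^ 2 := by
      have := Nat.lt_succ_sqrt' n
      have h1 : (Nat.sqrt n).succ ≤ 2 * J := by omega
      nlinarith [Nat.pow_le_pow_left h1 2]
    set a := Real.sqrt (n : ℝ) with ha
    set b := Real.sqrt ((n + 1 : ℕ) : ℝ) with hb
    have hb2 : b ^ 2 = (n : ℝ) + 1 := by rw [hb, Real.sq_sqrt (by positivity)]; push_cast; ring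
    have ha2 : a ^ 2 = (n : ℝ) := Real.sq_sqrt (by positivity)
    have h4r : ((n : ℝ) + 1) ≤ 4 * (J : ℝ) ^ 2 := by exact_mod_cast h4
    have hb0 : 0 ≤ b := Real.sqrt_nonneg _
    have hbJ : b ≤ 2 * (J : ℝ) := by nlinarith
    have ha0 : 0 ≤ a := Real.sqrt_nonneg _
    have hstep : 1 / (J : ℝ) ≤ 4 * (b - a) := by
      rw [div_le_iff₀ (by linarith)]
      have hab : a ≤ b := Real.sqrt_le_sqrt (by push_cast; linarith)
      have hbpos : 0 < b := Real.sqrt_pos.mpr (by positivity)
      have : 1 ≤ 2 * (b - a) * b := by nlinarith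
      nlinarith
    have : chSup m n ≤ 3 ^ m * (4 * (b - a)) := by
      rw [chSup, ← hJ, div_eq_mul_one_div]
      exact mul_le_mul_of_nonneg_left hstep (by positivity)
    linarith [mul_add ((3 : ℝ) ^ m) (4 * a) (4 * (b - a))]

lemma chKer_replace {T : Alg} {σ : ℝ} (hT : IsPM T) (hs : Smooth T σ) (Z : Alg)
    (M m n gap Dm cR : ℕ) (η : ℝ) (hη : 0 ≤ η) (hη2 : 8 * m * σ ^ 2 ≤ η ^ 2 * M) (hm : 0 < m)
    (hM : 2 * m ≤ M) (hgap : gap ≤ n) (hcR : n * M ≤ cR) (hDm : m * Nat.sqrt gap ≤ Dm) :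
    nrm (place T Z (gap * M) cR - ∑ κ ∈ range (min Dm (gap * M) + 1),
        chKer m gap κ • place T Z (gap * M - κ) (cR + κ)) ≤ η ^ m * nrm Z := by
  rcases Nat.eq_zero_or_pos gap with hg | hg
  · subst hg
    simp [chKer, nrm_zero]
    exact mul_nonneg (pow_nonneg hη m) (nrm_nonneg _)
  set J := Nat.sqrt gap with hJdef
  have hJ : 0 < J := Nat.le_sqrt.mpr (by omega)
  have hJg : J ^ 2 ≤ gap := Nat.sqrt_le' gap
  have hJle : J ≤ gap := Nat.sqrt_le_self gap
  have hsum : ∑ κ ∈ range (min Dm (gap * M) + 1), chKer m gap κ • place T Z (gap * M - κ) (cR + κ)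
      = ∑ κ ∈ range (m * J + 1), ker J m κ • place T Z (gap * M - κ) (cR + κ) := by
    have hle : m * J ≤ gap * M := by nlinarith
    simp only [chKer, if_neg hg.ne', ← hJdef]
    symm
    refine sum_subset (fun x hx => by simp at hx ⊢; omega) fun x _ hx => ?_
    simp at hx
    rw [ker_eq_zero_of_gt J m x (by omega), zero_smul]
  rw [hsum]
  set u := gap * M / m with hu
  have hum : m * u ≤ gap * M := Nat.mul_div_le _ _
  have hJu : J ≤ u := by
    rw [hu, Nat.le_div_iff_mul_le hm]; nlinarith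
  set g := u - J with hgdef
  have hlt : gap * M < m * (u + 1) := Nat.lt_mul_div_succ _ hm
  have hgM : gap * M ≤ 2 * m * (g + 1) := by
    have : g + 1 + J = u + 1 := by omega
    rw [← this] at hlt
    nlinarith
  have hgn : gap * M ≤ n * M := Nat.mul_le_mul_right M hgap
  have hpad : m * (J + g) ≤ gap * M := by rwa [show J + g = u by omega]
  refine (smooth_replace hT hs Z hJ g m (gap * M) cR hpad ?_).trans ?_
  · have : m * g ≤ m * (J + g) := Nat.mul_le_mul_left m (by omega)
    omega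
  refine mul_le_mul_of_nonneg_right (pow_le_pow_left₀ ?_ ?_ m) (nrm_nonneg _)
  · have := hs 0
    have h0 : 0 ≤ σ := le_trans (mul_nonneg (nrm_nonneg _) (Real.sqrt_nonneg _)) this
    positivity
  · set s := Real.sqrt ((g : ℝ) + 1) with hsdef
    have hs0 : 0 < s := Real.sqrt_pos.mpr (by positivity)
    have hs2 : s ^ 2 = (g : ℝ) + 1 := Real.sq_sqrt (by positivity)
    rw [mul_div, div_le_iff₀ hs0]
    refine le_of_abs_le (abs_le_of_sq_le_sq ?_ (by positivity))
    rw [mul_pow η s, hs2]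
    have a1 : (gap : ℝ) * M ≤ 2 * m * (g + 1) := by exact_mod_cast hgM
    have a2 : (J : ℝ) ^ 2 ≤ gap := by exact_mod_cast hJg
    have a3 : (0 : ℝ) < M := by exact_mod_cast (show 0 < M by omega)
    have a4 : (0 : ℝ) < m := by exact_mod_cast hm
    have key : (2 * (J : ℝ) * σ) ^ 2 * (2 * m * M) ≤ η ^ 2 * ((g : ℝ) + 1) * (2 * m * M) := by
      calc (2 * (J : ℝ) * σ) ^ 2 * (2 * m * M) = (J : ℝ) ^ 2 * (8 * m * σ ^ 2) * M := by ring
        _ ≤ (gap : ℝ) * (η ^ 2 * M) * M :=
            mul_le_mul_of_nonneg_right (mul_le_mul a2 hη2 (by positivity) (by positivity)) a3.le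
        _ = η ^ 2 * M * ((gap : ℝ) * M) := by ring
        _ ≤ η ^ 2 * M * (2 * m * (g + 1)) := mul_le_mul_of_nonneg_left a1 (by positivity)
        _ = _ := by ring
    exact le_of_mul_le_mul_right key (by positivity)

/-- one state of the expansion -/
structure ChSt where
  ι : Type
  s : Finset ι
  pos : ι → ℕ
  c : ι → ℕ
  t : ι → Term

/-- the invariant of a state -/
structure ChSt.Good (X : ChSt) (T : Alg) (k M n deg bnd : ℕ) (ν : ℝ) : Prop where
  good : ∀ i ∈ X.s, (X.t i).Good T k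
  sub : ∀ i ∈ X.s, (X.t i).S ⊆ range (X.pos i * M - X.c i)
  pos_le : ∀ i ∈ X.s, X.pos i ≤ n
  c_le : ∀ i ∈ X.s, X.c i ≤ bnd
  c_pos : ∀ i ∈ X.s, X.c i ≤ X.pos i * M
  deg_le : ∀ i ∈ X.s, (X.t i).S.card ≤ deg
  inj : ∀ i ∈ X.s, ∀ j ∈ X.s, (X.t i).S = (X.t j).S → X.pos i = X.pos j
  nu : nuC 1 X.s (fun i => (X.t i).S) (fun i => (X.t i).w) ≤ ν

/-- the unexpanded part -/
noncomputable def ChSt.tail (X : ChSt) (T T' : Alg) (M n : ℕ) : Alg :=
  ∑ i ∈ X.s, piN T (X.pos i * M - X.c i) (X.t i).f * (T' ^ (n - X.pos i) * T ^ (n * M + X.c i))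

/-- the part made of T alone -/
noncomputable def ChSt.main (X : ChSt) (T : Alg) (M n : ℕ) : Alg :=
  piN T (2 * (n * M)) (fun ω => ∑ i ∈ X.s, (X.t i).f ω)

lemma piN_pad (T : Alg) (a b : ℕ) (f : (ℕ → W) → ℝ) (hf : DependsOn f ↑(range a)) :
    piN T (a + b) f = piN T a f * T ^ b := by
  have := piN_concat T a b f (fun _ => 1) hf (fun _ _ _ => rfl)
  simp only [mul_one] at this
  rw [this, piN_one]

lemma Term.Good.dep_range {T : Alg} {k a : ℕ} {t : Term} (h : t.Good T k) (hS : t.S ⊆ range a) :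
    DependsOn t.f ↑(range a) := fun _ _ hxy => h.dep fun j hj => hxy j (hS hj)

lemma ChSt.Good.nrm_main {X : ChSt} {T : Alg} {k M n deg bnd : ℕ} {ν : ℝ}
    (h : X.Good T k M n deg bnd ν) (hT : IsPM T) (hk : 1 ≤ k) :
    nrm (X.main T M n) ≤ smC k ^ deg * Real.sqrt ν := by
  refine nrm_piN_le_of_Bd hT hk _ ?_
  have hν : 0 ≤ ν := (nuC_nonneg zero_le_one _ _ _ fun i hi => (h.good i hi).bd.1).trans h.nu
  refine es_bd hT k hk _ X.s X.t h.good (fun i hi => (h.sub i hi).trans ?_) deg h.deg_le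
    (Real.sqrt_nonneg _) (by rw [Real.sq_sqrt hν]; exact h.nu)
  refine range_subset_range.mpr ?_
  have := Nat.mul_le_mul_right M (h.pos_le i hi)
  omega

lemma ChSt.Good.fiber {X : ChSt} {T : Alg} {k M n deg bnd : ℕ} {ν : ℝ}
    (h : X.Good T k M n deg bnd ν) (hT : IsPM T) (hk : 1 ≤ k) (F : ℕ → ℕ → Alg) {B : ℝ}
    (hB : 0 ≤ B) (hF : ∀ p ≤ n, ∀ c ≤ bnd, nrm (F p c) ≤ B) :
    nrm (∑ i ∈ X.s, piN T (X.pos i * M - X.c i) (X.t i).f * F (X.pos i) (X.c i))
      ≤ ((n : ℝ) + 1) * ((bnd : ℝ) + 1) * (smC k ^ deg * Real.sqrt ν) * B := by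
  classical
  have hν : 0 ≤ ν := (nuC_nonneg zero_le_one _ _ _ fun i hi => (h.good i hi).bd.1).trans h.nu
  rw [← sum_fiberwise_of_maps_to (t := range (n + 1) ×ˢ range (bnd + 1))
    (g := fun i => (X.pos i, X.c i))]
  swap
  · intro i hi
    have := h.pos_le i hi
    have := h.c_le i hi
    simp only [mem_product, mem_range]
    omega
  refine (nrm_sum_le _ _).trans ((sum_le_sum (g := fun _ => smC k ^ deg * Real.sqrt ν * B)
    fun p hp => ?_).trans (le_of_eq ?_))
  swap
  · simp; ring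
  simp only [mem_product, mem_range] at hp
  set s' := X.s.filter (fun i => (X.pos i, X.c i) = p) with hs'
  have e : ∑ i ∈ s', piN T (X.pos i * M - X.c i) (X.t i).f * F (X.pos i) (X.c i)
      = piN T (p.1 * M - p.2) (fun ω => ∑ i ∈ s', (X.t i).f ω) * F p.1 p.2 := by
    rw [piN_sum, sum_mul]
    refine sum_congr rfl fun i hi => ?_
    obtain ⟨-, rfl⟩ := mem_filter.mp hi
    rfl
  rw [e]
  have hsub : nuC 1 s' (fun i => (X.t i).S) (fun i => (X.t i).w) ≤ ν := by
    refine le_trans ?_ h.nu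
    refine (sum_le_sum fun i hi => sum_le_sum_of_subset_of_nonneg (filter_subset _ _) ?_).trans
      (sum_le_sum_of_subset_of_nonneg (filter_subset _ _) ?_)
    · intro j hj _
      split_ifs
      · exact mul_nonneg (pow_nonneg zero_le_one _)
          (mul_nonneg (h.good i (mem_filter.mp hi).1).bd.1 (h.good j hj).bd.1)
      · exact le_rfl
    · intro i hi _
      refine sum_nonneg fun j hj => ?_
      split_ifs
      · exact mul_nonneg (pow_nonneg zero_le_one _)
          (mul_nonneg (h.good i hi).bd.1 (h.good j hj).bd.1)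
      · exact le_rfl
  have hbd : Bd T k (range (p.1 * M - p.2)) (fun ω => ∑ i ∈ s', (X.t i).f ω)
      (smC k ^ deg * Real.sqrt ν) := by
    refine es_bd hT k hk _ s' X.t (fun i hi => h.good i (mem_filter.mp hi).1) (fun i hi => ?_) deg
      (fun i hi => h.deg_le i (mem_filter.mp hi).1) (Real.sqrt_nonneg _)
      (by rw [Real.sq_sqrt hν]; exact hsub)
    obtain ⟨hi', rfl⟩ := mem_filter.mp hi
    exact h.sub i hi'
  refine (nrm_mul _ _).trans (mul_le_mul (nrm_piN_le_of_Bd hT hk _ hbd)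
    (hF _ (by omega) _ (by omega)) (nrm_nonneg _) ?_)
  exact hbd.1

/-- the next state -/
noncomputable abbrev ChSt.next (X : ChSt) (G : Fam) (M n m Dm : ℕ) : ChSt where
  ι := X.ι × ℕ × ℕ × G.ι
  s := (X.s ×ˢ (range n ×ˢ (range (Dm + 1) ×ˢ (univ : Finset G.ι)))).filter
    (fun y => X.pos y.1 + y.2.1 < n ∧ y.2.2.1 ≤ y.2.1 * M)
  pos := fun y => X.pos y.1 + y.2.1 + 1
  c := fun y => X.c y.1 + y.2.2.1
  t := fun y =>
    let u := (X.t y.1).mul
      ((G.t y.2.2.2).shift ((X.pos y.1 + y.2.1) * M - (X.c y.1 + y.2.2.1)))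
    ⟨u.S, fun ω => chKer m y.2.1 y.2.2.1 * u.f ω, |chKer m y.2.1 y.2.2.1| * u.w⟩

lemma Term.Good.scale {T : Alg} {k : ℕ} {t : Term} (h : t.Good T k) (a : ℝ) :
    (⟨t.S, fun ω => a * t.f ω, |a| * t.w⟩ : Term).Good T k := by
  refine ⟨fun x y hxy => ?_, fun i hi ω => ?_, h.bd.const_mul a⟩
  · show a * t.f x = a * t.f y
    rw [h.dep hxy]
  · show Ew T {i} (fun x => a * t.f x) ω = 0
    have := Ew_smul T {i} t.f ω a
    simp only [smul_eq_mul] at this
    rw [this, h.cen i hi ω, mul_zero]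

/-- facts about one index of the next state -/
lemma ChSt.Good.next_mem {X : ChSt} {T : Alg} {k M n deg bnd d m Dm : ℕ} {ν : ℝ} {G : Fam}
    (h : X.Good T k M n deg bnd ν) (hG : G.Good T k d (M / 4) (M - M / 4))
    (hD : bnd + Dm ≤ M / 4) {y : X.ι × ℕ × ℕ × G.ι} (hy : y ∈ (X.next G M n m Dm).s) :
    y.1 ∈ X.s ∧ X.pos y.1 + y.2.1 < n ∧ y.2.2.1 ≤ y.2.1 * M ∧ y.2.2.1 ≤ Dm ∧
      X.c y.1 + y.2.2.1 ≤ (X.pos y.1 + y.2.1) * M ∧
      (X.t y.1).S ⊆ range ((X.pos y.1 + y.2.1) * M) ∧
      ((G.t y.2.2.2).S.image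
          (fun x => (X.pos y.1 + y.2.1) * M - (X.c y.1 + y.2.2.1) + x)) ⊆
        Ico ((X.pos y.1 + y.2.1) * M)
          ((X.pos y.1 + y.2.1) * M + M - (X.c y.1 + y.2.2.1)) := by
  obtain ⟨hy1, h4, h5⟩ := Finset.mem_filter.mp hy
  simp only [mem_product, mem_range] at hy1
  obtain ⟨h1, -, h3, -⟩ := hy1
  have hc := h.c_le _ h1
  have hcp := h.c_pos _ h1
  have he : X.c y.1 + y.2.2.1 ≤ (X.pos y.1 + y.2.1) * M := by rw [add_mul]; omega
  refine ⟨h1, h4, h5, by omega, he, (h.sub _ h1).trans (range_subset_range.mpr ?_), ?_⟩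
  · rw [add_mul]; omega
  · intro j hj
    rw [mem_image] at hj
    obtain ⟨x, hx, rfl⟩ := hj
    have := hG.win _ hx
    simp only [mem_Ico] at this ⊢
    omega

lemma sum_unique_le {β : Type*} (s : Finset β) (p : β → Prop) [DecidablePred p] (f : β → ℝ) {P : ℝ}
    (hP : 0 ≤ P) (huniq : ∀ a ∈ s, ∀ b ∈ s, p a → p b → a = b) (hb : ∀ a ∈ s, p a → f a ≤ P) :
    ∑ a ∈ s, (if p a then f a else 0) ≤ P := by
  rw [← sum_filter]
  rcases (s.filter p).eq_empty_or_nonempty with h | ⟨a, ha⟩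
  · rw [h, sum_empty]; exact hP
  · rw [sum_eq_single a]
    · exact hb a (mem_filter.mp ha).1 (mem_filter.mp ha).2
    · intro b hb' hne
      exact absurd (huniq b (mem_filter.mp hb').1 a (mem_filter.mp ha).1 (mem_filter.mp hb').2
        (mem_filter.mp ha).2) hne
    · intro h'; exact absurd ha h'

lemma ChSt.Good.next_good {X : ChSt} {T : Alg} {k M n deg bnd d m Dm : ℕ} {ν : ℝ} {G : Fam}
    (hT : IsPM T) (h : X.Good T k M n deg bnd ν) (hG : G.Good T k d (M / 4) (M - M / 4))
    (hD : bnd + Dm ≤ M / 4) :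
    (X.next G M n m Dm).Good T k M n (deg + d) (bnd + Dm)
      (ν * (9 ^ m * G.wt ^ 2 * (4 * Real.sqrt n))) := by
  classical
  set e : X.ι × ℕ × ℕ × G.ι → ℕ :=
    fun y => (X.pos y.1 + y.2.1) * M - (X.c y.1 + y.2.2.1) with he
  set oS : X.ι × ℕ × ℕ × G.ι → Finset ℕ := fun y => (X.t y.1).S with hoS
  set gS : X.ι × ℕ × ℕ × G.ι → Finset ℕ := fun y => (G.t y.2.2.2).S.image (fun x => e y + x) with hgS
  have hmem := fun y (hy : y ∈ (X.next G M n m Dm).s) => h.next_mem hG hD hy
  have hdis : ∀ y ∈ (X.next G M n m Dm).s, Disjoint (oS y) (gS y) := by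
    intro y hy
    obtain ⟨-, -, -, -, -, h6, h7⟩ := hmem y hy
    rw [disjoint_left]
    intro j hj hj'
    have := h6 hj
    have := h7 hj'
    simp only [mem_range, mem_Ico] at *
    omega
  have hposeq : ∀ y ∈ (X.next G M n m Dm).s, ∀ y' ∈ (X.next G M n m Dm).s,
      oS y ∪ gS y = oS y' ∪ gS y' → X.pos y.1 + y.2.1 = X.pos y'.1 + y'.2.1 := by
    have half : ∀ y ∈ (X.next G M n m Dm).s, ∀ y' ∈ (X.next G M n m Dm).s,
        oS y ∪ gS y = oS y' ∪ gS y' → ¬ (X.pos y.1 + y.2.1 < X.pos y'.1 + y'.2.1) := by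
      intro y hy y' hy' heq hlt
      obtain ⟨-, -, -, -, -, h6, h7⟩ := hmem y hy
      obtain ⟨-, -, -, -, -, -, h7'⟩ := hmem y' hy'
      obtain ⟨x, hx⟩ := hG.ne y'.2.2.2
      have hj : e y' + x ∈ gS y' := mem_image_of_mem _ hx
      have hj1 := h7' hj
      have hj2 : e y' + x ∈ oS y ∪ gS y := heq ▸ mem_union_right _ hj
      have hM : (X.pos y.1 + y.2.1) * M + M ≤ (X.pos y'.1 + y'.2.1) * M := by
        have := Nat.mul_le_mul_right M (show X.pos y.1 + y.2.1 + 1 ≤ X.pos y'.1 + y'.2.1 by omega)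
        linarith
      rcases mem_union.mp hj2 with hj3 | hj3
      · have := h6 hj3
        simp only [mem_range, mem_Ico] at *
        omega
      · have := h7 hj3
        simp only [mem_Ico] at *
        omega
    intro y hy y' hy' heq
    have := half y hy y' hy' heq
    have := half y' hy' y hy heq.symm
    omega
  have hsplit : ∀ y ∈ (X.next G M n m Dm).s, ∀ y' ∈ (X.next G M n m Dm).s,
      oS y ∪ gS y = oS y' ∪ gS y' →
        oS y = oS y' ∧ y.2.1 = y'.2.1 ∧ gS y = gS y' := by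
    intro y hy y' hy' heq
    have hp := hposeq y hy y' hy' heq
    obtain ⟨hi, -, -, -, -, h6, h7⟩ := hmem y hy
    obtain ⟨hi', -, -, -, -, h6', h7'⟩ := hmem y' hy'
    have h7g : gS y' ⊆ Ico ((X.pos y'.1 + y'.2.1) * M)
        ((X.pos y'.1 + y'.2.1) * M + M - (X.c y'.1 + y'.2.2.1)) := h7'
    rw [← hp] at h6' h7g
    set B := (X.pos y.1 + y.2.1) * M
    have hf : ∀ (O H : Finset ℕ), O ⊆ range B → (∀ j ∈ H, B ≤ j) →
        (O ∪ H).filter (fun j => j < B) = O ∧ (O ∪ H).filter (fun j => ¬ j < B) = H := by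
      intro O H hO hH
      constructor <;> ext j <;> simp only [mem_filter, mem_union]
      · exact ⟨fun ⟨a, b⟩ => a.resolve_right fun hjH => absurd (hH j hjH) (by omega),
          fun a => ⟨Or.inl a, mem_range.mp (hO a)⟩⟩
      · exact ⟨fun ⟨a, b⟩ => a.resolve_left fun hjO => b (mem_range.mp (hO hjO)),
          fun a => ⟨Or.inr a, by have := hH j a; omega⟩⟩
    obtain ⟨a1, a2⟩ := hf (oS y) (gS y) h6 fun j hj => (mem_Ico.mp (h7 hj)).1
    obtain ⟨b1, b2⟩ := hf (oS y') (gS y') h6' fun j hj => (mem_Ico.mp (h7g hj)).1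
    rw [heq] at a1 a2
    have ho : oS y = oS y' := a1.symm.trans b1
    have := h.inj _ hi _ hi' ho
    exact ⟨ho, by omega, a2.symm.trans b2⟩
  refine ⟨fun y hy => ?_, fun y hy => ?_, fun y hy => ?_, fun y hy => ?_, fun y hy => ?_,
    fun y hy => ?_, fun y hy y' hy' heq => ?_, ?_⟩
  · exact Term.Good.scale ((h.good _ (hmem y hy).1).mul hT ((hG.good _).shift (e y)) (hdis y hy)) _
  · obtain ⟨-, -, -, -, h5, h6, h7⟩ := hmem y hy
    show oS y ∪ gS y ⊆ range ((X.pos y.1 + y.2.1 + 1) * M - (X.c y.1 + y.2.2.1))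
    intro j hj
    rw [Nat.succ_mul, mem_range]
    have := h.c_le _ (hmem y hy).1
    have := (hmem y hy).2.2.2.1
    rcases mem_union.mp hj with hj | hj
    · have := mem_range.mp (h6 hj); omega
    · have := mem_Ico.mp (h7 hj); omega
  · have := (hmem y hy).2.1
    show X.pos y.1 + y.2.1 + 1 ≤ n
    omega
  · have := h.c_le _ (hmem y hy).1
    have := (hmem y hy).2.2.2.1
    show X.c y.1 + y.2.2.1 ≤ bnd + Dm
    omega
  · obtain ⟨-, -, -, -, h5, -, -⟩ := hmem y hy
    show X.c y.1 + y.2.2.1 ≤ (X.pos y.1 + y.2.1 + 1) * M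
    rw [Nat.succ_mul]; omega
  · show (oS y ∪ gS y).card ≤ deg + d
    exact (card_union_le _ _).trans
      (add_le_add (h.deg_le _ (hmem y hy).1) (card_image_le.trans (hG.deg _)))
  · show X.pos y.1 + y.2.1 + 1 = X.pos y'.1 + y'.2.1 + 1
    rw [hposeq y hy y' hy' heq]
  · -- the coincidence sum
    have hα : 0 ≤ G.wt := Fam.wt_nonneg hG
    set R := X.s ×ˢ (range n ×ˢ (range (Dm + 1) ×ˢ (univ : Finset G.ι))) with hR
    set wt : X.ι × ℕ × ℕ × G.ι → ℝ :=
      fun y => |chKer m y.2.1 y.2.2.1| * ((X.t y.1).w * (G.t y.2.2.2).w) with hwt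
    set q : X.ι → ℝ := fun i => ∑ j ∈ X.s, if (X.t i).S = (X.t j).S then (X.t j).w else 0 with hq
    have hw0 : ∀ i ∈ X.s, 0 ≤ (X.t i).w := fun i hi => (h.good i hi).bd.1
    have hg0 : ∀ g, 0 ≤ (G.t g).w := fun g => (hG.good g).bd.1
    have hq0 : ∀ i, 0 ≤ q i := fun i => sum_nonneg fun j hj => by
      split_ifs
      · exact hw0 j hj
      · exact le_rfl
    have inner : ∀ y ∈ (X.next G M n m Dm).s,
        ∑ y' ∈ (X.next G M n m Dm).s, (if oS y ∪ gS y = oS y' ∪ gS y' then wt y' else 0)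
          ≤ q y.1 * chSup m y.2.1 * G.wt := by
      intro y hy
      obtain ⟨p, hpdef⟩ : ∃ p : X.ι → ℕ → ℕ → G.ι → Prop, ∀ j gap κ g, p j gap κ g ↔
          ((j, gap, κ, g) ∈ (X.next G M n m Dm).s ∧
            oS y ∪ gS y = oS (j, gap, κ, g) ∪ gS (j, gap, κ, g)) :=
        ⟨_, fun _ _ _ _ => Iff.rfl⟩
      have e1 : ∑ y' ∈ (X.next G M n m Dm).s, (if oS y ∪ gS y = oS y' ∪ gS y' then wt y' else 0)
          = ∑ j ∈ X.s, ∑ g : G.ι, ∑ z ∈ range n ×ˢ range (Dm + 1),
              (if p j z.1 z.2 g then wt (j, z.1, z.2, g) else 0) := by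
        rw [show (X.next G M n m Dm).s = R.filter
          (fun y => X.pos y.1 + y.2.1 < n ∧ y.2.2.1 ≤ y.2.1 * M) from rfl, sum_filter, hR,
          sum_product]
        refine sum_congr rfl fun j hj => ?_
        conv_rhs => rw [Finset.sum_comm, Finset.sum_product]
        rw [Finset.sum_product]
        refine sum_congr rfl fun gap hgap => ?_
        rw [sum_product]
        refine sum_congr rfl fun κ hκ => sum_congr rfl fun g _ => ?_
        have : (j, gap, κ, g) ∈ (X.next G M n m Dm).s ↔ X.pos j + gap < n ∧ κ ≤ gap * M := by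
          simp only [ChSt.next, mem_filter, mem_product]
          exact ⟨fun a => a.2, fun a => ⟨⟨hj, hgap, hκ, mem_univ _⟩, a⟩⟩
        by_cases hc : X.pos j + gap < n ∧ κ ≤ gap * M
        · rw [if_pos hc]
          exact if_congr ⟨fun a => (hpdef j gap κ g).mpr ⟨this.mpr hc, a⟩,
            fun a => ((hpdef j gap κ g).mp a).2⟩ rfl rfl
        · rw [if_neg hc, if_neg fun a : p j gap κ g => hc (this.mp ((hpdef j gap κ g).mp a).1)]
      rw [e1]
      calc ∑ j ∈ X.s, ∑ g : G.ι, ∑ z ∈ range n ×ˢ range (Dm + 1),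
              (if p j z.1 z.2 g then wt (j, z.1, z.2, g) else 0)
          ≤ ∑ j ∈ X.s, ∑ g : G.ι, (if (X.t y.1).S = (X.t j).S then (X.t j).w else 0)
              * chSup m y.2.1 * (G.t g).w := by
            refine sum_le_sum fun j hj => sum_le_sum fun g _ => ?_
            by_cases hS : (X.t y.1).S = (X.t j).S
            · rw [if_pos hS]
              refine sum_unique_le _ (fun z : ℕ × ℕ => p j z.1 z.2 g) _ (mul_nonneg
                (mul_nonneg (hw0 j hj) (chSup_nonneg _ _)) (hg0 g)) ?_ ?_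
              · rintro ⟨g1, k1⟩ - ⟨g2, k2⟩ - a1 a2
                obtain ⟨m1, p1⟩ := (hpdef _ _ _ _).mp a1
                obtain ⟨m2, p2⟩ := (hpdef _ _ _ _).mp a2
                obtain ⟨-, q1, r1⟩ := hsplit y hy _ m1 p1
                obtain ⟨-, q2, r2⟩ := hsplit y hy _ m2 p2
                simp only at q1 q2
                subst q1 q2
                have r3 : gS (j, y.2.1, k1, g) = gS (j, y.2.1, k2, g) := r1.symm.trans r2
                have hm := congrArg (fun s : Finset ℕ => s.min) r3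
                simp only [hgS] at hm
                obtain ⟨x, hx⟩ := Finset.min_of_nonempty (hG.ne g)
                have hmin : ∀ a : ℕ, ((G.t g).S.image (fun x => a + x)).min = ↑(a + x) := by
                  intro a
                  refine le_antisymm (Finset.min_le (mem_image.mpr
                    ⟨x, Finset.mem_of_min hx, rfl⟩)) ?_
                  refine Finset.le_min fun u hu => ?_
                  obtain ⟨z, hz, rfl⟩ := mem_image.mp hu
                  exact WithTop.coe_le_coe.mpr (Nat.add_le_add_left (Finset.min_le_of_eq hz hx) a)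
                simp only [hmin] at hm
                have hm' : e (j, y.2.1, k1, g) + x = e (j, y.2.1, k2, g) + x := WithTop.coe_injective hm
                have f1 := (hmem _ m1).2.2.2.2.1
                have f2 := (hmem _ m2).2.2.2.2.1
                simp only [he] at hm' f1 f2
                exact Prod.ext rfl (by show k1 = k2; omega)
              · rintro ⟨g1, k1⟩ - a1
                obtain ⟨m1, p1⟩ := (hpdef _ _ _ _).mp a1
                obtain ⟨-, q1, -⟩ := hsplit y hy _ m1 p1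
                simp only at q1
                subst q1
                calc wt (j, y.2.1, k1, g) = |chKer m y.2.1 k1| * ((X.t j).w * (G.t g).w) := rfl
                  _ ≤ chSup m y.2.1 * ((X.t j).w * (G.t g).w) :=
                      mul_le_mul_of_nonneg_right (chKer_sup _ _ _) (mul_nonneg (hw0 j hj) (hg0 g))
                  _ = _ := by ring
            · rw [if_neg hS, zero_mul, zero_mul]
              refine le_of_eq (sum_eq_zero fun z _ => if_neg fun hp => hS ?_)
              obtain ⟨m1, p1⟩ := (hpdef _ _ _ _).mp hp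
              exact (hsplit y hy _ m1 p1).1
        _ = q y.1 * chSup m y.2.1 * G.wt := by
            simp only [hq, Fam.wt, sum_mul, mul_sum]
            exact Finset.sum_comm
    have outer : nuC 1 (X.next G M n m Dm).s (fun y => ((X.next G M n m Dm).t y).S)
        (fun y => ((X.next G M n m Dm).t y).w)
          ≤ ∑ y ∈ R, wt y * (q y.1 * chSup m y.2.1 * G.wt) := by
      calc _ = ∑ y ∈ (X.next G M n m Dm).s, wt y * ∑ y' ∈ (X.next G M n m Dm).s,
            (if oS y ∪ gS y = oS y' ∪ gS y' then wt y' else 0) := by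
            refine sum_congr rfl fun y _ => ?_
            rw [mul_sum]
            refine sum_congr rfl fun y' _ => ?_
            show (if oS y ∪ gS y = oS y' ∪ gS y' then (1 : ℝ) ^ (oS y ∪ gS y).card * (wt y * wt y')
              else 0) = _
            rw [one_pow, one_mul, mul_ite, mul_zero]
        _ ≤ ∑ y ∈ (X.next G M n m Dm).s, wt y * (q y.1 * chSup m y.2.1 * G.wt) :=
            sum_le_sum fun y hy => mul_le_mul_of_nonneg_left (inner y hy)
              (mul_nonneg (abs_nonneg _) (mul_nonneg (hw0 _ (hmem y hy).1) (hg0 _)))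
        _ ≤ _ := sum_le_sum_of_subset_of_nonneg (filter_subset _ _) fun y hy _ => by
            simp only [mem_product] at hy
            exact mul_nonneg (mul_nonneg (abs_nonneg _) (mul_nonneg (hw0 _ hy.1) (hg0 _)))
              (mul_nonneg (mul_nonneg (hq0 _) (chSup_nonneg _ _)) hα)
    refine outer.trans ?_
    have e2 : ∑ y ∈ R, wt y * (q y.1 * chSup m y.2.1 * G.wt)
        = (∑ i ∈ X.s, (X.t i).w * q i) * (G.wt ^ 2
          * ∑ gap ∈ range n, chSup m gap * ∑ κ ∈ range (Dm + 1), |chKer m gap κ|) := by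
      rw [hR, sum_product, sum_mul]
      refine sum_congr rfl fun i _ => ?_
      rw [sum_product]
      simp only [mul_sum]
      refine sum_congr rfl fun gap _ => ?_
      rw [sum_product]
      refine sum_congr rfl fun κ _ => ?_
      simp only [hwt, sq, Fam.wt, mul_sum, sum_mul]
      rw [sum_comm]
      refine sum_congr rfl fun g _ => sum_congr rfl fun g' _ => ?_
      ring
    rw [e2]
    have hν : ∑ i ∈ X.s, (X.t i).w * q i ≤ ν := by
      refine le_trans (le_of_eq ?_) h.nu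
      refine sum_congr rfl fun i _ => ?_
      rw [hq, mul_sum]
      refine sum_congr rfl fun j _ => ?_
      show _ = if (X.t i).S = (X.t j).S then (1 : ℝ) ^ (X.t i).S.card * ((X.t i).w * (X.t j).w) else 0
      rw [one_pow, one_mul, mul_ite, mul_zero]
    have hν0 : 0 ≤ ν := (nuC_nonneg zero_le_one _ _ _ hw0).trans h.nu
    have hΦ : ∑ gap ∈ range n, chSup m gap * ∑ κ ∈ range (Dm + 1), |chKer m gap κ|
        ≤ 9 ^ m * (4 * Real.sqrt n) := by
      refine (sum_le_sum fun gap _ =>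
        mul_le_mul_of_nonneg_left (chKer_l1 m gap _) (chSup_nonneg _ _)).trans ?_
      rw [← sum_mul]
      refine (mul_le_mul_of_nonneg_right (chSup_sum m n) (by positivity)).trans (le_of_eq ?_)
      rw [show (9 : ℝ) ^ m = 3 ^ m * 3 ^ m by rw [← mul_pow]; norm_num]
      ring
    refine mul_le_mul hν ((mul_le_mul_of_nonneg_left hΦ (sq_nonneg _)).trans (le_of_eq (by ring)))
      (mul_nonneg (sq_nonneg _) (sum_nonneg fun gap _ => mul_nonneg (chSup_nonneg _ _)
        (sum_nonneg fun _ _ => abs_nonneg _))) hν0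

lemma ChSt.Good.step {X : ChSt} {T T' : Alg} {k M n deg bnd d m Dm : ℕ} {ν σ η ε : ℝ} {G : Fam}
    (hT : IsPM T) (hT' : IsPM T') (hk : 1 ≤ k) (hs : Smooth T σ)
    (h : X.Good T k M n deg bnd ν) (hG : G.Good T k d (M / 4) (M - M / 4))
    (hD : bnd + Dm ≤ M / 4) (hη : 0 ≤ η) (hη2 : 8 * m * σ ^ 2 ≤ η ^ 2 * M) (hm : 0 < m)
    (hM : 2 * m ≤ M) (hDm : m * Nat.sqrt n ≤ Dm)
    (herr : nrm (T' - T ^ M - G.val T M) ≤ ε) :
    nrm (X.tail T T' M n - X.main T M n - (X.next G M n m Dm).tail T T' M n)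
      ≤ ((n : ℝ) + 1) * ((bnd : ℝ) + 1) * (smC k ^ deg * Real.sqrt ν)
          * ((n : ℝ) * (ε + G.wt * η ^ m)) := by
  classical
  set H := G.val T M with hH
  set rest : ℕ → ℕ → Alg := fun p gap => T' ^ (n - p - gap - 1) with hrest
  set avg : ℕ → ℕ → ℕ → Alg := fun p c gap => ∑ κ ∈ range (min Dm (gap * M) + 1),
    chKer m gap κ • place T (H * rest p gap) (gap * M - κ) (n * M + c + κ) with havg
  set Ferr : ℕ → ℕ → Alg := fun p c => ∑ gap ∈ range (n - p),
    (place T ((T' - T ^ M) * rest p gap) (gap * M) (n * M + c) - avg p c gap) with hFerr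
  have hα : 0 ≤ G.wt := Fam.wt_nonneg hG
  have hH' : nrm H ≤ G.wt := by
    rw [hH, Fam.val]
    refine nrm_piN_le_of_Bd hT hk M (Fam.fn_bd hT hk hG ?_)
    intro x hx; simp at hx ⊢; omega
  have hF : ∀ p ≤ n, ∀ c ≤ bnd, nrm (Ferr p c) ≤ (n : ℝ) * (ε + G.wt * η ^ m) := by
    intro p _ c _
    have hε : 0 ≤ ε := (nrm_nonneg _).trans herr
    refine (nrm_sum_le _ _).trans ((sum_le_sum (g := fun _ => ε + G.wt * η ^ m)
      fun gap hgap => ?_).trans ?_)
    swap
    · rw [sum_const, card_range, nsmul_eq_mul]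
      refine mul_le_mul_of_nonneg_right (by exact_mod_cast Nat.sub_le n p) ?_
      positivity
    rw [mem_range] at hgap
    have esplit : place T ((T' - T ^ M) * rest p gap) (gap * M) (n * M + c) - avg p c gap
        = place T ((T' - T ^ M - H) * rest p gap) (gap * M) (n * M + c)
          + (place T (H * rest p gap) (gap * M) (n * M + c) - avg p c gap) := by
      simp only [place, sub_mul, mul_sub]
      abel
    rw [esplit]
    refine (nrm_add _ _).trans (add_le_add ?_ ?_)
    · simp only [place]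
      refine (nrm_mul _ _).trans ?_
      rw [(hT.pow _).nrm_eq, mul_one]
      refine (nrm_mul _ _).trans ?_
      rw [(hT.pow _).nrm_eq, one_mul]
      refine (nrm_mul _ _).trans ?_
      rw [(hT'.pow _).nrm_eq, mul_one]
      exact herr
    · refine (chKer_replace hT hs _ M m n gap Dm _ η hη hη2 hm hM (by omega) (by omega)
        (le_trans (Nat.mul_le_mul_left m (Nat.sqrt_le_sqrt (by omega))) hDm)).trans ?_
      rw [mul_comm]
      refine mul_le_mul_of_nonneg_right ?_ (pow_nonneg hη m)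
      refine (nrm_mul _ _).trans ?_
      rw [(hT'.pow _).nrm_eq, mul_one]
      exact hH'
  have emain : X.main T M n = ∑ i ∈ X.s, piN T (X.pos i * M - X.c i) (X.t i).f
      * ((T ^ M) ^ (n - X.pos i) * T ^ (n * M + X.c i)) := by
    rw [ChSt.main, piN_sum]
    refine sum_congr rfl fun i hi => ?_
    have h1 := h.pos_le i hi
    have h2 := h.c_pos i hi
    have h3 : X.pos i * M + (n - X.pos i) * M = n * M := by
      rw [← add_mul, Nat.add_sub_cancel' h1]
    rw [← pow_mul, ← pow_add, ← piN_pad T _ _ _ ((h.good i hi).dep_range (h.sub i hi))]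
    congr 1
    rw [mul_comm M]; omega
  have enext : (X.next G M n m Dm).tail T T' M n = ∑ i ∈ X.s, piN T (X.pos i * M - X.c i) (X.t i).f
      * ∑ gap ∈ range (n - X.pos i), avg (X.pos i) (X.c i) gap := by
    rw [ChSt.tail]
    rw [show (X.next G M n m Dm).s = (X.s ×ˢ (range n ×ˢ (range (Dm + 1) ×ˢ (univ : Finset G.ι)))).filter
      (fun y => X.pos y.1 + y.2.1 < n ∧ y.2.2.1 ≤ y.2.1 * M) from rfl, sum_filter]
    refine Eq.trans (sum_product _ _ _) ?_
    refine sum_congr rfl fun i hi => ?_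
    rw [mul_sum, sum_product]
    have hr : range (n - X.pos i) = (range n).filter (fun gap => X.pos i + gap < n) := by
      ext x; simp only [mem_range, mem_filter]; omega
    rw [hr, sum_filter]
    refine sum_congr rfl fun gap _ => ?_
    by_cases hlt : X.pos i + gap < n
    swap
    · rw [if_neg hlt]
      exact sum_eq_zero fun z _ => if_neg fun a => hlt a.1
    rw [if_pos hlt, havg]
    simp only [mul_sum]
    have hr2 : range (min Dm (gap * M) + 1) = (range (Dm + 1)).filter (fun κ => κ ≤ gap * M) := by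
      ext x; simp only [mem_range, mem_filter]; omega
    rw [hr2, sum_filter, sum_product]
    refine sum_congr rfl fun κ hκ => ?_
    by_cases hle : κ ≤ gap * M
    swap
    · rw [if_neg hle]
      exact sum_eq_zero fun z _ => if_neg fun a => hle a.2
    rw [if_pos hle]
    rw [show (∑ g : G.ι, if X.pos i + gap < n ∧ κ ≤ gap * M then
        piN T ((X.next G M n m Dm).pos (i, gap, κ, g) * M - (X.next G M n m Dm).c (i, gap, κ, g))
          ((X.next G M n m Dm).t (i, gap, κ, g)).f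
        * (T' ^ (n - (X.next G M n m Dm).pos (i, gap, κ, g))
          * T ^ (n * M + (X.next G M n m Dm).c (i, gap, κ, g))) else 0)
      = ∑ g : G.ι, chKer m gap κ • (piN T (X.pos i * M - X.c i) (X.t i).f * T ^ (gap * M - κ)
          * piN T M (G.t g).f * (rest (X.pos i) gap * T ^ (n * M + X.c i + κ))) from ?_]
    · rw [← smul_sum, mul_smul_comm, ← sum_mul, ← mul_sum, ← piN_sum,
        show piN T M (fun ω => ∑ g : G.ι, (G.t g).f ω) = H from rfl]
      simp only [place, mul_assoc]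
    refine sum_congr rfl fun g _ => ?_
    rw [if_pos ⟨hlt, hle⟩]
    have hsub := h.sub i hi
    have hc := h.c_pos i hi
    have hb := h.c_le i hi
    have hκ' : κ ≤ Dm := by rw [mem_range] at hκ; omega
    simp only [Term.mul, Term.shift]
    have ea : (X.pos i + gap) * M - (X.c i + κ) = X.pos i * M - X.c i + (gap * M - κ) := by
      rw [add_mul]; omega
    have eb : (X.pos i + gap + 1) * M - (X.c i + κ)
        = X.pos i * M - X.c i + (gap * M - κ + M) := by
      rw [Nat.succ_mul, add_mul]; omega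
    rw [ea, eb, piN_smul, smul_mul_assoc]
    congr 1
    set a := X.pos i * M - X.c i
    set u := gap * M - κ
    have hgd : DependsOn (G.t g).f ↑(range M) := (hG.good g).dep_range fun x hx => by
      have := hG.win g hx; simp at this ⊢; omega
    have hgd' : DependsOn (shiftF u (G.t g).f) ↑(range (u + M)) := fun x y hxy => hgd fun j hj => by
      simp only [coe_range, Set.mem_Iio] at hj
      exact hxy (u + j) (by simp; omega)
    have hshift : shiftF (a + u) (G.t g).f = fun ω => shiftF u (G.t g).f (ω ∘ (fun j => a + j)) := by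
      funext ω
      show (G.t g).f _ = (G.t g).f _
      congr 1; funext j; show ω (a + u + j) = ω (a + (u + j)); rw [add_assoc]
    rw [hshift, piN_concat T a (u + M) _ _ ((h.good i hi).dep_range hsub) hgd']
    have := piN_shift T u M 0 (G.t g).f hgd
    rw [add_zero, pow_zero, mul_one] at this
    rw [this, hrest]
    simp only [show n - (X.pos i + gap + 1) = n - X.pos i - gap - 1 by omega,
      show n * M + (X.c i + κ) = n * M + X.c i + κ by omega, mul_assoc]
  have key : X.tail T T' M n - X.main T M n - (X.next G M n m Dm).tail T T' M n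
      = ∑ i ∈ X.s, piN T (X.pos i * M - X.c i) (X.t i).f * Ferr (X.pos i) (X.c i) := by
    rw [emain, enext, ChSt.tail, ← sum_sub_distrib, ← sum_sub_distrib]
    refine sum_congr rfl fun i _ => ?_
    rw [← mul_sub, ← mul_sub, ← sub_mul, chTele, sum_mul, ← sum_sub_distrib]
    congr 1
    refine sum_congr rfl fun gap _ => ?_
    simp only [place, hrest, ← pow_mul, mul_comm M gap, mul_assoc]
  rw [key]
  exact h.fiber hT hk Ferr (mul_nonneg (Nat.cast_nonneg _)
    (add_nonneg ((nrm_nonneg _).trans herr) (mul_nonneg hα (pow_nonneg hη m)))) hF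

/-- the initial state -/
noncomputable def ChSt.start : ChSt :=
  ⟨Unit, univ, fun _ => 0, fun _ => 0, fun _ => ⟨∅, fun _ => 1, 1⟩⟩

/-- all states -/
noncomputable def ChSt.iter (G : Fam) (M n m Dm : ℕ) : ℕ → ChSt
  | 0 => ChSt.start
  | r + 1 => (ChSt.iter G M n m Dm r).next G M n m Dm

lemma ChSt.start_good {T : Alg} (k M n : ℕ) :
    ChSt.start.Good T k M n 0 0 1 := by
  refine ⟨fun i _ => ⟨fun x y _ => rfl, fun j hj => absurd hj (notMem_empty j), zero_le_one, ?_⟩,
    fun i _ => empty_subset _, fun i _ => Nat.zero_le n, fun i _ => le_rfl, fun i _ => Nat.zero_le _,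
    fun i _ => le_rfl, fun _ _ _ _ _ => rfl, ?_⟩
  · simp [ChSt.start, E, Ew_empty]
  · simp [ChSt.start, nuC]

lemma ChSt.Good.mono {X : ChSt} {T : Alg} {k M n deg bnd deg' bnd' : ℕ} {ν ν' : ℝ}
    (h : X.Good T k M n deg bnd ν) (h1 : deg ≤ deg') (h2 : bnd ≤ bnd') (h3 : ν ≤ ν') :
    X.Good T k M n deg' bnd' ν' :=
  ⟨h.good, h.sub, h.pos_le, fun i hi => (h.c_le i hi).trans h2, h.c_pos,
    fun i hi => (h.deg_le i hi).trans h1, h.inj, h.nu.trans h3⟩

/-- T'^n padded on the right by T^(nM) -/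
lemma chain_pad {T T' : Alg} {k M n d m Dm r0 : ℕ} {σ η ε φ : ℝ} {G : Fam}
    (hT : IsPM T) (hT' : IsPM T') (hk : 1 ≤ k) (hs : Smooth T σ)
    (hG : G.Good T k d (M / 4) (M - M / 4)) (herr : nrm (T' - T ^ M - G.val T M) ≤ ε)
    (hη : 0 ≤ η) (hη2 : 8 * m * σ ^ 2 ≤ η ^ 2 * M) (hm : 0 < m) (hM : 2 * m ≤ M)
    (hDm : m * Nat.sqrt n ≤ Dm) (hD : r0 * Dm ≤ M / 4) (hr0 : 1 ≤ r0)
    (hφ0 : 0 ≤ φ) (hφ1 : φ ≤ 1) (hΦ : 9 ^ m * G.wt ^ 2 * (4 * Real.sqrt n) ≤ φ ^ 2) :
    nrm (T' ^ n * T ^ (n * M) - T ^ (2 * (n * M))) ≤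
      smC k ^ (r0 * d) * (r0 * φ + ((n : ℝ) + 1) * ((M : ℝ) + 1)
        * (r0 * ((n : ℝ) * (ε + G.wt * η ^ m)) + φ ^ r0)) := by
  have hα : 0 ≤ G.wt := Fam.wt_nonneg hG
  have hε : 0 ≤ ε := (nrm_nonneg _).trans herr
  have hC1 := smC_ge_one k
  have hgood : ∀ r ≤ r0,
      (ChSt.iter G M n m Dm r).Good T k M n (r * d) (r * Dm) (φ ^ (2 * r)) := by
    intro r
    induction r with
    | zero =>
      intro _
      simp only [Nat.zero_mul, Nat.mul_zero, pow_zero]
      exact ChSt.start_good k M n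
    | succ r ih =>
      intro hr
      have h1 : r * Dm + Dm ≤ M / 4 := by
        refine le_trans (le_of_eq (Nat.succ_mul r Dm).symm) (le_trans ?_ hD)
        exact Nat.mul_le_mul_right Dm hr
      refine ((ih (by omega)).next_good hT hG h1).mono (Nat.succ_mul r d).ge (Nat.succ_mul r Dm).ge ?_
      rw [show 2 * (r + 1) = 2 * r + 2 by ring, pow_add]
      exact mul_le_mul_of_nonneg_left hΦ (pow_nonneg hφ0 _)
  set C := smC k ^ (r0 * d) with hC
  have hC0 : 0 ≤ C := pow_nonneg (by linarith) _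
  have hsC : ∀ r ≤ r0, smC k ^ (r * d) * Real.sqrt (φ ^ (2 * r)) ≤ C * φ ^ r := by
    intro r hr
    rw [mul_comm 2 r, pow_mul φ r 2, Real.sqrt_sq (pow_nonneg hφ0 r)]
    exact mul_le_mul_of_nonneg_right (pow_le_pow_right₀ hC1 (Nat.mul_le_mul_right d hr))
      (pow_nonneg hφ0 r)
  have hbnd : ∀ r ≤ r0, ((r * Dm : ℕ) : ℝ) + 1 ≤ (M : ℝ) + 1 := fun r hr => by
    have := Nat.mul_le_mul_right Dm hr
    have : r * Dm ≤ M := by omega
    exact add_le_add (by exact_mod_cast this) le_rfl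
  set e := ((n : ℝ) + 1) * ((M : ℝ) + 1) * C * ((n : ℝ) * (ε + G.wt * η ^ m)) with he
  have hstep : ∀ r < r0, nrm ((ChSt.iter G M n m Dm r).tail T T' M n
      - (ChSt.iter G M n m Dm r).main T M n - (ChSt.iter G M n m Dm (r + 1)).tail T T' M n) ≤ e := by
    intro r hr
    have h1 : r * Dm + Dm ≤ M / 4 := by
      refine le_trans (le_of_eq (Nat.succ_mul r Dm).symm) (le_trans ?_ hD)
      exact Nat.mul_le_mul_right Dm hr
    have hX := hgood r hr.le
    refine (hX.step hT hT' hk hs hG h1 hη hη2 hm hM hDm herr).trans ?_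
    refine mul_le_mul_of_nonneg_right ?_ (by positivity)
    refine mul_le_mul (mul_le_mul_of_nonneg_left (hbnd r hr.le) (by positivity)) ?_
      (mul_nonneg (pow_nonneg (by linarith) _) (Real.sqrt_nonneg _)) (by positivity)
    exact (hsC r hr.le).trans (mul_le_of_le_one_right hC0 (pow_le_one₀ hφ0 hφ1))
  set X := fun r => (ChSt.iter G M n m Dm r).tail T T' M n with hX
  have h0t : X 0 = T' ^ n * T ^ (n * M) := by
    show ChSt.start.tail T T' M n = _
    simp [ChSt.tail, ChSt.start, piN_one]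
  have h0m : (ChSt.iter G M n m Dm 0).main T M n = T ^ (2 * (n * M)) := by
    show ChSt.start.main T M n = _
    simp [ChSt.main, ChSt.start, piN_one]
  have hind : ∀ r, 1 ≤ r → r ≤ r0 →
      nrm (X 0 - T ^ (2 * (n * M)) - X r) ≤ (r : ℝ) * (e + C * φ) := by
    intro r hr1
    induction r, hr1 using Nat.le_induction with
    | base =>
      intro hr
      have := hstep 0 hr
      rw [h0m] at this
      have hCφ : 0 ≤ C * φ := mul_nonneg hC0 hφ0
      push_cast
      linarith
    | succ r hr1 ih =>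
      intro hr
      have hmain : nrm ((ChSt.iter G M n m Dm r).main T M n) ≤ C * φ := by
        refine ((hgood r (by omega)).nrm_main hT hk).trans ((hsC r (by omega)).trans ?_)
        exact mul_le_mul_of_nonneg_left (pow_le_of_le_one hφ0 hφ1 (by omega)) hC0
      have es : X 0 - T ^ (2 * (n * M)) - X (r + 1) = (X 0 - T ^ (2 * (n * M)) - X r)
          + ((X r - (ChSt.iter G M n m Dm r).main T M n - X (r + 1))
            + (ChSt.iter G M n m Dm r).main T M n) := by abel
      rw [es]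
      refine (nrm_add _ _).trans ?_
      have := (nrm_add (X r - (ChSt.iter G M n m Dm r).main T M n - X (r + 1))
        ((ChSt.iter G M n m Dm r).main T M n)).trans (add_le_add (hstep r (by omega)) hmain)
      have := ih (by omega)
      push_cast
      linarith
  have hlast : nrm (X r0) ≤ ((n : ℝ) + 1) * ((M : ℝ) + 1) * (C * φ ^ r0) := by
    refine ((hgood r0 le_rfl).fiber hT hk (fun p c => T' ^ (n - p) * T ^ (n * M + c)) zero_le_one
      fun p _ c _ => le_of_eq ((hT'.pow _).mul (hT.pow _)).nrm_eq).trans ?_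
    rw [mul_one]
    exact mul_le_mul (mul_le_mul_of_nonneg_left (hbnd r0 le_rfl) (by positivity)) (hsC r0 le_rfl)
      (mul_nonneg (pow_nonneg (by linarith) _) (Real.sqrt_nonneg _)) (by positivity)
  rw [← h0t]
  have := nrm_add (X 0 - T ^ (2 * (n * M)) - X r0) (X r0)
  rw [sub_add_cancel] at this
  have := hind r0 hr0 le_rfl
  have : C * (r0 * φ + ((n : ℝ) + 1) * ((M : ℝ) + 1)
        * (r0 * ((n : ℝ) * (ε + G.wt * η ^ m)) + φ ^ r0))
      = (r0 : ℝ) * (e + C * φ) + ((n : ℝ) + 1) * ((M : ℝ) + 1) * (C * φ ^ r0) := by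
    rw [he]; ring
  linarith

/-- both paddings, and doubling -/
lemma chain_double {T T' : Alg} {k M d m Dm r0 h : ℕ} {σ η ε φ B : ℝ} {G : Fam}
    (hT : IsPM T) (hT' : IsPM T') (hk : 1 ≤ k) (hs : Smooth T σ)
    (hG : G.Good T k d (M / 4) (M - M / 4)) (herr : nrm (T' - T ^ M - G.val T M) ≤ ε)
    (hη : 0 ≤ η) (hη2 : 8 * m * σ ^ 2 ≤ η ^ 2 * M) (hm : 0 < m) (hM : 2 * m ≤ M)
    (hDm : m * Nat.sqrt h ≤ Dm) (hD : r0 * Dm ≤ M / 4) (hr0 : 1 ≤ r0)
    (hφ0 : 0 ≤ φ) (hφ1 : φ ≤ 1) (hΦ : 9 ^ m * G.wt ^ 2 * (4 * Real.sqrt h) ≤ φ ^ 2)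
    (hB : smC k ^ (r0 * d) * (r0 * φ + ((h : ℝ) + 1) * ((M : ℝ) + 1)
        * (r0 * ((h : ℝ) * (ε + G.wt * η ^ m)) + φ ^ r0)) ≤ B) (hB1 : B ≤ 1 / 64)
    (hbase : nrm (T' - T ^ M) ≤ 1 / 16) :
    ∀ i, 2 ^ i ≤ h → nrm (T' ^ (2 ^ i) - T ^ (2 ^ i * M)) ≤ 1 / 16 := by
  have hα : 0 ≤ G.wt := Fam.wt_nonneg hG
  have hε : 0 ≤ ε := (nrm_nonneg _).trans herr
  have hC1 := smC_ge_one k
  have bound : ∀ n ≤ h, ∀ (U U' : Alg) (H : Fam), IsPM U → IsPM U' → Smooth U σ →
      H.Good U k d (M / 4) (M - M / 4) → nrm (U' - U ^ M - H.val U M) ≤ ε → H.wt = G.wt →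
      nrm (U' ^ n * U ^ (n * M) - U ^ (2 * (n * M))) ≤ 1 / 64 := by
    intro n hn U U' H hU hU' hsU hH herrU hw
    have hnh : (n : ℝ) ≤ h := by exact_mod_cast hn
    refine (chain_pad hU hU' hk hsU hH herrU hη hη2 hm hM
      ((Nat.mul_le_mul_left m (Nat.sqrt_le_sqrt hn)).trans hDm) hD hr0 hφ0 hφ1 ?_).trans
      (le_trans ?_ (hB.trans hB1))
    · rw [hw]
      refine le_trans ?_ hΦ
      gcongr
    · rw [hw]
      refine mul_le_mul_of_nonneg_left ?_ (pow_nonneg (by linarith) _)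
      gcongr
  intro i
  induction i with
  | zero => intro _; simpa using hbase
  | succ i ih =>
    intro hi
    have hn : 2 ^ i ≤ h := le_trans (Nat.pow_le_pow_right (by norm_num) (by omega)) hi
    set n := 2 ^ i
    set D0 := T' ^ n - T ^ (n * M) with hD0
    have hS : nrm D0 ≤ 1 / 16 := ih hn
    have h1 : nrm (D0 * T ^ (n * M)) ≤ 1 / 64 := by
      rw [hD0, sub_mul, ← pow_add, ← two_mul]
      exact bound n hn T T' G hT hT' hs hG herr rfl
    have h2 : nrm (T ^ (n * M) * D0) ≤ 1 / 64 := by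
      rw [← chRev_chRev (T ^ (n * M) * D0)]
      refine (nrm_chRev_le _).trans ?_
      have e : chRev (T ^ (n * M) * D0)
          = chRev T' ^ n * chRev T ^ (n * M) - chRev T ^ (2 * (n * M)) := by
        rw [hD0, mul_sub, ← pow_add, ← two_mul, map_sub, chRev_mul, chRev_pow, chRev_pow, chRev_pow]
      rw [e]
      refine bound n hn _ _ (chFamRev M G) (isPM_chRev hT) (isPM_chRev hT') (smooth_chRev hs)
        (chFamRev_good hG) ?_ (chFamRev_wt M G)
      rw [chFamRev_val, ← chRev_pow, ← map_sub, ← map_sub]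
      exact (nrm_chRev_le _).trans herr
    have e : T' ^ (2 ^ (i + 1)) - T ^ (2 ^ (i + 1) * M)
        = D0 * D0 + (D0 * T ^ (n * M) + T ^ (n * M) * D0) := by
      rw [show 2 ^ (i + 1) = n + n by rw [pow_succ]; omega, add_mul, pow_add, pow_add, hD0]
      noncomm_ring
    rw [e]
    refine (nrm_add _ _).trans ?_
    have h3 := (nrm_mul D0 D0).trans (mul_le_mul hS hS (nrm_nonneg _) (by norm_num))
    have := (nrm_add (D0 * T ^ (n * M)) (T ^ (n * M) * D0)).trans (add_le_add h1 h2)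
    linarith

/-- two probability measures at distance at most 1/2 have a common part of mass 1/2 -/
lemma common_part {a b : Alg} (ha : IsPM a) (hb : IsPM b) (h : nrm (b - a) ≤ 1 / 2) :
    ∃ C : Alg, Nonneg C ∧ Nonneg (a - C) ∧ Nonneg (b - C) ∧ 1 / 2 ≤ mass C := by
  classical
  set s := a.coeff.support ∪ b.coeff.support with hs
  set C : Alg := ∑ w ∈ s, min (a.coeff w) (b.coeff w) • pt w with hC
  have hc : ∀ w, C.coeff w = min (a.coeff w) (b.coeff w) := by
    intro w
    rw [hC, MonoidAlgebra.coeff_sum, Finsupp.finsetSum_apply]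
    simp only [MonoidAlgebra.coeff_smul_apply, coeff_pt, smul_eq_mul, mul_ite, mul_one, mul_zero,
      sum_ite_eq']
    split_ifs with hw
    · rfl
    · simp only [hs, mem_union, Finsupp.mem_support_iff, not_or, not_not] at hw
      rw [hw.1, hw.2, min_self]
  refine ⟨C, fun w => ?_, fun w => ?_, fun w => ?_, ?_⟩
  · rw [hc]; exact le_min (ha.1 w) (hb.1 w)
  · rw [MonoidAlgebra.coeff_sub, Finsupp.sub_apply, hc]; linarith [min_le_left (a.coeff w) (b.coeff w)]
  · rw [MonoidAlgebra.coeff_sub, Finsupp.sub_apply, hc]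
    linarith [min_le_right (a.coeff w) (b.coeff w)]
  · have hm : mass C = ∑ w ∈ s, min (a.coeff w) (b.coeff w) := by
      rw [hC, mass_eq, map_sum]
      simp only [map_smul, ← mass_eq, mass_pt, smul_eq_mul, mul_one]
    have hma : ∑ w ∈ s, a.coeff w = 1 := by
      rw [← ha.2]
      exact (Finsupp.sum_of_support_subset a.coeff subset_union_left (fun _ c => c)
        (fun _ _ => rfl)).symm
    have hmb : ∑ w ∈ s, b.coeff w = 1 := by
      rw [← hb.2]
      exact (Finsupp.sum_of_support_subset b.coeff subset_union_right (fun _ c => c)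
        (fun _ _ => rfl)).symm
    have hn : nrm (b - a) = ∑ w ∈ s, |b.coeff w - a.coeff w| := by
      rw [nrm_eq_sum_of_subset (s := s)]
      · exact sum_congr rfl fun w _ => by rw [MonoidAlgebra.coeff_sub, Finsupp.sub_apply]
      · rw [MonoidAlgebra.coeff_sub]
        exact Finsupp.support_sub.trans (by rw [hs, union_comm])
    have : ∀ w ∈ s, 2 * min (a.coeff w) (b.coeff w)
        = a.coeff w + b.coeff w - |b.coeff w - a.coeff w| := by
      intro w _
      rcases le_total (a.coeff w) (b.coeff w) with h | h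
      · rw [min_eq_left h, abs_of_nonneg (by linarith)]; ring
      · rw [min_eq_right h, abs_of_nonpos (by linarith)]; ring
    have := sum_congr rfl this
    rw [← mul_sum, sum_sub_distrib, sum_add_distrib, hma, hmb, ← hn, ← hm] at this
    linarith

lemma smooth_of_near {T : Alg} (hT : IsPM T) (h : ℕ) (hd : nrm (T ^ (h + 1) - T ^ h) ≤ 1 / 2) :
    ∃ σ : ℝ, Smooth T σ ∧ σ ^ 2 ≤ 8 * ((h : ℝ) + 1) := by
  obtain ⟨C, hC, h1, h2, h3⟩ := common_part (hT.pow h) (hT.pow (h + 1)) hd
  refine ⟨_, smooth_of_overlap hT hC h1 h2 (by linarith), ?_⟩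
  rw [mul_pow, Real.sq_sqrt (by positivity), ← mul_div_assoc, div_le_iff₀ (by linarith)]
  nlinarith [Nat.cast_nonneg (α := ℝ) h]

lemma chain_exists_pow (N : ℕ) (hN : 1 ≤ N) : ∃ i : ℕ, N ≤ 2 ^ i ∧ 2 ^ i ≤ 2 * N := by
  refine ⟨Nat.log 2 N + 1, (Nat.lt_pow_succ_log_self (by norm_num) N).le, ?_⟩
  rw [pow_succ, mul_comm]
  exact Nat.mul_le_mul_left 2 (Nat.pow_log_le_self 2 (by omega))

/-- smoothing of the powers of the next unit -/
theorem chain_smooth {q : ℝ} (hq0 : 0 < q) (hq1 : q < 1) (k A Q g δ d K : ℕ) (hk : 1 ≤ k)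
    (hA : 16 ≤ A) (hg : 3 * A ≤ 4 * g) (hQ : 20 * (A + 1) ≤ Q) :
    ∃ K' b0 : ℕ, ∀ b ≥ b0, ∀ s : Stage, s.OK q k d Q g δ A b K →
      ∃ σ : ℝ, Smooth (D q s.x) σ ∧ σ ^ 2 ≤ K' * (b : ℝ) ^ (2 * A + 1) := by
  set μ := 8 * A + 8 with hμ
  set m := 2 * μ with hm
  set r0 := 4 * A + 5 with hr0
  set L := 512 * (K + 1) with hL
  set c : ℝ := 9 ^ m * 4 * (K : ℝ) ^ 2 * L + 1 with hc
  set Cst : ℝ := smC k ^ (r0 * d) * (r0 * c + 4 * L * (r0 * (L * (K + K * (8 * m * K) ^ μ)))
    + 4 * L * c ^ r0) with hCst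
  refine ⟨16 * L, max (max ⌈c⌉₊ ⌈64 * Cst⌉₊) (max (16 * r0 ^ 2 * m ^ 2 * L) (max (2 * m) (64 * K + 4))),
    fun b hb s hs => ?_⟩
  simp only [ge_iff_le, max_le_iff] at hb
  obtain ⟨⟨hb1, hb2⟩, hb3, hb4, hb5⟩ := hb
  set x : ℝ := (b : ℝ) with hx
  have hx1 : 1 ≤ x := by rw [hx]; exact_mod_cast (show 1 ≤ b by omega)
  have hx0 : 0 < x := by linarith
  have hxc : c ≤ x := Nat.ceil_le.mp hb1
  have hxC : 64 * Cst ≤ x := Nat.ceil_le.mp hb2
  have hxK : 64 * (K : ℝ) ≤ x := by rw [hx]; exact_mod_cast (show 64 * K ≤ b by omega)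
  have hp : ∀ {i j : ℕ}, i ≤ j → x ^ i ≤ x ^ j := fun h => pow_le_pow_right₀ hx1 h
  obtain ⟨σ, hσ, hσ2⟩ := hs.smooth
  set T := D q s.u with hTdef
  set T' := D q s.x with hT'def
  have hT : IsPM T := isPM_D hq0.le hq1.le _
  have hT' : IsPM T' := isPM_D hq0.le hq1.le _
  set M := slotLen b A with hMdef
  have hM : M = b ^ (A + 1) := rfl
  have hMr : (M : ℝ) = x ^ (A + 1) := by rw [hM, hx]; push_cast; rfl
  have hbM : b ≤ M := by rw [hM]; exact Nat.le_self_pow (by omega) b
  have hW : 4 * winLen b A K ≤ M := by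
    rw [winLen, hM, ← mul_assoc, pow_succ' b A]
    exact Nat.mul_le_mul (by omega) (Nat.pow_le_pow_right (by omega) (by omega))
  have hG : s.G.Good T k d (M / 4) (M - M / 4) :=
    ⟨hs.goodG.good, fun i => (hs.goodG.win i).trans (Ico_subset_Ico (by omega) (by omega)),
      hs.goodG.ne, hs.goodG.deg⟩
  set α := s.G.wt with hαdef
  have hα0 : 0 ≤ α := Fam.wt_nonneg hG
  have hαg : α ≤ K / x ^ g := (le_div_iff₀ (by positivity)).mpr hs.wtG
  have hαK : α ≤ K := hαg.trans (div_le_self (Nat.cast_nonneg K) (one_le_pow₀ hx1))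
  set ε := nrm (T' - T ^ M - s.G.val T M) with hεdef
  have hε0 : 0 ≤ ε := nrm_nonneg _
  have hεQ : ε ≤ K / x ^ Q := (le_div_iff₀ (by positivity)).mpr hs.errG
  -- the smoothing radius
  set X : ℕ := b ^ (2 * A + 1) with hX
  have hX1 : 1 ≤ X := Nat.one_le_pow _ _ (by omega)
  obtain ⟨i0, hi1, hi2⟩ := chain_exists_pow (256 * (K + 1) * X) (by
    exact Nat.one_le_iff_ne_zero.mpr (by positivity))
  set h := 2 ^ i0 with hh
  have hhX : h ≤ L * X := by
    rw [hL, show 512 * (K + 1) * X = 2 * (256 * (K + 1) * X) by ring]; exact hi2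
  have hXr : (X : ℝ) = x ^ (2 * A + 1) := by rw [hX, hx]; push_cast; rfl
  have hhr : (h : ℝ) ≤ L * x ^ (2 * A + 1) := by rw [← hXr]; exact_mod_cast hhX
  have hL1 : (1 : ℝ) ≤ L := by exact_mod_cast (show 1 ≤ L by omega)
  -- parameters
  set η := Real.sqrt (8 * m * K / x) with hη
  have hη2 : 8 * m * σ ^ 2 ≤ η ^ 2 * M := by
    rw [hη, Real.sq_sqrt (by positivity), hMr, pow_succ' x A, div_mul_eq_mul_div,
      le_div_iff₀ hx0]
    calc 8 * (m : ℝ) * σ ^ 2 * x ≤ 8 * m * ((K : ℝ) * x ^ A) * x :=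
          mul_le_mul_of_nonneg_right (mul_le_mul_of_nonneg_left hσ2 (by positivity)) hx0.le
      _ = 8 * m * K * (x * x ^ A) := by ring
  have hηm : η ^ m = (8 * m * K) ^ μ / x ^ μ := by
    rw [hm, pow_mul, hη, Real.sq_sqrt (by positivity), div_pow]
  have hD : r0 * (m * Nat.sqrt h) ≤ M / 4 := by
    rw [Nat.le_div_iff_mul_le (by norm_num), ← Nat.pow_le_pow_iff_left two_ne_zero, hM]
    have h1 := Nat.sqrt_le' h
    calc (r0 * (m * Nat.sqrt h) * 4) ^ 2 = 16 * r0 ^ 2 * m ^ 2 * Nat.sqrt h ^ 2 := by ring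
      _ ≤ 16 * r0 ^ 2 * m ^ 2 * (L * X) := Nat.mul_le_mul_left _ (h1.trans hhX)
      _ = 16 * r0 ^ 2 * m ^ 2 * L * X := by ring
      _ ≤ b * X := Nat.mul_le_mul_right X hb3
      _ = (b ^ (A + 1)) ^ 2 := by rw [hX]; ring
  set φ := c / x with hφ
  have hc1 : 1 ≤ c := le_add_of_nonneg_left (by positivity)
  have hφ0 : 0 ≤ φ := by positivity
  have hφ1 : φ ≤ 1 := (div_le_one hx0).mpr hxc
  have hsqh : Real.sqrt h ≤ L * x ^ (A + 1) := by
    rw [Real.sqrt_le_iff]
    refine ⟨by positivity, hhr.trans ?_⟩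
    rw [mul_pow, ← pow_mul, sq (L : ℝ)]
    exact mul_le_mul (le_mul_of_one_le_left (by positivity) hL1) (hp (by omega)) (by positivity)
      (by positivity)
  have hΦ : 9 ^ m * α ^ 2 * (4 * Real.sqrt h) ≤ φ ^ 2 := by
    have hα2 : α ^ 2 ≤ (K : ℝ) ^ 2 / x ^ (A + 3) := by
      refine (pow_le_pow_left₀ hα0 hαg 2).trans ?_
      rw [div_pow, ← pow_mul]
      exact div_le_div_of_nonneg_left (sq_nonneg _) (by positivity) (hp (by omega))
    calc 9 ^ m * α ^ 2 * (4 * Real.sqrt h)
        ≤ 9 ^ m * ((K : ℝ) ^ 2 / x ^ (A + 3)) * (4 * (L * x ^ (A + 1))) := by gcongr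
      _ = (9 ^ m * 4 * (K : ℝ) ^ 2 * L) / x ^ 2 := by
          rw [show A + 3 = (A + 1) + 2 by omega, pow_add]; field_simp
      _ ≤ φ ^ 2 := by
          rw [hφ, div_pow]
          refine div_le_div_of_nonneg_right ?_ (sq_nonneg x)
          exact (le_add_of_nonneg_right zero_le_one).trans (le_self_pow₀ hc1 two_ne_zero)
  -- the total error
  have hB : smC k ^ (r0 * d) * (r0 * φ + ((h : ℝ) + 1) * ((M : ℝ) + 1)
      * (r0 * ((h : ℝ) * (ε + α * η ^ m)) + φ ^ r0)) ≤ Cst / x := by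
    have hC0 : 0 ≤ smC k ^ (r0 * d) := pow_nonneg (by linarith [smC_ge_one k]) _
    have p1 : (1 : ℝ) ≤ x ^ (2 * A + 1) := one_le_pow₀ hx1
    have p2 : (1 : ℝ) ≤ x ^ (A + 1) := one_le_pow₀ hx1
    have n1 : ((h : ℝ) + 1) * ((M : ℝ) + 1) ≤ 4 * L * x ^ (3 * A + 2) := by
      have a1 : (h : ℝ) + 1 ≤ 2 * L * x ^ (2 * A + 1) := by
        linarith [one_le_mul_of_one_le_of_one_le hL1 p1]
      have a2 : (M : ℝ) + 1 ≤ 2 * x ^ (A + 1) := by rw [hMr]; linarith
      refine (mul_le_mul a1 a2 (by positivity) (by positivity)).trans (le_of_eq ?_)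
      rw [show 3 * A + 2 = (2 * A + 1) + (A + 1) by omega, pow_add]; ring
    have n2 : ε + α * η ^ m ≤ ((K : ℝ) + K * (8 * m * K) ^ μ) / x ^ (5 * A + 4) := by
      rw [add_div, hηm]
      refine add_le_add (hεQ.trans ?_) ?_
      · exact div_le_div_of_nonneg_left (Nat.cast_nonneg K) (by positivity) (hp (by omega))
      · rw [← mul_div_assoc]
        exact div_le_div₀ (by positivity) (mul_le_mul_of_nonneg_right hαK (by positivity))
          (by positivity) (hp (by omega))
    have n3 : φ ^ r0 ≤ c ^ r0 / x ^ (3 * A + 3) := by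
      rw [hφ, div_pow]
      exact div_le_div_of_nonneg_left (by positivity) (by positivity) (hp (by omega))
    have hs0 : 0 ≤ ε + α * η ^ m := add_nonneg hε0 (mul_nonneg hα0 (pow_nonneg (Real.sqrt_nonneg _) m))
    calc smC k ^ (r0 * d) * (r0 * φ + ((h : ℝ) + 1) * ((M : ℝ) + 1)
          * (r0 * ((h : ℝ) * (ε + α * η ^ m)) + φ ^ r0))
        ≤ smC k ^ (r0 * d) * (r0 * (c / x) + 4 * L * x ^ (3 * A + 2)
          * (r0 * (L * x ^ (2 * A + 1) * (((K : ℝ) + K * (8 * m * K) ^ μ) / x ^ (5 * A + 4)))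
            + c ^ r0 / x ^ (3 * A + 3))) := by gcongr
      _ = Cst / x := by
          rw [hCst, show 5 * A + 4 = (2 * A + 1) + (3 * A + 2) + 1 by omega,
            show 3 * A + 3 = (3 * A + 2) + 1 by omega]
          simp only [pow_add, pow_one]
          field_simp
          ring
  have hB1 : Cst / x ≤ 1 / 64 := by rw [div_le_iff₀ hx0]; linarith
  have hval : nrm (s.G.val T M) ≤ α :=
    nrm_piN_le_of_Bd hT hk M (Fam.fn_bd hT hk hG fun j hj => by simp at hj ⊢; omega)
  have hbase : nrm (T' - T ^ M) ≤ 1 / 16 := by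
    have e1 : K / x ^ Q ≤ 1 / 64 := by
      rw [div_le_iff₀ (by positivity)]
      have := hp (show 1 ≤ Q by omega)
      rw [pow_one] at this
      linarith
    have e2 : K / x ^ g ≤ 1 / 64 := by
      rw [div_le_iff₀ (by positivity)]
      have := hp (show 1 ≤ g by omega)
      rw [pow_one] at this
      linarith
    have := nrm_add (T' - T ^ M - s.G.val T M) (s.G.val T M)
    rw [sub_add_cancel] at this
    linarith
  have hS := chain_double hT hT' hk hσ hG le_rfl (Real.sqrt_nonneg _) hη2 (by omega)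
    (le_trans hb4 hbM) (le_refl (m * Nat.sqrt h)) hD (by omega) hφ0 hφ1 hΦ hB hB1 hbase i0 le_rfl
  -- neighbouring powers are close
  have hnear : nrm (T' ^ (h + 1) - T' ^ h) ≤ 1 / 2 := by
    have e : T' ^ (h + 1) - T' ^ h = ((T' ^ h - T ^ (h * M)) * T' + T ^ (h * M) * (T' - T ^ M))
        + ((T ^ M - 1) * T ^ (h * M) - (T' ^ h - T ^ (h * M))) := by
      rw [pow_succ, sub_mul (T ^ M) 1, one_mul, ← pow_add, add_comm M, pow_add]
      noncomm_ring
    have a1 : nrm ((T' ^ h - T ^ (h * M)) * T') ≤ 1 / 16 := by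
      refine (nrm_mul _ _).trans ?_
      rw [hT'.nrm_eq, mul_one]; exact hS
    have a2 : nrm (T ^ (h * M) * (T' - T ^ M)) ≤ 1 / 16 := by
      refine (nrm_mul _ _).trans ?_
      rw [(hT.pow _).nrm_eq, one_mul]; exact hbase
    have a3 : nrm ((T ^ M - 1) * T ^ (h * M)) ≤ 1 / 16 := by
      refine (hσ.pow_sub_one hT (h * M) M).trans ?_
      set S := Real.sqrt (((h * M : ℕ) : ℝ) + 1) with hSdef
      have hS0 : 0 < S := Real.sqrt_pos.mpr (by positivity)
      rw [← mul_div_assoc, div_le_iff₀ hS0]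
      refine le_of_abs_le (abs_le_of_sq_le_sq ?_ (by positivity))
      rw [mul_pow, mul_pow, hSdef, Real.sq_sqrt (by positivity)]
      have hh1 : 256 * ((K : ℝ) + 1) * X ≤ h := by exact_mod_cast hi1
      calc (M : ℝ) ^ 2 * σ ^ 2 ≤ (M : ℝ) ^ 2 * ((K : ℝ) * x ^ A) :=
            mul_le_mul_of_nonneg_left hσ2 (sq_nonneg _)
        _ = (M : ℝ) * ((K : ℝ) * X) := by
            rw [hXr, hMr, show 2 * A + 1 = A + 1 + A by omega, pow_add x (A + 1) A]; ring
        _ ≤ (M : ℝ) * (1 / 256 * h) := by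
            refine mul_le_mul_of_nonneg_left ?_ (Nat.cast_nonneg M)
            linarith [Nat.cast_nonneg (α := ℝ) X]
        _ ≤ (1 / 16) ^ 2 * (((h * M : ℕ) : ℝ) + 1) := by push_cast; linarith
    rw [e]
    refine (nrm_add _ _).trans ((add_le_add (nrm_add _ _) (nrm_sub _ _)).trans ?_)
    have hS' : nrm (T' ^ h - T ^ (h * M)) ≤ 1 / 16 := hS
    linarith
  obtain ⟨τ, hτ, hτ2⟩ := smooth_of_near hT' h hnear
  refine ⟨τ, hτ, hτ2.trans ?_⟩
  have : (1 : ℝ) ≤ L * x ^ (2 * A + 1) := one_le_mul_of_one_le_of_one_le hL1 (one_le_pow₀ hx1)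
  push_cast
  linarith

end Vale.Agent.P321
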