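import Mathlib

/-
The deletion channel, randomised estimators, and the sample complexity of worst-case trace
reconstruction.
-/

open scoped BigOperators

namespace Vale.Agent.P321

/-- probability of a deletion pattern (true = the bit survives) at deletion probability q -/
def maskProb (q : ℝ) {n : ℕ} (s : Fin n → Bool) : ℝ := ∏ i, if s i then 1 - q else q

/-- the surviving bits, in their original order -/
def survivors {n : ℕ} (x s : Fin n → Bool) : List Bool :=
  ((List.finRange n).filter fun i => s i).map x

/-- probability that the randomised estimator E, given m independent traces of x, outputs x;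
E t y is the probability of the output y on the input t -/
def successProb (q : ℝ) {n m : ℕ} (E : (Fin m → List Bool) → (Fin n → Bool) → ℝ)
    (x : Fin n → Bool) : ℝ :=
  ∑ s : Fin m → Fin n → Bool, (∏ j, maskProb q (s j)) * E (fun j => survivors x (s j)) x

/-- some randomised estimator reconstructs every string of length n from m traces with
probability at least 2/3 -/
def Reconstructs (q : ℝ) (n m : ℕ) : Prop :=
  ∃ E : (Fin m → List Bool) → (Fin n → Bool) → ℝ,
    (∀ t y, 0 ≤ E t y) ∧ (∀ t, ∑ y, E t y = 1) ∧ ∀ x, 2 / 3 ≤ successProb q E x

/-- the least number of traces that suffices -/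
noncomputable def sampleComplexity (q : ℝ) (n : ℕ) : ℕ := sInf {m | Reconstructs q n m}

end Vale.Agent.P321
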