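import Mathlib
import Vale.Agent.P321.Binom

/-
P321, module Overlap, second part: the renewal inequality along a spaced set of landmarks.
-/

open scoped BigOperators
open Finset

namespace Vale.Agent.P321

/-- probability that two walks of lengths a, b have kept the same number of slots -/
noncomputable def ovU (π : ℝ) (N a b : ℕ) : ℝ := ∑ l ∈ range (N + 1), Bp π a l * Bp π b l

/-- bound for ovU summed along a spaced set -/
noncomputable def ovS (c : ℝ) (S a : ℕ) : ℝ := c / Real.sqrt ((a : ℝ) + 1) + c / (S : ℝ)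

/-- size of the landmark perturbation -/
noncomputable def ovX (h S : ℕ) : ℝ := Real.sqrt ((h : ℝ) / S) + (h : ℝ) / S

section Spacing

variable {S : ℕ} {P : Finset ℕ}

lemma ov_sub_right_spaced (hP : Spaced S P) (j : ℕ) {H : Finset ℕ} (hH : H ⊆ P)
    (hj : ∀ p ∈ H, j ≤ p) :
    Spaced S (H.image (fun p => p - j)) ∧ Set.InjOn (fun p => p - j) ↑H := by
  refine ⟨?_, fun x hx y hy h => ?_⟩
  · intro a ha b hb hab
    simp only [mem_image] at ha hb
    obtain ⟨x, hx, rfl⟩ := ha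
    obtain ⟨y, hy, rfl⟩ := hb
    have h1 := hj x hx
    have h2 := hj y hy
    have := hP x (hH hx) y (hH hy) (by omega)
    omega
  · have h1 := hj x hx
    have h2 := hj y hy
    simp only at h
    omega

lemma ov_sub_left_spaced (hP : Spaced S P) (M : ℕ) {H : Finset ℕ} (hH : H ⊆ P)
    (hM : ∀ p ∈ H, p < M) :
    Spaced S (H.image (fun p => M - (p + 1))) ∧ Set.InjOn (fun p => M - (p + 1)) ↑H := by
  refine ⟨?_, fun x hx y hy h => ?_⟩
  · intro a ha b hb hab
    simp only [mem_image] at ha hb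
    obtain ⟨x, hx, rfl⟩ := ha
    obtain ⟨y, hy, rfl⟩ := hb
    have h1 := hM x hx
    have h2 := hM y hy
    have := hP y (hH hy) x (hH hx) (by omega)
    omega
  · have h1 := hM x hx
    have h2 := hM y hy
    simp only at h
    omega

lemma ov_sum_s {c : ℝ} (hc : 0 ≤ c) (hS : 0 < S) {h : ℕ} {H : Finset ℕ} {φ : ℕ → ℕ}
    (hsp : Spaced S (H.image φ)) (hinj : Set.InjOn φ ↑H) (hmin : ∀ p ∈ H, S ≤ φ p + 1)
    (hcard : H.card ≤ h) : ∑ p ∈ H, ovS c S (φ p) ≤ 2 * c * ovX h S := by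
  have h1 := (sum_inv_sqrt_spaced S hS (H.image φ) hsp (by
    intro n hn
    obtain ⟨p, hp, rfl⟩ := mem_image.mp hn
    exact hmin p hp)).2
  rw [sum_image hinj, card_image_of_injOn hinj] at h1
  have hcr : (H.card : ℝ) ≤ (h : ℝ) := by exact_mod_cast hcard
  have hsq : Real.sqrt (H.card : ℝ) / Real.sqrt S ≤ Real.sqrt ((h : ℝ) / S) := by
    rw [Real.sqrt_div' _ (Nat.cast_nonneg S)]
    gcongr
  have h2 : ∑ p ∈ H, ovS c S (φ p)
      = c * ∑ p ∈ H, 1 / Real.sqrt ((φ p : ℝ) + 1) + (H.card : ℝ) * (c / S) := by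
    simp only [ovS, sum_add_distrib, sum_const, nsmul_eq_mul, mul_sum, mul_one_div]
  rw [h2, ovX]
  rw [mul_div_assoc] at h1
  have h3 := mul_le_mul_of_nonneg_left (h1.trans (mul_le_mul_of_nonneg_left hsq zero_le_two)) hc
  have h4 : (H.card : ℝ) * (c / S) ≤ c * ((h : ℝ) / S) := by
    calc (H.card : ℝ) * (c / S) ≤ (h : ℝ) * (c / S) :=
          mul_le_mul_of_nonneg_right hcr (by positivity)
      _ = c * ((h : ℝ) / S) := by ring
  have : 0 ≤ c * ((h : ℝ) / S) := by positivity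
  linarith

end Spacing

section Kernel

variable {π c : ℝ}

lemma ovU_nonneg (h0 : 0 ≤ π) (h1 : π ≤ 1) (N a b : ℕ) : 0 ≤ ovU π N a b :=
  sum_nonneg fun l _ => mul_nonneg (Bp_nonneg h0 h1 a l) (Bp_nonneg h0 h1 b l)

lemma ovU_le (h0 : 0 < π) (h1 : π < 1) (hc : 0 ≤ c)
    (hpk : ∀ n l, Bp π n l ≤ c / Real.sqrt ((n : ℝ) + 1)) (N a b : ℕ) :
    ovU π N a b ≤ c / Real.sqrt ((a : ℝ) + 1) := by
  refine (sum_le_sum fun l _ =>
    mul_le_mul_of_nonneg_right (hpk a l) (Bp_nonneg h0.le h1.le b l)).trans ?_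
  rw [← mul_sum]
  exact mul_le_of_le_one_right (by positivity) (sum_Bp_le h0.le h1.le b _)

lemma ovU_spaced (h0 : 0 < π) (h1 : π < 1) (hc : 0 ≤ c)
    (hpk : ∀ n l, Bp π n l ≤ c / Real.sqrt ((n : ℝ) + 1)) (N a S : ℕ) (hS : 0 < S)
    (G : Finset ℕ) (hG : Spaced S G) :
    ∑ n ∈ G, ovU π N a n
      ≤ 2 * c / Real.sqrt π / Real.sqrt ((a : ℝ) + 1) + 2 / π / (S : ℝ) := by
  calc ∑ n ∈ G, ovU π N a n = ∑ l ∈ range (N + 1), Bp π a l * ∑ n ∈ G, Bp π n l := by
        simp only [ovU, mul_sum]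
        exact sum_comm
    _ ≤ ∑ l ∈ range (N + 1), Bp π a l *
          (2 * (c / Real.sqrt ((l : ℝ) + 1)) + 2 / ((S : ℝ) * π)) :=
        sum_le_sum fun l _ => mul_le_mul_of_nonneg_left (sum_Bp_spaced h0 h1 hc hpk S hS G hG l)
          (Bp_nonneg h0.le h1.le a l)
    _ ≤ Bexp π a (fun l : ℕ => 2 * (c / Real.sqrt ((l : ℝ) + 1)) + 2 / ((S : ℝ) * π)) :=
        sum_Bp_mul_le h0.le h1.le a _ _ fun j => by positivity
    _ = 2 * c * Bexp π a (fun l : ℕ => 1 / Real.sqrt ((l : ℝ) + 1)) + 2 / ((S : ℝ) * π) := by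
        rw [Bexp_add, Bexp_const, ← Bexp_smul]
        simp only [mul_one_div, mul_div_assoc]
    _ ≤ 2 * c * (1 / Real.sqrt (π * ((a : ℝ) + 1))) + 2 / ((S : ℝ) * π) := by
        gcongr
        exact Bexp_inv_sqrt h0 h1.le a
    _ = _ := by rw [Real.sqrt_mul h0.le]; field_simp

lemma ovS_ge {c c1 : ℝ} (S a : ℕ) {d : ℝ} (h : c ≤ c1) (hd : d ≤ c1) :
    c / Real.sqrt ((a : ℝ) + 1) + d / (S : ℝ) ≤ ovS c1 S a := by
  unfold ovS
  gcongr

end Kernel

section Renewal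

variable {π c c1 γ : ℝ}

/-- admissible starting points -/
def ovIdx (P : Finset ℕ) : Finset ℕ := insert 0 (P.image (fun p => p + 1))

lemma ov_renewal (h0 : 0 < π) (h1 : π < 1) (hc : 0 ≤ c)
    (hpk : ∀ n l, Bp π n l ≤ c / Real.sqrt ((n : ℝ) + 1))
    (hc1 : c ≤ c1) (hc2 : 2 * c / Real.sqrt π ≤ c1) (hc3 : 2 / π ≤ c1) (hγ : 0 ≤ γ)
    (N S h : ℕ) (hS : 0 < S) (P : Finset ℕ) (hP : Spaced S P)
    (hm : ∀ p ∈ P, S ≤ p + 1 ∧ S + p ≤ N) (hh : P.card ≤ h)
    (hX : 4 * γ * c1 * ovX h S ≤ 1) (Ψ : ℕ → ℕ → ℝ) (hΨ : ∀ i j, 0 ≤ Ψ i j)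
    (hrec : ∀ i ∈ ovIdx P, ∀ j ∈ ovIdx P, Ψ i j ≤ ovU π N (N - i) (N - j)
      + γ * ∑ p ∈ P.filter (fun p => i ≤ p), ∑ p' ∈ P.filter (fun p => j ≤ p),
          ovU π N (p - i) (p' - j) * Ψ (p + 1) (p' + 1)) :
    Real.sqrt ((N : ℝ) + 1) * (Ψ 0 0 - ovU π N N N) ≤ 12 * γ * c1 ^ 2 * ovX h S := by
  have hc10 : 0 ≤ c1 := hc.trans hc1
  set Φ := 2 * c1 * ovX h S with hΦ
  have hΦ0 : 0 ≤ Φ := by simp only [hΦ, ovX]; positivity
  have hγΦ : γ * Φ ≤ 1 / 2 := by rw [hΦ]; linarith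
  have hlt : ∀ p ∈ P, p < N := fun p hp => by have := hm p hp; omega
  have hUn : ∀ a b, 0 ≤ ovU π N a b := ovU_nonneg h0.le h1.le N
  have hU1 : ∀ a b, ovU π N a b ≤ c1 / Real.sqrt ((a : ℝ) + 1) := fun a b =>
    (ovU_le h0 h1 hc hpk N a b).trans (div_le_div_of_nonneg_right hc1 (Real.sqrt_nonneg _))
  -- sums along the landmarks of the kernel
  have hUs : ∀ a G, Spaced S G → ∑ n ∈ G, ovU π N a n ≤ ovS c1 S a := fun a G hG =>
    (ovU_spaced h0 h1 hc hpk N a S hS G hG).trans (ovS_ge S a hc2 hc3)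
  have hmid : ∀ i ∈ ovIdx P, ∑ p ∈ P.filter (fun p => i ≤ p), ovS c1 S (p - i) ≤ Φ := by
    intro i hi
    obtain ⟨hsp, hinj⟩ := ov_sub_right_spaced hP i (filter_subset (fun p => i ≤ p) P)
      (fun p hp => (mem_filter.mp hp).2)
    refine ov_sum_s hc10 hS hsp hinj (fun p hp => ?_) ((card_filter_le _ _).trans hh)
    obtain ⟨hpP, hip⟩ := mem_filter.mp hp
    simp only [ovIdx, mem_insert, mem_image] at hi
    rcases hi with rfl | ⟨p0, hp0, rfl⟩
    · have := (hm p hpP).1; omega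
    · have := hP p0 hp0 p hpP (by omega); omega
  have hend : ∑ p ∈ P, ovS c1 S (N - (p + 1)) ≤ Φ := by
    obtain ⟨hsp, hinj⟩ := ov_sub_left_spaced hP N (subset_refl P) hlt
    refine ov_sum_s hc10 hS hsp hinj (fun p hp => ?_) hh
    have := hm p hp; omega
  have hback : ∀ q ∈ P, ∑ p ∈ P.filter (fun p => p + 1 ≤ q), ovS c1 S (q - (p + 1)) ≤ Φ := by
    intro q hq
    obtain ⟨hsp, hinj⟩ := ov_sub_left_spaced hP q (filter_subset (fun p => p + 1 ≤ q) P)
      (fun p hp => (mem_filter.mp hp).2)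
    refine ov_sum_s hc10 hS hsp hinj (fun p hp => ?_) ((card_filter_le _ _).trans hh)
    obtain ⟨hpP, hpq⟩ := mem_filter.mp hp
    have := hP p hpP q hq (by omega); omega
  have hidx : ∀ p ∈ P, p + 1 ∈ ovIdx P := fun p hp =>
    mem_insert_of_mem (mem_image.mpr ⟨p, hp, rfl⟩)
  -- the total mass of the renewals
  set T : ℕ → ℝ := fun p => ∑ p' ∈ P, Ψ (p + 1) (p' + 1) with hT
  have hT0 : ∀ p, 0 ≤ T p := fun p => sum_nonneg fun _ _ => hΨ _ _
  have hTrec : ∀ p ∈ P, T p ≤ ovS c1 S (N - (p + 1))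
      + γ * ∑ q ∈ P.filter (fun q => p + 1 ≤ q), ovS c1 S (q - (p + 1)) * T q := by
    intro p hp
    calc T p ≤ ∑ p' ∈ P, (ovU π N (N - (p + 1)) (N - (p' + 1))
          + γ * ∑ q ∈ P.filter (fun q => p + 1 ≤ q), ∑ q' ∈ P.filter (fun q => p' + 1 ≤ q),
            ovU π N (q - (p + 1)) (q' - (p' + 1)) * Ψ (q + 1) (q' + 1)) :=
          sum_le_sum fun p' hp' => hrec _ (hidx p hp) _ (hidx p' hp')
      _ = ∑ p' ∈ P, ovU π N (N - (p + 1)) (N - (p' + 1))
          + γ * ∑ q ∈ P.filter (fun q => p + 1 ≤ q), ∑ q' ∈ P,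
            (∑ p' ∈ P.filter (fun p' => p' + 1 ≤ q'), ovU π N (q - (p + 1)) (q' - (p' + 1)))
              * Ψ (q + 1) (q' + 1) := by
          rw [sum_add_distrib, ← mul_sum, sum_comm]
          congr 2
          refine sum_congr rfl fun q _ => ?_
          simp only [sum_filter, sum_mul, ite_mul, zero_mul]
          exact sum_comm
      _ ≤ ovS c1 S (N - (p + 1))
          + γ * ∑ q ∈ P.filter (fun q => p + 1 ≤ q), ovS c1 S (q - (p + 1)) * T q := by
          refine add_le_add ?_ (mul_le_mul_of_nonneg_left (sum_le_sum fun q _ => ?_) hγ)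
          · obtain ⟨hsp, hinj⟩ := ov_sub_left_spaced hP N (subset_refl P) hlt
            have := hUs (N - (p + 1)) _ hsp
            rwa [sum_image hinj] at this
          · rw [hT, mul_sum]
            refine sum_le_sum fun q' _ => mul_le_mul_of_nonneg_right ?_ (hΨ _ _)
            obtain ⟨hsp, hinj⟩ := ov_sub_left_spaced hP q'
              (filter_subset (fun p' => p' + 1 ≤ q') P) (fun p hp => (mem_filter.mp hp).2)
            have := hUs (q - (p + 1)) _ hsp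
            rwa [sum_image hinj] at this
  have hTsum : ∑ p ∈ P, T p ≤ 2 * Φ := by
    have hle : ∑ p ∈ P, T p ≤ Φ + γ * Φ * ∑ q ∈ P, T q := by
      refine (sum_le_sum hTrec).trans ?_
      rw [sum_add_distrib, ← mul_sum, mul_assoc]
      refine add_le_add hend (mul_le_mul_of_nonneg_left ?_ hγ)
      calc ∑ p ∈ P, ∑ q ∈ P.filter (fun q => p + 1 ≤ q), ovS c1 S (q - (p + 1)) * T q
          = ∑ q ∈ P, (∑ p ∈ P.filter (fun p => p + 1 ≤ q), ovS c1 S (q - (p + 1))) * T q := by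
            simp only [sum_filter, sum_mul, ite_mul, zero_mul]
            exact sum_comm
        _ ≤ ∑ q ∈ P, Φ * T q :=
            sum_le_sum fun q hq => mul_le_mul_of_nonneg_right (hback q hq) (hT0 q)
        _ = Φ * ∑ q ∈ P, T q := (mul_sum _ _ _).symm
    have := mul_le_mul_of_nonneg_right hγΦ (sum_nonneg fun p (_ : p ∈ P) => hT0 p)
    linarith
  -- kernel mass seen from a starting point
  have hker : ∀ i ∈ ovIdx P, ∀ j, ∑ p ∈ P.filter (fun p => i ≤ p),
      ∑ p' ∈ P.filter (fun p => j ≤ p), ovU π N (p - i) (p' - j) ≤ Φ := by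
    intro i hi j
    refine (sum_le_sum fun p _ => ?_).trans (hmid i hi)
    obtain ⟨hsp, hinj⟩ := ov_sub_right_spaced hP j (filter_subset (fun p => j ≤ p) P)
      (fun p hp => (mem_filter.mp hp).2)
    have := hUs (p - i) _ hsp
    rwa [sum_image hinj] at this
  have hsub : ∀ i j, ∑ p ∈ P.filter (fun p => i ≤ p),
      ∑ p' ∈ P.filter (fun p => j ≤ p), Ψ (p + 1) (p' + 1) ≤ 2 * Φ := by
    intro i j
    refine le_trans ((sum_le_sum fun p _ => sum_le_sum_of_subset_of_nonneg (filter_subset _ P)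
      fun _ _ _ => hΨ _ _).trans (sum_le_sum_of_subset_of_nonneg (filter_subset _ P)
        fun p _ _ => hT0 p)) hTsum
  -- the weighted maximum
  obtain ⟨z, hz, hmax⟩ := (ovIdx P ×ˢ ovIdx P).exists_max_image
    (fun z => Real.sqrt ((N : ℝ) - z.1 + 1) * Ψ z.1 z.2)
    ⟨(0, 0), by simp [ovIdx]⟩
  set B := Real.sqrt ((N : ℝ) - z.1 + 1) * Ψ z.1 z.2 with hB
  have hB0 : 0 ≤ B := mul_nonneg (Real.sqrt_nonneg _) (hΨ _ _)
  have hstep : ∀ i ∈ ovIdx P, ∀ j ∈ ovIdx P,
      Real.sqrt ((N : ℝ) - i + 1) * (γ * ∑ p ∈ P.filter (fun p => i ≤ p),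
        ∑ p' ∈ P.filter (fun p => j ≤ p), ovU π N (p - i) (p' - j) * Ψ (p + 1) (p' + 1))
      ≤ γ * (c1 * (2 * Φ) + B * Φ) := by
    intro i hi j hj
    rw [mul_left_comm]
    refine mul_le_mul_of_nonneg_left ?_ hγ
    calc Real.sqrt ((N : ℝ) - i + 1) * ∑ p ∈ P.filter (fun p => i ≤ p),
          ∑ p' ∈ P.filter (fun p => j ≤ p), ovU π N (p - i) (p' - j) * Ψ (p + 1) (p' + 1)
        ≤ ∑ p ∈ P.filter (fun p => i ≤ p), ∑ p' ∈ P.filter (fun p => j ≤ p),
            (c1 * Ψ (p + 1) (p' + 1) + B * ovU π N (p - i) (p' - j)) := by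
          rw [mul_sum]
          refine sum_le_sum fun p hp => ?_
          rw [mul_sum]
          refine sum_le_sum fun p' hp' => ?_
          obtain ⟨hpP, hip⟩ := mem_filter.mp hp
          set α : ℝ := ((p - i : ℕ) : ℝ) + 1 with hα
          set β : ℝ := (N : ℝ) - ((p + 1 : ℕ) : ℝ) + 1 with hβ
          have hα0 : 0 < α := by positivity
          have hβ0 : 0 ≤ β := by
            have : ((p + 1 : ℕ) : ℝ) ≤ N := by exact_mod_cast hlt p hpP
            rw [hβ]; linarith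
          have hsq : Real.sqrt ((N : ℝ) - i + 1) ≤ Real.sqrt α + Real.sqrt β := by
            rw [Real.sqrt_le_iff]
            refine ⟨by positivity, ?_⟩
            have e : (N : ℝ) - i + 1 ≤ α + β := by
              rw [hα, hβ, Nat.cast_sub hip]; push_cast; linarith
            nlinarith [Real.sq_sqrt hα0.le, Real.sq_sqrt hβ0, Real.sqrt_nonneg α,
              Real.sqrt_nonneg β]
          have hu : Real.sqrt α * ovU π N (p - i) (p' - j) ≤ c1 := by
            have := hU1 (p - i) (p' - j)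
            rw [← hα, le_div_iff₀ (Real.sqrt_pos.mpr hα0)] at this
            linarith
          have hv : Real.sqrt β * Ψ (p + 1) (p' + 1) ≤ B :=
            hmax (p + 1, p' + 1) (mem_product.mpr ⟨hidx p hpP, hidx p' (mem_filter.mp hp').1⟩)
          have t1 := mul_le_mul_of_nonneg_right hsq
            (mul_nonneg (hUn (p - i) (p' - j)) (hΨ (p + 1) (p' + 1)))
          have t2 := mul_le_mul_of_nonneg_right hu (hΨ (p + 1) (p' + 1))
          have t3 := mul_le_mul_of_nonneg_right hv (hUn (p - i) (p' - j))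
          linarith
      _ ≤ c1 * (2 * Φ) + B * Φ := by
          simp only [sum_add_distrib, ← mul_sum]
          exact add_le_add (mul_le_mul_of_nonneg_left (hsub i j) hc10)
            (mul_le_mul_of_nonneg_left (hker i hi j) hB0)
  have hBle : B ≤ 4 * c1 := by
    obtain ⟨hz1, hz2⟩ := mem_product.mp hz
    have hi : z.1 ≤ N := by
      simp only [ovIdx, mem_insert, mem_image] at hz1
      rcases hz1 with h | ⟨p, hp, h⟩
      · omega
      · have := hlt p hp; omega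
    have h1 : Real.sqrt ((N : ℝ) - z.1 + 1) * ovU π N (N - z.1) (N - z.2) ≤ c1 := by
      have := hU1 (N - z.1) (N - z.2)
      rw [Nat.cast_sub hi, le_div_iff₀ (Real.sqrt_pos.mpr (by
        have : (z.1 : ℝ) ≤ N := by exact_mod_cast hi
        linarith))] at this
      linarith
    have h2 := mul_le_mul_of_nonneg_left (hrec _ hz1 _ hz2)
      (Real.sqrt_nonneg ((N : ℝ) - z.1 + 1))
    rw [← hB, mul_add] at h2
    have h3 := hstep _ hz1 _ hz2
    have h4 := mul_le_mul_of_nonneg_right hγΦ hB0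
    have h5 := mul_le_mul_of_nonneg_right hγΦ hc10
    linarith
  have h00 : (0 : ℕ) ∈ ovIdx P := mem_insert_self _ _
  have h1 := hrec 0 h00 0 h00
  have h2 := hstep 0 h00 0 h00
  simp only [Nat.sub_zero, Nat.cast_zero, sub_zero] at h1 h2
  have h3 := mul_le_mul_of_nonneg_left (sub_le_iff_le_add'.mpr h1) (Real.sqrt_nonneg ((N : ℝ) + 1))
  refine h3.trans (h2.trans ?_)
  have := mul_le_mul_of_nonneg_right hBle (mul_nonneg hγ hΦ0)
  rw [hΦ] at this ⊢
  linarith

end Renewal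

end Vale.Agent.P321
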