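import Mathlib
import Vale.Agent.P321.Defs
import Vale.Agent.P321.Binom

/-
P321, module Overlap, first part: the trace of a periodic 01 string with landmarks as a mixture
of pushforwards of densities, and the renewal expansion of the second moments of these densities.
-/

open scoped BigOperators
open Finset

namespace Vale.Agent.P321

/-- probability of the extracted empty slot -/
noncomputable def ovE (q : ℝ) : ℝ := q ^ 2 / 2

/-- probability of keeping a slot -/
noncomputable def ovP (q : ℝ) : ℝ := 1 - ovE q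

/-- law of a kept 01 slot -/
noncomputable def ovR (q : ℝ) : Alg := (ovP q)⁻¹ • (D q [false, true] - ovE q • (1 : Alg))

/-- law of a kept landmark slot -/
noncomputable def ovR1 (q : ℝ) : Alg := (ovP q)⁻¹ • (D q [true] - ovE q • (1 : Alg))

/-- centred likelihood ratio of a landmark -/
noncomputable def ovG (q : ℝ) (w : W) : ℝ :=
  if (ovR q).coeff w = 0 then 0 else (ovR1 q).coeff w / (ovR q).coeff w - 1

/-- chi-square distance of the two slot laws -/
noncomputable def ovGam (q : ℝ) : ℝ :=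
  ∑ w ∈ (ovR q).coeff.support, (ovR q).coeff w * ovG q w ^ 2

/-- indicator of a bit -/
def ovBit (b : Bool) : ℝ := if b then 1 else 0

/-- one slot density -/
noncomputable def ovH (q : ℝ) (b : Bool) (ω : ℕ → W) : ℝ := 1 + ovBit b * ovG q (ω 0)

/-- density of the trace on k kept slots -/
noncomputable def ovF (q : ℝ) : List Bool → ℕ → (ℕ → W) → ℝ
  | [], k, _ => if k = 0 then 1 else 0
  | _ :: x, 0, ω => ovE q * ovF q x 0 ω
  | b :: x, k + 1, ω =>
      ovE q * ovF q x (k + 1) ω + ovP q * ovH q b ω * ovF q x k (ω ∘ (fun i => 1 + i))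

/-- second moments of the densities -/
noncomputable def ovGm (q : ℝ) (x y : List Bool) (k : ℕ) : ℝ :=
  E (ovR q) (range k) (fun ω => ovF q x k ω * ovF q y k ω)

/-- landmark indicator -/
def ovChi (x : List Bool) (p : ℕ) : ℝ := ovBit (x.getD p false)

lemma ovBit_nonneg (b : Bool) : 0 ≤ ovBit b := by cases b <;> simp [ovBit]
lemma ovBit_le_one (b : Bool) : ovBit b ≤ 1 := by cases b <;> simp [ovBit]

section Slot

variable {q : ℝ}

lemma ovP_pos (hq0 : 0 < q) (hq1 : q < 1) : 0 < ovP q ∧ ovP q < 1 := by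
  constructor <;> simp only [ovP, ovE] <;> nlinarith

lemma ovE_pos (hq0 : 0 < q) : 0 < ovE q := by simp only [ovE]; positivity

lemma ovR_eq (q : ℝ) : ovR q = (ovP q)⁻¹ •
    ((q ^ 2 / 2) • pt 1 + (q * (1 - q)) • pt (FreeMonoid.of true)
      + (q * (1 - q)) • pt (FreeMonoid.of false)
      + (1 - q) ^ 2 • pt (FreeMonoid.of false * FreeMonoid.of true)) := by
  rw [ovR, D_cons, D_cons, D_nil, mul_one, dbit, dbit, pt_one, ← pt_mul]
  congr 1
  simp only [add_mul, mul_add, smul_mul_assoc, mul_smul_comm, one_mul, mul_one, ovE]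
  module

lemma ovR1_eq (q : ℝ) : ovR1 q
    = (ovP q)⁻¹ • ((q - q ^ 2 / 2) • pt 1 + (1 - q) • pt (FreeMonoid.of true)) := by
  rw [ovR1, D_cons, D_nil, mul_one, dbit, pt_one]
  congr 1
  simp only [ovE]
  module

lemma isPM_ovR (hq0 : 0 < q) (hq1 : q < 1) : IsPM (ovR q) ∧ IsPM (ovR1 q) := by
  obtain ⟨h, -⟩ := ovP_pos hq0 hq1
  refine ⟨⟨?_, ?_⟩, ⟨?_, ?_⟩⟩
  · rw [ovR_eq]
    refine ((((nonneg_pt _).smul (by positivity)).add ((nonneg_pt _).smul ?_)).add
      ((nonneg_pt _).smul ?_)).add ((nonneg_pt _).smul (sq_nonneg _)) |>.smul (by positivity) <;>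
      nlinarith
  · rw [ovR, mass_smul, mass_sub, (isPM_D hq0.le hq1.le _).2, mass_smul, mass_one, mul_one]
    exact inv_mul_cancel₀ h.ne'
  · rw [ovR1_eq]
    refine (((nonneg_pt _).smul ?_).add ((nonneg_pt _).smul ?_)).smul (by positivity) <;> nlinarith
  · rw [ovR1, mass_smul, mass_sub, (isPM_D hq0.le hq1.le _).2, mass_smul, mass_one, mul_one]
    exact inv_mul_cancel₀ h.ne'

lemma ovR1_zero (hq0 : 0 < q) (hq1 : q < 1) {w : W} (h : (ovR q).coeff w = 0) :
    (ovR1 q).coeff w = 0 := by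
  obtain ⟨hp, -⟩ := ovP_pos hq0 hq1
  have hb : 0 < q * (1 - q) := by nlinarith
  have ha : (0 : ℝ) < q ^ 2 / 2 := by positivity
  have hnn : ∀ v : W, 0 ≤ (if v = w then (1 : ℝ) else 0) := fun v => by split_ifs <;> norm_num
  rw [ovR_eq] at h
  simp only [MonoidAlgebra.coeff_smul_apply, MonoidAlgebra.coeff_add, Finsupp.add_apply,
    coeff_pt, smul_eq_mul] at h
  rcases mul_eq_zero.mp h with h | h
  · exact absurd h (inv_ne_zero hp.ne')
  have h1 : (if (1 : W) = w then (1 : ℝ) else 0) = 0 := by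
    nlinarith [hnn 1, mul_nonneg hb.le (hnn (FreeMonoid.of true)),
      mul_nonneg hb.le (hnn (FreeMonoid.of false)),
      mul_nonneg (sq_nonneg (1 - q)) (hnn (FreeMonoid.of false * FreeMonoid.of true))]
  have h2 : (if FreeMonoid.of true = w then (1 : ℝ) else 0) = 0 := by
    nlinarith [hnn (FreeMonoid.of true), mul_nonneg ha.le (hnn 1),
      mul_nonneg hb.le (hnn (FreeMonoid.of false)),
      mul_nonneg (sq_nonneg (1 - q)) (hnn (FreeMonoid.of false * FreeMonoid.of true))]
  rw [ovR1_eq]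
  simp only [MonoidAlgebra.coeff_smul_apply, MonoidAlgebra.coeff_add, Finsupp.add_apply,
    coeff_pt, smul_eq_mul, h1, h2, mul_zero, add_zero]

lemma ovR1_support (hq0 : 0 < q) (hq1 : q < 1) :
    (ovR1 q).coeff.support ⊆ (ovR q).coeff.support := fun w hw => by
  rw [Finsupp.mem_support_iff] at hw ⊢
  exact fun h => hw (ovR1_zero hq0 hq1 h)

lemma ovR_mul_g (hq0 : 0 < q) (hq1 : q < 1) (w : W) :
    (ovR q).coeff w * (1 + ovG q w) = (ovR1 q).coeff w := by
  unfold ovG
  split_ifs with h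
  · rw [h, ovR1_zero hq0 hq1 h, zero_mul]
  · field_simp; ring

lemma ovG_ge (hq0 : 0 < q) (hq1 : q < 1) (w : W) : -1 ≤ ovG q w := by
  unfold ovG
  split_ifs with h
  · norm_num
  · have := div_nonneg ((isPM_ovR hq0 hq1).2.1 w) ((isPM_ovR hq0 hq1).1.1 w)
    linarith

lemma ovH_nonneg (hq0 : 0 < q) (hq1 : q < 1) (b : Bool) (ω : ℕ → W) : 0 ≤ ovH q b ω := by
  have := ovG_ge hq0 hq1 (ω 0)
  cases b <;> simp [ovH, ovBit] <;> linarith

lemma sum_ovR_g (hq0 : 0 < q) (hq1 : q < 1) :
    ∑ w ∈ (ovR q).coeff.support, (ovR q).coeff w * ovG q w = 0 := by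
  have h1 : ∑ w ∈ (ovR q).coeff.support, (ovR1 q).coeff w = 1 := by
    rw [← (isPM_ovR hq0 hq1).2.2]
    exact (Finsupp.sum_of_support_subset _ (ovR1_support hq0 hq1) (fun _ c => c) (by simp)).symm
  have h2 : ∑ w ∈ (ovR q).coeff.support, (ovR q).coeff w = 1 := (isPM_ovR hq0 hq1).1.2
  calc ∑ w ∈ (ovR q).coeff.support, (ovR q).coeff w * ovG q w
      = ∑ w ∈ (ovR q).coeff.support, ((ovR1 q).coeff w - (ovR q).coeff w) :=
        sum_congr rfl fun w _ => by rw [← ovR_mul_g hq0 hq1 w]; ring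
    _ = 0 := by rw [sum_sub_distrib, h1, h2, sub_self]

lemma ovGam_nonneg (hq0 : 0 < q) (hq1 : q < 1) : 0 ≤ ovGam q :=
  sum_nonneg fun w _ => mul_nonneg ((isPM_ovR hq0 hq1).1.1 w) (sq_nonneg _)

lemma ovH_dependsOn (q : ℝ) (b : Bool) : DependsOn (ovH q b) ↑(range 1) := fun x y h => by
  simp only [ovH, h 0 (by simp)]

lemma E_ovH_mul (hq0 : 0 < q) (hq1 : q < 1) (a b : Bool) :
    E (ovR q) {0} (fun ω => ovH q a ω * ovH q b ω) = 1 + ovBit a * ovBit b * ovGam q := by
  rw [E, Ew_singleton]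
  simp only [ovH, Function.update_self, smul_eq_mul]
  calc ∑ w ∈ (ovR q).coeff.support,
        (ovR q).coeff w * ((1 + ovBit a * ovG q w) * (1 + ovBit b * ovG q w))
      = (∑ w ∈ (ovR q).coeff.support, (ovR q).coeff w)
        + (ovBit a + ovBit b) * (∑ w ∈ (ovR q).coeff.support, (ovR q).coeff w * ovG q w)
        + ovBit a * ovBit b * ovGam q := by
        rw [ovGam, mul_sum, mul_sum, ← sum_add_distrib, ← sum_add_distrib]
        exact sum_congr rfl fun w _ => by ring
    _ = 1 + ovBit a * ovBit b * ovGam q := by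
        rw [sum_ovR_g hq0 hq1]
        have h2 : ∑ w ∈ (ovR q).coeff.support, (ovR q).coeff w = 1 := (isPM_ovR hq0 hq1).1.2
        rw [h2]; ring

lemma D_slot (hq0 : 0 < q) (hq1 : q < 1) (b : Bool) :
    D q (if b then [true] else [false, true])
      = ovE q • (1 : Alg) + ovP q • piN (ovR q) 1 (ovH q b) := by
  obtain ⟨hp, -⟩ := ovP_pos hq0 hq1
  cases b
  · have : ovH q false = fun _ => 1 := by funext ω; simp [ovH, ovBit]
    rw [this, piN_one, pow_one, ovR, smul_smul, mul_inv_cancel₀ hp.ne', one_smul]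
    simp
  · have hR : piN (ovR q) 1 (ovH q true) = ovR1 q := by
      rw [piN_single]
      have e : ∀ w, (ovR q).coeff w * ovH q true (Function.update om0 0 w) = (ovR1 q).coeff w :=
        fun w => by simp [ovH, ovBit, ovR_mul_g hq0 hq1]
      simp only [e]
      conv_rhs => rw [eq_sum_pt (ovR1 q)]
      refine (sum_subset (ovR1_support hq0 hq1) fun w _ hw => ?_).symm
      rw [Finsupp.notMem_support_iff.mp hw, zero_smul]
    rw [hR, ovR1, smul_smul, mul_inv_cancel₀ hp.ne', one_smul]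
    simp

end Slot

section Density

variable {q : ℝ}

lemma ovF_dependsOn (q : ℝ) : ∀ x k, DependsOn (ovF q x k) ↑(range k)
  | [], k => fun _ _ _ => rfl
  | _ :: x, 0 => fun u v h => by simp only [ovF, ovF_dependsOn q x 0 h]
  | b :: x, k + 1 => fun u v h => by
    have h0 : ovH q b u = ovH q b v := by simp only [ovH, h 0 (by simp)]
    have h1 : ovF q x k (u ∘ fun i => 1 + i) = ovF q x k (v ∘ fun i => 1 + i) :=
      ovF_dependsOn q x k fun i hi => h (1 + i) (by simp at hi ⊢; omega)
    simp only [ovF, ovF_dependsOn q x (k + 1) h, h0, h1]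

lemma ovF_eq_zero (q : ℝ) : ∀ (x : List Bool) k ω, x.length < k → ovF q x k ω = 0
  | [], k, ω, h => by simp at h; simp [ovF]; omega
  | b :: x, 0, ω, h => by simp at h
  | b :: x, k + 1, ω, h => by
    simp at h
    simp [ovF, ovF_eq_zero q x (k + 1) ω (by omega), ovF_eq_zero q x k _ h]

lemma ovF_nonneg (hq0 : 0 < q) (hq1 : q < 1) : ∀ x k ω, 0 ≤ ovF q x k ω
  | [], k, ω => by simp only [ovF]; split_ifs <;> norm_num
  | _ :: x, 0, ω => mul_nonneg (ovE_pos hq0).le (ovF_nonneg hq0 hq1 x 0 ω)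
  | b :: x, k + 1, ω => add_nonneg
      (mul_nonneg (ovE_pos hq0).le (ovF_nonneg hq0 hq1 x (k + 1) ω))
      (mul_nonneg (mul_nonneg (ovP_pos hq0 hq1).1.le (ovH_nonneg hq0 hq1 b ω))
        (ovF_nonneg hq0 hq1 x k _))

lemma ovF_zero (q : ℝ) : ∀ (x : List Bool) ω, ovF q x 0 ω = ovE q ^ x.length
  | [], ω => by simp [ovF]
  | b :: x, ω => by simp [ovF, ovF_zero q x ω, pow_succ']

lemma ovF_false (q : ℝ) : ∀ n k ω, ovF q (List.replicate n false) k ω = Bp (ovP q) n k
  | 0, k, ω => by simp [ovF, Bp_zero_n]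
  | n + 1, 0, ω => by simp [List.replicate_succ, ovF, ovF_false q n, Bp_succ_zero, ovP]
  | n + 1, k + 1, ω => by
    simp [List.replicate_succ, ovF, ovF_false q n, Bp_succ_succ, ovH, ovBit, ovP]; ring

lemma D_slotStr (hq0 : 0 < q) (hq1 : q < 1) : ∀ x : List Bool,
    D q (slotStr x) = ∑ k ∈ range (x.length + 1), piN (ovR q) k (ovF q x k)
  | [] => by simp [slotStr, D_nil, piN_zero, ovF]
  | b :: x => by
    have ih := D_slotStr hq0 hq1 x
    have e : slotStr (b :: x) = (if b then [true] else [false, true]) ++ slotStr x := by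
      simp [slotStr]
    rw [e, D_append, D_slot hq0 hq1, ih, add_mul, smul_mul_assoc, one_mul, smul_mul_assoc, mul_sum,
      List.length_cons, sum_range_succ' _ (x.length + 1)]
    have hk : ∀ k, piN (ovR q) (k + 1) (ovF q (b :: x) (k + 1))
        = ovE q • piN (ovR q) (k + 1) (ovF q x (k + 1))
          + ovP q • (piN (ovR q) 1 (ovH q b) * piN (ovR q) k (ovF q x k)) := by
      intro k
      rw [← piN_concat (ovR q) 1 k (ovH q b) (ovF q x k) (ovH_dependsOn q b) (ovF_dependsOn q x k),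
        Nat.add_comm 1 k, ← piN_smul, ← piN_smul, ← piN_add]
      congr 1
      funext ω
      simp only [ovF]; ring
    simp only [hk, sum_add_distrib]
    have h0 : piN (ovR q) 0 (ovF q (b :: x) 0) = ovE q • piN (ovR q) 0 (ovF q x 0) := by
      rw [← piN_smul]; rfl
    have htop : piN (ovR q) (x.length + 1) (ovF q x (x.length + 1)) = 0 := by
      have : ovF q x (x.length + 1) = fun _ => (0 : ℝ) * 1 := by
        funext ω; rw [ovF_eq_zero q x _ ω (by omega), zero_mul]
      rw [this, piN_smul, zero_smul]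
    rw [h0, ← smul_sum, ← smul_sum, add_right_comm, ← smul_add,
      ← sum_range_succ' (fun k => piN (ovR q) k (ovF q x k)) (x.length + 1),
      sum_range_succ _ (x.length + 1), htop, add_zero]

lemma ovF_first (q : ℝ) : ∀ (x : List Bool) k ω, ovF q x (k + 1) ω
    = ∑ r ∈ range x.length, ovP q * ovE q ^ r * ovH q (x.getD r false) ω
        * ovF q (x.drop (r + 1)) k (ω ∘ fun i => 1 + i)
  | [], k, ω => by simp [ovF]
  | b :: x, k, ω => by
    rw [List.length_cons, sum_range_succ', ovF, ovF_first q x k ω, mul_sum]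
    simp only [List.getD_cons_zero, List.getD_cons_succ, List.drop_succ_cons, pow_zero, mul_one,
      List.drop_zero]
    congr 1
    exact sum_congr rfl fun r _ => by ring

lemma ovGm_nonneg (hq0 : 0 < q) (hq1 : q < 1) (x y : List Bool) (k : ℕ) : 0 ≤ ovGm q x y k :=
  Ew_nonneg (isPM_ovR hq0 hq1).1 _ _ fun ω =>
    mul_nonneg (ovF_nonneg hq0 hq1 x k ω) (ovF_nonneg hq0 hq1 y k ω)

lemma ovGm_zero (q : ℝ) (x y : List Bool) : ovGm q x y 0 = ovE q ^ x.length * ovE q ^ y.length := by
  rw [ovGm, E, range_zero, Ew_empty, ovF_zero, ovF_zero]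

lemma ovGm_succ (hq0 : 0 < q) (hq1 : q < 1) (x y : List Bool) (k : ℕ) :
    ovGm q x y (k + 1) = ∑ r ∈ range x.length, ∑ r' ∈ range y.length,
      (ovP q * ovE q ^ r) * (ovP q * ovE q ^ r') *
        (1 + ovChi x r * ovChi y r' * ovGam q) * ovGm q (x.drop (r + 1)) (y.drop (r' + 1)) k := by
  have e : (fun ω => ovF q x (k + 1) ω * ovF q y (k + 1) ω)
      = fun ω => ∑ r ∈ range x.length, ∑ r' ∈ range y.length,
        ((ovP q * ovE q ^ r) * (ovP q * ovE q ^ r')) •
          ((ovH q (x.getD r false) ω * ovH q (y.getD r' false) ω) *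
            shiftF 1 (fun v => ovF q (x.drop (r + 1)) k v * ovF q (y.drop (r' + 1)) k v) ω) := by
    funext ω
    rw [ovF_first, ovF_first, sum_mul_sum]
    exact sum_congr rfl fun r _ => sum_congr rfl fun r' _ => by
      simp only [shiftF, smul_eq_mul]; ring
  rw [ovGm, e, E, Ew_sum]
  refine sum_congr rfl fun r _ => ?_
  rw [Ew_sum]
  refine sum_congr rfl fun r' _ => ?_
  have hsplit : range (k + 1) = {0} ∪ (range k).image (fun i => 1 + i) := by
    ext i
    simp only [mem_range, mem_union, mem_singleton, mem_image]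
    constructor
    · intro h
      rcases Nat.eq_zero_or_pos i with h0 | h0
      · exact Or.inl h0
      · exact Or.inr ⟨i - 1, by omega, by omega⟩
    · rintro (rfl | ⟨j, hj, rfl⟩) <;> omega
  have hd : Disjoint ({0} : Finset ℕ) ((range k).image (fun i => 1 + i)) := by simp
  have hf : DependsOn (fun ω => ovH q (x.getD r false) ω * ovH q (y.getD r' false) ω)
      ↑({0} : Finset ℕ) := fun u v h => by simp only [ovH, h 0 (by simp)]
  have hg : DependsOn (fun v => ovF q (x.drop (r + 1)) k v * ovF q (y.drop (r' + 1)) k v)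
      ↑(range k) := fun u v h => by
    simp only [ovF_dependsOn q (x.drop (r + 1)) k h, ovF_dependsOn q (y.drop (r' + 1)) k h]
  rw [Ew_smul, smul_eq_mul, hsplit]
  have := E_mul_disjoint (T := ovR q) hd _ _ hf (shiftF_dependsOn hg 1)
  rw [E] at this
  rw [this, E_ovH_mul hq0 hq1, E_shiftF, ← ovGm]
  simp only [ovChi]
  ring

end Density

section Renewal

variable {π : ℝ}

lemma ov_Bp_zero (n : ℕ) : Bp π n 0 = (1 - π) ^ n := by
  induction n with
  | zero => simp [Bp_zero_n]
  | succ n ih => rw [Bp_succ_zero, ih, pow_succ']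

lemma ov_Bp_self (n : ℕ) : Bp π n n = π ^ n := by
  induction n with
  | zero => simp [Bp_zero_n]
  | succ n ih => rw [Bp_succ_succ, ih, Bp_eq_zero n (n + 1) (by omega), pow_succ']; ring

/-- convolution with the waiting time of the first kept slot -/
lemma ov_conv1 (k : ℕ) : ∀ N,
    ∑ r ∈ range N, π * (1 - π) ^ r * Bp π (N - (r + 1)) k = Bp π N (k + 1)
  | 0 => by simp [Bp_zero_n]
  | N + 1 => by
    rw [sum_range_succ', Bp_succ_succ, ← ov_conv1 k N, mul_sum, add_comm]
    congr 1
    · simp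
    · refine sum_congr rfl fun r _ => ?_
      rw [show N + 1 - (r + 1 + 1) = N - (r + 1) by omega, pow_succ]; ring

lemma ov_conv2 (l : ℕ) : ∀ N (f : ℕ → ℝ),
    ∑ r ∈ range N, π * (1 - π) ^ r * ∑ p ∈ range (N - (r + 1)), Bp π p l * f (r + 1 + p)
      = ∑ P ∈ range N, Bp π P (l + 1) * f P
  | 0, f => by simp
  | N + 1, f => by
    rw [sum_range_succ', sum_range_succ' (fun P => Bp π P (l + 1) * f P)]
    have e1 : ∀ r ∈ range N, π * (1 - π) ^ (r + 1) *
        ∑ p ∈ range (N + 1 - (r + 1 + 1)), Bp π p l * f (r + 1 + 1 + p)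
        = (1 - π) * (π * (1 - π) ^ r *
          ∑ p ∈ range (N - (r + 1)), Bp π p l * (fun j => f (j + 1)) (r + 1 + p)) := by
      intro r _
      rw [show N + 1 - (r + 1 + 1) = N - (r + 1) by omega, pow_succ]
      simp only [show ∀ p, r + 1 + 1 + p = r + 1 + p + 1 from fun p => by omega]
      ring
    rw [sum_congr rfl e1, ← mul_sum, ov_conv2 l N (fun j => f (j + 1)), Bp_zero_n,
      if_neg (by omega), zero_mul, add_zero]
    simp only [Bp_succ_succ, pow_zero, mul_one, Nat.add_sub_cancel, zero_add, add_mul,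
      sum_add_distrib, mul_sum, Nat.add_comm 1]
    rw [add_comm]
    congr 1 <;> exact sum_congr rfl fun p _ => by ring

lemma ov_conv22 (l N M : ℕ) (f : ℕ → ℕ → ℝ) :
    ∑ r ∈ range N, ∑ r' ∈ range M, (π * (1 - π) ^ r) * (π * (1 - π) ^ r') *
        ∑ p ∈ range (N - (r + 1)), ∑ p' ∈ range (M - (r' + 1)),
          Bp π p l * Bp π p' l * f (r + 1 + p) (r' + 1 + p')
      = ∑ P ∈ range N, ∑ P' ∈ range M, Bp π P (l + 1) * Bp π P' (l + 1) * f P P' := by
  set F : ℕ → ℝ := fun P => ∑ r' ∈ range M, π * (1 - π) ^ r' *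
    ∑ p' ∈ range (M - (r' + 1)), Bp π p' l * f P (r' + 1 + p') with hF
  have h1 : ∀ r ∈ range N, (∑ r' ∈ range M, (π * (1 - π) ^ r) * (π * (1 - π) ^ r') *
        ∑ p ∈ range (N - (r + 1)), ∑ p' ∈ range (M - (r' + 1)),
          Bp π p l * Bp π p' l * f (r + 1 + p) (r' + 1 + p'))
      = π * (1 - π) ^ r * ∑ p ∈ range (N - (r + 1)), Bp π p l * F (r + 1 + p) := by
    intro r _
    simp only [hF, mul_sum]
    rw [sum_comm]
    exact sum_congr rfl fun p _ => sum_congr rfl fun r' _ => sum_congr rfl fun p' _ => by ring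
  rw [sum_congr rfl h1, ov_conv2 l N F]
  refine sum_congr rfl fun P _ => ?_
  simp only [hF]
  rw [ov_conv2 l M (f P), mul_sum]
  exact sum_congr rfl fun p _ => by ring

end Renewal

section Expansion

variable {q : ℝ}

/-- the correction term of the renewal expansion at depth l -/
noncomputable def ovTerm (q : ℝ) (x y : List Bool) (k l : ℕ) : ℝ :=
  ∑ p ∈ range x.length, ∑ p' ∈ range y.length,
    Bp (ovP q) p l * Bp (ovP q) p' l *
      (ovChi x p * ovChi y p' * ovGm q (x.drop (p + 1)) (y.drop (p' + 1)) (k - (l + 1)))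

lemma ovTerm_drop (q : ℝ) (x y : List Bool) (r r' k l : ℕ) :
    ovTerm q (x.drop (r + 1)) (y.drop (r' + 1)) k l
      = ∑ p ∈ range (x.length - (r + 1)), ∑ p' ∈ range (y.length - (r' + 1)),
        Bp (ovP q) p l * Bp (ovP q) p' l *
          (fun P P' => ovChi x P * ovChi y P' *
            ovGm q (x.drop (P + 1)) (y.drop (P' + 1)) (k - (l + 1))) (r + 1 + p) (r' + 1 + p') := by
  simp only [ovTerm, List.length_drop, List.drop_drop, ovChi, List.getD_eq_getElem?_getD,
    List.getElem?_drop]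
  refine sum_congr rfl fun p _ => sum_congr rfl fun p' _ => ?_
  simp only [show r + 1 + (p + 1) = r + 1 + p + 1 by omega,
    show r' + 1 + (p' + 1) = r' + 1 + p' + 1 by omega]

/-- renewal expansion of the second moments -/
lemma ovGm_expand (hq0 : 0 < q) (hq1 : q < 1) : ∀ (k : ℕ) (x y : List Bool),
    ovGm q x y k = Bp (ovP q) x.length k * Bp (ovP q) y.length k
      + ovGam q * ovP q ^ 2 * ∑ l ∈ range k, ovTerm q x y k l := by
  have hE : 1 - ovP q = ovE q := by simp [ovP]
  intro k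
  induction k with
  | zero =>
    intro x y
    rw [ovGm_zero, ov_Bp_zero, ov_Bp_zero, hE, range_zero, sum_empty, mul_zero, add_zero]
  | succ k ih =>
    intro x y
    rw [ovGm_succ hq0 hq1]
    set a : ℕ → ℝ := fun r => ovP q * (1 - ovP q) ^ r with ha
    set c := ovGam q * ovP q ^ 2 with hc
    have step : ∀ r r', (ovP q * ovE q ^ r) * (ovP q * ovE q ^ r') *
        (1 + ovChi x r * ovChi y r' * ovGam q) * ovGm q (x.drop (r + 1)) (y.drop (r' + 1)) k
        = (a r * Bp (ovP q) (x.length - (r + 1)) k) * (a r' * Bp (ovP q) (y.length - (r' + 1)) k)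
          + c * (Bp (ovP q) r 0 * Bp (ovP q) r' 0 * (ovChi x r * ovChi y r' *
              ovGm q (x.drop (r + 1)) (y.drop (r' + 1)) (k + 1 - (0 + 1))))
          + c * ∑ l ∈ range k, a r * a r' * ovTerm q (x.drop (r + 1)) (y.drop (r' + 1)) k l := by
      intro r r'
      rw [← mul_sum]
      have := ih (x.drop (r + 1)) (y.drop (r' + 1))
      simp only [List.length_drop] at this
      simp only [ha, hc, ov_Bp_zero, hE, zero_add, Nat.add_sub_cancel]
      linear_combination (ovP q * ovE q ^ r) * (ovP q * ovE q ^ r') * this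
    simp only [step, sum_add_distrib]
    have h1 : ∑ r ∈ range x.length, ∑ r' ∈ range y.length,
        (a r * Bp (ovP q) (x.length - (r + 1)) k) * (a r' * Bp (ovP q) (y.length - (r' + 1)) k)
        = Bp (ovP q) x.length (k + 1) * Bp (ovP q) y.length (k + 1) := by
      rw [← sum_mul_sum, ha, ov_conv1, ov_conv1]
    rw [h1, sum_range_succ' _ k, mul_add, ← add_assoc]
    have h2 : ∑ r ∈ range x.length, ∑ r' ∈ range y.length, c * (Bp (ovP q) r 0 * Bp (ovP q) r' 0 *
        (ovChi x r * ovChi y r' *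
          ovGm q (x.drop (r + 1)) (y.drop (r' + 1)) (k + 1 - (0 + 1))))
        = c * ovTerm q x y (k + 1) 0 := by
      simp only [ovTerm, mul_sum]
    have h3 : ∑ r ∈ range x.length, ∑ r' ∈ range y.length,
        c * ∑ l ∈ range k, a r * a r' * ovTerm q (x.drop (r + 1)) (y.drop (r' + 1)) k l
        = c * ∑ l ∈ range k, ovTerm q x y (k + 1) (l + 1) := by
      simp only [← mul_sum (range k), ← mul_sum (range y.length), ← mul_sum (range x.length)]
      congr 1
      simp only [mul_sum]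
      rw [sum_congr rfl fun r _ => sum_comm, sum_comm]
      refine sum_congr rfl fun l _ => ?_
      simp only [ovTerm_drop, ha]
      rw [ov_conv22 (π := ovP q) l x.length y.length (fun P P' => ovChi x P * ovChi y P' *
            ovGm q (x.drop (P + 1)) (y.drop (P' + 1)) (k - (l + 1)))]
      simp only [ovTerm, show k + 1 - (l + 1 + 1) = k - (l + 1) by omega]
    rw [h2, h3]
    ring

lemma E_ovF (hq0 : 0 < q) (hq1 : q < 1) (x : List Bool) (k : ℕ) :
    E (ovR q) (range k) (ovF q x k) = Bp (ovP q) x.length k := by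
  have h := ovGm_expand hq0 hq1 k x (List.replicate k false)
  have hz : ∀ l, ovTerm q x (List.replicate k false) k l = 0 := fun l =>
    sum_eq_zero fun p _ => sum_eq_zero fun p' hp' => by
      simp at hp'
      simp [ovChi, ovBit, List.getD_eq_getElem?_getD, hp']
  simp only [hz, sum_const_zero, mul_zero, add_zero, List.length_replicate, ov_Bp_self] at h
  have e : ovGm q x (List.replicate k false) k = E (ovR q) (range k) (ovF q x k) * ovP q ^ k := by
    rw [ovGm, mul_comm]
    simp only [ovF_false, ov_Bp_self, mul_comm (ovF q x k _)]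
    exact Ew_smul (ovR q) (range k) (ovF q x k) om0 (ovP q ^ k)
  rw [e] at h
  exact mul_right_cancel₀ (pow_ne_zero _ (ovP_pos hq0 hq1).1.ne') h

end Expansion

end Vale.Agent.P321
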