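import Mathlib
import Vale.Agent.P321.Defs
import Vale.Agent.P321.Binom
import Vale.Agent.P321.OverlapF
import Vale.Agent.P321.OverlapBound

/-
P321, module Overlap: a periodic 01 string with sparse landmarks is close to the pure string.
-/

open scoped BigOperators
open Finset

namespace Vale.Agent.P321

section Norm

variable {q : ℝ}

lemma slotStr_replicate (n : ℕ) :
    D q (slotStr (List.replicate n false)) = D q [false, true] ^ n := by
  induction n with
  | zero => simp [slotStr, D_nil]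
  | succ n ih =>
    have e : slotStr (List.replicate (n + 1) false)
        = [false, true] ++ slotStr (List.replicate n false) := by
      simp [slotStr, List.replicate_succ]
    rw [e, D_append, ih, pow_succ']

lemma nrm_slot_le (hq0 : 0 < q) (hq1 : q < 1) (x : List Bool) :
    nrm (D q (slotStr x) - D q [false, true] ^ x.length) ≤ ∑ k ∈ range (x.length + 1),
      E (ovR q) (range k) (fun ω => |ovF q x k ω - Bp (ovP q) x.length k|) := by
  rw [← slotStr_replicate, D_slotStr hq0 hq1, D_slotStr hq0 hq1, List.length_replicate,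
    ← sum_sub_distrib]
  refine (nrm_sum_le _ _).trans (sum_le_sum fun k _ => ?_)
  have e : piN (ovR q) k (ovF q x k) - piN (ovR q) k (ovF q (List.replicate x.length false) k)
      = piN (ovR q) k (fun ω => ovF q x k ω - Bp (ovP q) x.length k) := by
    rw [eq_comm, eq_sub_iff_add_eq, ← piN_add]
    congr 1
    funext ω
    rw [ovF_false, sub_add_cancel]
  rw [e]
  exact nrm_piN_le (isPM_ovR hq0 hq1).1 _ _

lemma dev_le_two (hq0 : 0 < q) (hq1 : q < 1) (x : List Bool) (k : ℕ) :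
    E (ovR q) (range k) (fun ω => |ovF q x k ω - Bp (ovP q) x.length k|)
      ≤ 2 * Bp (ovP q) x.length k := by
  obtain ⟨hp0, hp1⟩ := ovP_pos hq0 hq1
  have hb := Bp_nonneg hp0.le hp1.le x.length k
  refine (Ew_mono (isPM_ovR hq0 hq1).1 _ _ (G := fun ω => ovF q x k ω + Bp (ovP q) x.length k)
    fun ω => ?_).trans (le_of_eq ?_)
  · have := ovF_nonneg hq0 hq1 x k ω
    rw [abs_le]; constructor <;> linarith
  · rw [Ew_add, Ew_const (ovR q) _ om0 (isPM_ovR hq0 hq1).1, ← E, E_ovF hq0 hq1]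
    ring

lemma var_eq (hq0 : 0 < q) (hq1 : q < 1) (x : List Bool) (k : ℕ) :
    E (ovR q) (range k) (fun ω => (ovF q x k ω - Bp (ovP q) x.length k) ^ 2)
      = ovGm q x x k - Bp (ovP q) x.length k * Bp (ovP q) x.length k := by
  set b := Bp (ovP q) x.length k with hb
  have e : (fun ω => (ovF q x k ω - b) ^ 2)
      = fun ω => (ovF q x k ω * ovF q x k ω + (-2 * b) • ovF q x k ω) + b * b := by
    funext ω; rw [smul_eq_mul]; ring
  rw [e, E, Ew_add, Ew_add, Ew_const (ovR q) _ om0 (isPM_ovR hq0 hq1).1, Ew_smul, ← E, ← E,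
    E_ovF hq0 hq1, ← ovGm, smul_eq_mul, ← hb]
  ring

lemma dev_sq_le (hq0 : 0 < q) (hq1 : q < 1) (x : List Bool) (k : ℕ) :
    E (ovR q) (range k) (fun ω => |ovF q x k ω - Bp (ovP q) x.length k|) ^ 2
      ≤ ovGm q x x k - Bp (ovP q) x.length k * Bp (ovP q) x.length k := by
  have hT := (isPM_ovR hq0 hq1).1
  set f := fun ω => ovF q x k ω - Bp (ovP q) x.length k with hf
  set w := E (ovR q) (range k) (fun ω => f ω ^ 2) with hw
  have hw0 : 0 ≤ w := Ew_nonneg hT _ _ fun ω => sq_nonneg _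
  have hbd : Bd (ovR q) 1 (range k) f (Real.sqrt w) := by
    refine ⟨Real.sqrt_nonneg _, ?_⟩
    rw [mul_one, Real.sq_sqrt hw0]
  have h0 : 0 ≤ E (ovR q) (range k) (fun ω => |f ω|) := Ew_nonneg hT _ _ fun ω => abs_nonneg _
  calc E (ovR q) (range k) (fun ω => |f ω|) ^ 2 ≤ Real.sqrt w ^ 2 :=
        pow_le_pow_left₀ h0 (hbd.abs_le hT le_rfl) 2
    _ = _ := by rw [Real.sq_sqrt hw0, hw, hf, var_eq hq0 hq1]

end Norm

section Psi

variable {q : ℝ}

/-- second moments summed over the number of kept slots -/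
noncomputable def ovPsi (q : ℝ) (x : List Bool) (i j : ℕ) : ℝ :=
  ∑ k ∈ range (x.length + 1), ovGm q (x.drop i) (x.drop j) k

lemma ov_conv_le {n : ℕ} {f g : ℕ → ℝ} (hf : ∀ i, 0 ≤ f i) (hg : ∀ i, 0 ≤ g i) :
    ∑ k ∈ range n, ∑ l ∈ range k, f l * g (k - (l + 1))
      ≤ (∑ l ∈ range n, f l) * ∑ k ∈ range n, g k := by
  calc ∑ k ∈ range n, ∑ l ∈ range k, f l * g (k - (l + 1))
      = ∑ l ∈ range n, ∑ k ∈ Ico (l + 1) n, f l * g (k - (l + 1)) := by
        refine sum_comm' fun k l => ?_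
        simp only [mem_range, mem_Ico]
        omega
    _ ≤ _ := by
        rw [sum_mul]
        refine sum_le_sum fun l _ => ?_
        rw [← mul_sum]
        refine mul_le_mul_of_nonneg_left ?_ (hf l)
        rw [sum_Ico_eq_sum_range]
        simp only [Nat.add_sub_cancel_left]
        exact sum_le_sum_of_subset_of_nonneg (range_subset_range.mpr (by omega)) fun k _ _ => hg k

lemma ov_sum_chi (x : List Bool) (P : Finset ℕ)
    (hP : P = (range x.length).filter (fun p => x.getD p false = true)) (i : ℕ) (F : ℕ → ℝ) :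
    ∑ p ∈ range (x.length - i), ovChi x (i + p) * F (i + p)
      = ∑ p ∈ P.filter (fun p => i ≤ p), F p := by
  rw [← sum_Ico_eq_sum_range (fun p => ovChi x p * F p) i x.length]
  have e : P.filter (fun p => i ≤ p) = (Ico i x.length).filter (fun p => x.getD p false = true) := by
    subst hP
    ext p
    simp only [mem_filter, mem_range, mem_Ico]
    tauto
  rw [e, sum_filter]
  exact sum_congr rfl fun p _ => by simp only [ovChi, ovBit, ite_mul, one_mul, zero_mul]

lemma ovPsi_rec (hq0 : 0 < q) (hq1 : q < 1) (x : List Bool) (P : Finset ℕ)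
    (hP : P = (range x.length).filter (fun p => x.getD p false = true)) (i j : ℕ) :
    ovPsi q x i j ≤ ovU (ovP q) x.length (x.length - i) (x.length - j)
      + ovGam q * ∑ p ∈ P.filter (fun p => i ≤ p), ∑ p' ∈ P.filter (fun p => j ≤ p),
          ovU (ovP q) x.length (p - i) (p' - j) * ovPsi q x (p + 1) (p' + 1) := by
  obtain ⟨hp0, hp1⟩ := ovP_pos hq0 hq1
  set π := ovP q with hπ
  set N := x.length with hN
  have hBp := Bp_nonneg hp0.le hp1.le
  have hchi : ∀ y p, 0 ≤ ovChi y p := fun y p => ovBit_nonneg _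
  have hterm : ∀ k l, ovTerm q (x.drop i) (x.drop j) k l
      = ∑ p ∈ P.filter (fun p => i ≤ p), ∑ p' ∈ P.filter (fun p => j ≤ p),
          Bp π (p - i) l * Bp π (p' - j) l
            * ovGm q (x.drop (p + 1)) (x.drop (p' + 1)) (k - (l + 1)) := by
    intro k l
    rw [← ov_sum_chi x P hP i]
    simp only [← ov_sum_chi x P hP j, ovTerm, List.length_drop, List.drop_drop, mul_sum]
    refine sum_congr rfl fun p _ => sum_congr rfl fun p' _ => ?_
    simp only [ovChi, List.getD_eq_getElem?_getD, List.getElem?_drop, Nat.add_sub_cancel_left,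
      ← add_assoc, hπ]
    ring
  set Z := ∑ p ∈ P.filter (fun p => i ≤ p), ∑ p' ∈ P.filter (fun p => j ≤ p),
    ovU π N (p - i) (p' - j) * ovPsi q x (p + 1) (p' + 1) with hZ
  have hZ0 : 0 ≤ Z := sum_nonneg fun p _ => sum_nonneg fun p' _ =>
    mul_nonneg (ovU_nonneg hp0.le hp1.le _ _ _) (sum_nonneg fun k _ => ovGm_nonneg hq0 hq1 _ _ k)
  have hmain : ∑ k ∈ range (N + 1), ∑ l ∈ range k, ovTerm q (x.drop i) (x.drop j) k l ≤ Z := by
    simp only [hterm]
    rw [sum_congr rfl fun k _ => sum_comm, sum_comm]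
    refine sum_le_sum fun p _ => ?_
    rw [sum_congr rfl fun k _ => sum_comm, sum_comm]
    refine sum_le_sum fun p' _ => ?_
    exact ov_conv_le (f := fun l => Bp π (p - i) l * Bp π (p' - j) l)
      (g := fun k => ovGm q (x.drop (p + 1)) (x.drop (p' + 1)) k)
      (fun l => mul_nonneg (hBp _ _) (hBp _ _)) (fun k => ovGm_nonneg hq0 hq1 _ _ k)
  have e : ovPsi q x i j = ovU π N (N - i) (N - j) + ovGam q * π ^ 2 *
      ∑ k ∈ range (N + 1), ∑ l ∈ range k, ovTerm q (x.drop i) (x.drop j) k l := by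
    simp only [ovPsi, ovGm_expand hq0 hq1, List.length_drop, sum_add_distrib, ← mul_sum, ovU,
      hπ, hN]
  rw [e]
  refine add_le_add_right ((mul_le_mul_of_nonneg_left hmain (mul_nonneg (ovGam_nonneg hq0 hq1)
    (sq_nonneg _))).trans ?_) _
  rw [mul_assoc]
  refine mul_le_mul_of_nonneg_left (mul_le_of_le_one_left hZ0 ?_) (ovGam_nonneg hq0 hq1)
  exact pow_le_one₀ hp0.le hp1.le

end Psi

/-- a periodic 01 string with sparse landmarks is close to the pure string -/
theorem slot_overlap {q : ℝ} (hq0 : 0 < q) (hq1 : q < 1) :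
    ∃ c : ℝ, 0 < c ∧ ∀ (x : List Bool) (S h : ℕ) (P : Finset ℕ) (t : ℝ),
      0 < S → P = (range x.length).filter (fun p => x.getD p false = true) → Spaced S P →
      (∀ p ∈ P, S ≤ p + 1 ∧ S + p ≤ x.length) → P.card ≤ h → 1 ≤ t →
      c * (Real.sqrt ((h : ℝ) / S) + (h : ℝ) / S) ≤ 1 →
      nrm (D q (slotStr x) - D q [false, true] ^ x.length)
        ≤ 2 / t ^ 2 + c * Real.sqrt (t * (Real.sqrt ((h : ℝ) / S) + (h : ℝ) / S)) := by
  obtain ⟨hp0, hp1⟩ := ovP_pos hq0 hq1
  set π := ovP q with hπ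
  set γ := ovGam q with hγ'
  have hγ : 0 ≤ γ := ovGam_nonneg hq0 hq1
  obtain ⟨c0, hc0, hpk⟩ := Bp_peak hp0 hp1
  set c1 := c0 + 2 * c0 / Real.sqrt π + 2 / π with hc1
  have ha : 0 ≤ 2 * c0 / Real.sqrt π := by positivity
  have hb : 0 ≤ 2 / π := by positivity
  have hc10 : 0 ≤ c1 := by positivity
  set c := 4 * γ * c1 + Real.sqrt (36 * γ * c1 ^ 2) + 1 with hc
  have hcc : 4 * γ * c1 ≤ c := by
    have := Real.sqrt_nonneg (36 * γ * c1 ^ 2)
    linarith
  refine ⟨c, by positivity, fun x S h P t hS hP hsp hm hh ht hX => ?_⟩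
  have hX0 : 0 ≤ ovX h S := by simp only [ovX]; positivity
  rw [show Real.sqrt ((h : ℝ) / S) + (h : ℝ) / S = ovX h S from rfl] at hX ⊢
  set N := x.length with hN
  set b : ℕ → ℝ := fun k => Bp π N k with hbdef
  set a : ℕ → ℝ := fun k => E (ovR q) (range k) (fun ω => |ovF q x k ω - b k|) with hadef
  refine (nrm_slot_le hq0 hq1 x).trans ?_
  show ∑ k ∈ range (N + 1), a k ≤ _
  rcases Nat.eq_zero_or_pos N with hN0 | hN0
  · have hnil : x = [] := List.length_eq_zero_iff.mp hN0
    have : a 0 = 0 := by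
      simp only [hadef, hbdef, range_zero, E, Ew_empty, hN0, Bp_zero_n, hnil, ovF]
      simp
    rw [hN0, sum_range_one, this]
    positivity
  have ht0 : (0 : ℝ) < t := by linarith
  have hNr : (1 : ℝ) ≤ (N : ℝ) := by exact_mod_cast hN0
  set r := t * Real.sqrt N with hr
  have hr0 : 0 < r := mul_pos ht0 (Real.sqrt_pos.mpr (by linarith))
  set I := (range (N + 1)).filter (fun k : ℕ => |(k : ℝ) - π * N| ≤ r) with hI
  set O := (range (N + 1)).filter (fun k : ℕ => ¬|(k : ℝ) - π * N| ≤ r) with hO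
  -- the far terms
  have hout : ∑ k ∈ O, a k ≤ 2 / t ^ 2 := by
    calc ∑ k ∈ O, a k ≤ ∑ k ∈ O, 2 * (b k * ((((k : ℕ) : ℝ) - π * N) ^ 2 / r ^ 2)) := by
          refine sum_le_sum fun k hk => (dev_le_two hq0 hq1 x k).trans ?_
          refine mul_le_mul_of_nonneg_left ?_ zero_le_two
          refine le_mul_of_one_le_right (Bp_nonneg hp0.le hp1.le _ _) ?_
          rw [one_le_div (by positivity), ← sq_abs ((k : ℝ) - π * N)]
          exact pow_le_pow_left₀ hr0.le (not_le.mp (mem_filter.mp hk).2).le 2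
      _ ≤ ∑ k ∈ range (N + 1), 2 * (b k * ((((k : ℕ) : ℝ) - π * N) ^ 2 / r ^ 2)) :=
          sum_le_sum_of_subset_of_nonneg (filter_subset _ _) fun k _ _ =>
            mul_nonneg zero_le_two (mul_nonneg (Bp_nonneg hp0.le hp1.le _ _) (by positivity))
      _ ≤ 2 * Bexp π N (fun j : ℕ => ((j : ℝ) - π * N) ^ 2 / r ^ 2) := by
          rw [← mul_sum]
          exact mul_le_mul_of_nonneg_left
            (sum_Bp_mul_le hp0.le hp1.le N _ _ fun j => by positivity) zero_le_two
      _ = 2 * (π * (1 - π)) / t ^ 2 := by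
          simp only [div_eq_inv_mul _ (r ^ 2)]
          rw [Bexp_smul, Bexp_variance, hr, mul_pow, Real.sq_sqrt (by linarith)]
          field_simp
      _ ≤ 2 / t ^ 2 := by
          refine div_le_div_of_nonneg_right (mul_le_of_le_one_right zero_le_two ?_) (sq_nonneg t)
          nlinarith
  -- the central terms
  have hcard : (I.card : ℝ) ≤ 3 * r := by
    have hsub : I ⊆ Icc ⌈π * N - r⌉₊ ⌊π * N + r⌋₊ := by
      intro k hk
      obtain ⟨h1, h2⟩ := abs_le.mp (mem_filter.mp hk).2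
      exact mem_Icc.mpr ⟨Nat.ceil_le.mpr (by linarith), Nat.le_floor (by linarith)⟩
    refine (show (I.card : ℝ) ≤ ((Icc ⌈π * N - r⌉₊ ⌊π * N + r⌋₊).card : ℝ) by
      exact_mod_cast card_le_card hsub).trans ?_
    rw [Nat.card_Icc]
    have h1 := Nat.le_ceil (π * N - r)
    have h2 := Nat.floor_le (show 0 ≤ π * N + r by positivity)
    have hr1 : 1 ≤ r := one_le_mul_of_one_le_of_one_le ht (Real.one_le_sqrt.mpr hNr)
    rcases Nat.lt_or_ge (⌊π * N + r⌋₊ + 1) ⌈π * N - r⌉₊ with hlt | hge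
    · rw [Nat.sub_eq_zero_of_le hlt.le, Nat.cast_zero]; linarith
    · rw [Nat.cast_sub hge]; push_cast; linarith
  have hB := ov_renewal (π := π) (c := c0) (c1 := c1) (γ := γ) hp0 hp1 hc0 hpk (by linarith)
    (by linarith) (by linarith) hγ N S h hS P hsp hm hh
    ((mul_le_mul_of_nonneg_right hcc hX0).trans hX) (ovPsi q x)
    (fun i j => sum_nonneg fun k _ => ovGm_nonneg hq0 hq1 _ _ k)
    (fun i _ j _ => ovPsi_rec hq0 hq1 x P hP i j)
  set V := ovPsi q x 0 0 - ovU π N N N with hV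
  have hV' : V = ∑ k ∈ range (N + 1), (ovGm q x x k - b k * b k) := by
    simp only [hV, ovPsi, ovU, List.drop_zero, sum_sub_distrib, hbdef, hN]
  have hsq : ∑ k ∈ I, a k ^ 2 ≤ V := by
    rw [hV']
    refine (sum_le_sum_of_subset_of_nonneg (filter_subset _ _)
      fun k _ _ => sq_nonneg (a k)).trans (sum_le_sum fun k _ => dev_sq_le hq0 hq1 x k)
  have hV0 : 0 ≤ V := (sum_nonneg fun k _ => sq_nonneg (a k)).trans hsq
  have hNV : Real.sqrt N * V ≤ 12 * γ * c1 ^ 2 * ovX h S :=
    (mul_le_mul_of_nonneg_right (Real.sqrt_le_sqrt (by linarith)) hV0).trans hB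
  have hin : ∑ k ∈ I, a k ≤ c * Real.sqrt (t * ovX h S) := by
    have h36 : (∑ k ∈ I, a k) ^ 2 ≤ 36 * γ * c1 ^ 2 * (t * ovX h S) :=
      calc (∑ k ∈ I, a k) ^ 2 ≤ (I.card : ℝ) * ∑ k ∈ I, a k ^ 2 := sq_sum_le_card_mul_sum_sq
        _ ≤ 3 * r * V := mul_le_mul hcard hsq (sum_nonneg fun k _ => sq_nonneg _) (by positivity)
        _ = 3 * t * (Real.sqrt N * V) := by rw [hr]; ring
        _ ≤ 3 * t * (12 * γ * c1 ^ 2 * ovX h S) := mul_le_mul_of_nonneg_left hNV (by positivity)
        _ = _ := by ring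
    refine (Real.le_sqrt_of_sq_le h36).trans ?_
    rw [Real.sqrt_mul (by positivity)]
    refine mul_le_mul_of_nonneg_right ?_ (Real.sqrt_nonneg _)
    have : 0 ≤ 4 * γ * c1 := by positivity
    linarith
  rw [← sum_filter_add_sum_filter_not (range (N + 1)) (fun k : ℕ => |(k : ℝ) - π * N| ≤ r), ← hI,
    ← hO]
  linarith

end Vale.Agent.P321
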