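import Mathlib
import Vale.Agent.P321.Overlap

/-
Two consecutive powers of the unit law share a part of constant mass after O(L) units.
-/

open scoped BigOperators
open Finset

namespace Vale.Agent.P321

/-- coefficientwise absolute value -/
noncomputable def us_abs (f : Alg) : Alg := ∑ w ∈ f.coeff.support, |f.coeff w| • pt w

lemma us_abs_coeff (f : Alg) (w : W) : (us_abs f).coeff w = |f.coeff w| := by
  classical
  rw [us_abs, MonoidAlgebra.coeff_sum, Finsupp.finsetSum_apply]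
  simp only [MonoidAlgebra.coeff_smul_apply, coeff_pt, smul_eq_mul, mul_ite, mul_one, mul_zero]
  rw [Finset.sum_ite_eq']
  by_cases h : w ∈ f.coeff.support
  · rw [if_pos h]
  · rw [if_neg h, Finsupp.notMem_support_iff.mp h, abs_zero]

lemma us_abs_mass (f : Alg) : mass (us_abs f) = nrm f := by
  rw [us_abs, mass_eq, map_sum]
  simp only [← mass_eq, mass_smul, mass_pt, mul_one]
  rfl

/-- two probability measures at distance at most 1/2 share mass 3/4 -/
lemma us_common {A B : Alg} (hA : IsPM A) (hB : IsPM B) (h : nrm (A - B) ≤ 1 / 2) :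
    ∃ C, Nonneg C ∧ Nonneg (A - C) ∧ Nonneg (B - C) ∧ 3 / 4 ≤ mass C := by
  refine ⟨(1 / 2 : ℝ) • (A + B - us_abs (A - B)), fun w => ?_, fun w => ?_, fun w => ?_, ?_⟩
  · have ha := hA.1 w
    have hb := hB.1 w
    have : |A.coeff w - B.coeff w| ≤ A.coeff w + B.coeff w := abs_le.mpr ⟨by linarith, by linarith⟩
    simp only [MonoidAlgebra.coeff_smul_apply, MonoidAlgebra.coeff_sub, MonoidAlgebra.coeff_add,
      Finsupp.sub_apply, Finsupp.add_apply, us_abs_coeff, smul_eq_mul]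
    linarith
  · have := neg_abs_le (A.coeff w - B.coeff w)
    simp only [MonoidAlgebra.coeff_smul_apply, MonoidAlgebra.coeff_sub, MonoidAlgebra.coeff_add,
      Finsupp.sub_apply, Finsupp.add_apply, us_abs_coeff, smul_eq_mul]
    linarith
  · have := le_abs_self (A.coeff w - B.coeff w)
    simp only [MonoidAlgebra.coeff_smul_apply, MonoidAlgebra.coeff_sub, MonoidAlgebra.coeff_add,
      Finsupp.sub_apply, Finsupp.add_apply, us_abs_coeff, smul_eq_mul]
    linarith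
  · rw [mass_smul, mass_sub, mass_add, us_abs_mass, hA.2, hB.2]
    linarith

lemma us_mul_le {A A' C C' : Alg} (hA' : Nonneg A') (hC : Nonneg C) (h : Nonneg (A - C))
    (h' : Nonneg (A' - C')) : Nonneg (A * A' - C * C') := by
  have e : A * A' - C * C' = (A - C) * A' + C * (A' - C') := by noncomm_ring
  rw [e]
  exact (h.mul hA').add (hC.mul h')

/-- the slots from `a` on, of the periodic slot sequence of period `S0` -/
def us_seg (S0 a m : ℕ) : List Bool :=
  (List.range m).map fun j => decide ((a + j) % S0 = S0 - 1)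

lemma us_seg_append (S0 a m n : ℕ) :
    us_seg S0 a (m + n) = us_seg S0 a m ++ us_seg S0 (a + m) n := by
  rw [us_seg, List.range_add, List.map_append, List.map_map]
  simp [us_seg, Function.comp_def, Nat.add_assoc]

lemma us_seg_shift (S0 a k m : ℕ) : us_seg S0 (a + k * S0) m = us_seg S0 a m := by
  refine List.map_congr_left fun j _ => ?_
  rw [Nat.add_right_comm, Nat.add_mul_mod_self_right]

lemma us_seg_unit (L : ℕ) : us_seg (L + 1) 0 (L + 1) = List.replicate L false ++ [true] := by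
  rw [us_seg, List.range_succ, List.map_append]
  congr 1
  · refine List.eq_replicate_iff.mpr ⟨by simp, ?_⟩
    intro b hb
    obtain ⟨j, hj, rfl⟩ := List.mem_map.mp hb
    rw [List.mem_range] at hj
    simp [Nat.mod_eq_of_lt (by omega : j < L + 1)]
    omega
  · simp

lemma us_D_slot_append (q : ℝ) (x y : List Bool) :
    D q (slotStr (x ++ y)) = D q (slotStr x) * D q (slotStr y) := by
  rw [slotStr, List.flatMap_append, D_append]; rfl

lemma us_pow_unit (q : ℝ) (L n : ℕ) :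
    D q (unitStr L) ^ n = D q (slotStr (us_seg (L + 1) 0 (n * (L + 1)))) := by
  induction n with
  | zero => simp [us_seg, slotStr, D_nil]
  | succ n ih =>
    rw [pow_succ, ih, Nat.succ_mul, us_seg_append, us_D_slot_append]
    congr 2
    rw [us_seg_shift, us_seg_unit]
    rfl

lemma us_landmarks (S0 a m : ℕ) :
    (range (us_seg S0 a m).length).filter (fun p => (us_seg S0 a m).getD p false = true)
      = (range m).filter (fun p => (a + p) % S0 = S0 - 1) := by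
  rw [us_seg, List.length_map, List.length_range]
  refine filter_congr fun p hp => ?_
  rw [mem_range] at hp
  rw [List.getD_eq_getElem _ _ (by simpa using hp)]
  simp

/-- a segment whose ends are away from the landmarks is close to the pure string -/
lemma us_seg_close {q c : ℝ}
    (hover : ∀ (x : List Bool) (S h : ℕ) (P : Finset ℕ) (t : ℝ),
      0 < S → P = (range x.length).filter (fun p => x.getD p false = true) → Spaced S P →
      (∀ p ∈ P, S ≤ p + 1 ∧ S + p ≤ x.length) → P.card ≤ h → 1 ≤ t →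
      c * (Real.sqrt ((h : ℝ) / S) + (h : ℝ) / S) ≤ 1 →
      nrm (D q (slotStr x) - D q [false, true] ^ x.length)
        ≤ 2 / t ^ 2 + c * Real.sqrt (t * (Real.sqrt ((h : ℝ) / S) + (h : ℝ) / S)))
    {S0 S h0 a m : ℕ} (t : ℝ) (ht : 1 ≤ t) (hS : 0 < S) (hS0 : 2 * S ≤ S0)
    (ha : a % S0 + S ≤ S0) (hb : S ≤ (a + m) % S0) (hm : m ≤ (h0 + 2) * S0)
    (hr : c * (Real.sqrt (((h0 + 4 : ℕ) : ℝ) / S) + ((h0 + 4 : ℕ) : ℝ) / S) ≤ 1) :
    nrm (D q (slotStr (us_seg S0 a m)) - D q [false, true] ^ m)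
      ≤ 2 / t ^ 2 +
        c * Real.sqrt (t * (Real.sqrt (((h0 + 4 : ℕ) : ℝ) / S) + ((h0 + 4 : ℕ) : ℝ) / S)) := by
  have hlen : (us_seg S0 a m).length = m := by simp [us_seg]
  have key := hover (us_seg S0 a m) S (h0 + 4)
    ((range m).filter (fun p => (a + p) % S0 = S0 - 1)) t hS (us_landmarks S0 a m).symm
    ?_ ?_ ?_ ht hr
  · rwa [hlen] at key
  · intro x hx y hy hxy
    simp only [mem_filter, mem_range] at hx hy
    have e1 := Nat.div_add_mod (a + x) S0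
    have e2 := Nat.div_add_mod (a + y) S0
    rw [hx.2] at e1
    rw [hy.2] at e2
    have hlt : (a + x) / S0 < (a + y) / S0 := by
      rcases Nat.lt_or_ge ((a + x) / S0) ((a + y) / S0) with h | h
      · exact h
      · have := Nat.mul_le_mul_left S0 h; omega
    have := Nat.mul_le_mul_left S0 (Nat.succ_le_of_lt hlt)
    rw [Nat.mul_succ] at this
    omega
  · intro p hp
    simp only [mem_filter, mem_range] at hp
    rw [hlen]
    have e1 := Nat.div_add_mod (a + p) S0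
    rw [hp.2] at e1
    have e2 := Nat.div_add_mod a S0
    have e3 := Nat.div_add_mod (a + m) S0
    constructor
    · have h1 : a / S0 ≤ (a + p) / S0 := Nat.div_le_div_right (by omega)
      have := Nat.mul_le_mul_left S0 h1
      omega
    · have h1 : (a + p) / S0 < (a + m) / S0 := by
        rcases Nat.lt_or_ge ((a + p) / S0) ((a + m) / S0) with h | h
        · exact h
        · have := Nat.mul_le_mul_left S0 h
          have := Nat.mod_lt (a + m) (show 0 < S0 by omega)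
          omega
      have := Nat.mul_le_mul_left S0 (Nat.succ_le_of_lt h1)
      rw [Nat.mul_succ] at this
      omega
  · refine (card_le_card_of_injOn (fun p => (a + p) / S0) (t := Icc (a / S0) (a / S0 + (h0 + 3)))
      ?_ ?_).trans (by simp [Nat.card_Icc]; omega)
    · intro p hp
      simp only [coe_filter, mem_range, Set.mem_setOf_eq] at hp
      simp only [coe_Icc, Set.mem_Icc]
      refine ⟨Nat.div_le_div_right (by omega), Nat.le_of_lt_succ ?_⟩
      rw [Nat.div_lt_iff_lt_mul (show 0 < S0 by omega)]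
      have e2 := Nat.div_add_mod a S0
      have := Nat.mod_lt a (show 0 < S0 by omega)
      rw [Nat.succ_mul, Nat.add_mul, Nat.add_mul, Nat.mul_comm (a / S0)]
      rw [Nat.add_mul] at hm
      omega
    · intro x hx y hy hxy
      simp only [coe_filter, mem_range, Set.mem_setOf_eq] at hx hy
      have e1 := Nat.div_add_mod (a + x) S0
      have e2 := Nat.div_add_mod (a + y) S0
      simp only at hxy
      rw [hxy, hx.2] at e1
      rw [hy.2] at e2
      omega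

/-- product of the common parts of consecutive segments of two cuttings -/
lemma us_chain {q : ℝ} (hq0 : 0 ≤ q) (hq1 : q ≤ 1) (S0 : ℕ) (c d : ℕ → ℕ) (hc0 : c 0 = 0)
    (hd0 : d 0 = 0) : ∀ n : ℕ, (∀ i < n, c i ≤ c (i + 1) ∧ d i ≤ d (i + 1) ∧
      nrm (D q (slotStr (us_seg S0 (c i) (c (i + 1) - c i))) -
        D q (slotStr (us_seg S0 (d i) (d (i + 1) - d i)))) ≤ 1 / 2) →
    ∃ C, Nonneg C ∧ Nonneg (D q (slotStr (us_seg S0 0 (c n))) - C) ∧
      Nonneg (D q (slotStr (us_seg S0 0 (d n))) - C) ∧ (3 / 4 : ℝ) ^ n ≤ mass C := by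
  intro n
  induction n with
  | zero =>
    intro _
    refine ⟨1, IsPM.one.1, ?_, ?_, by simp [mass_one]⟩
    · simp [hc0, us_seg, slotStr, D_nil, nonneg_zero]
    · simp [hd0, us_seg, slotStr, D_nil, nonneg_zero]
  | succ n ih =>
    intro h
    obtain ⟨C, hC, hCc, hCd, hCm⟩ := ih fun i hi => h i (Nat.lt_succ_of_lt hi)
    obtain ⟨hc, hd, hn⟩ := h n (Nat.lt_succ_self n)
    obtain ⟨C', hC', hC'c, hC'd, hC'm⟩ :=
      us_common (isPM_D hq0 hq1 _) (isPM_D hq0 hq1 _) hn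
    refine ⟨C * C', hC.mul hC', ?_, ?_, ?_⟩
    · rw [← Nat.add_sub_cancel' hc, us_seg_append, us_D_slot_append, Nat.zero_add]
      exact us_mul_le (isPM_D hq0 hq1 _).1 hC hCc hC'c
    · rw [← Nat.add_sub_cancel' hd, us_seg_append, us_D_slot_append, Nat.zero_add]
      exact us_mul_le (isPM_D hq0 hq1 _).1 hC hCd hC'd
    · rw [pow_succ, mass_mul]
      exact mul_le_mul hCm hC'm (by norm_num)
        (le_trans (pow_nonneg (by norm_num) n) hCm)

lemma us_mu_smooth {q : ℝ} (hq0 : 0 < q) (hq1 : q < 1) :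
    ∃ σ : ℝ, 0 ≤ σ ∧ Smooth (D q [false, true]) σ := by
  have hC : Nonneg ((q * q) • (1 : Alg)) := IsPM.one.1.smul (by positivity)
  have hm : mass ((q * q) • (1 : Alg)) = q * q := by rw [mass_smul, mass_one, mul_one]
  refine ⟨_, by positivity, smooth_of_overlap (isPM_D hq0.le hq1.le [false, true]) hC (h := 0)
    ?_ ?_ (by rw [hm]; positivity)⟩
  · rw [pow_zero, show (1 : Alg) - (q * q) • 1 = (1 - q * q) • 1 by module]
    exact IsPM.one.1.smul (by nlinarith)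
  · have e : D q [false, true] - (q * q) • (1 : Alg) =
        (q * (1 - q)) • pt (FreeMonoid.of true) + (q * (1 - q)) • pt (FreeMonoid.of false)
          + ((1 - q) * (1 - q)) • pt (FreeMonoid.of false * FreeMonoid.of true) := by
      simp only [D_cons, D_nil, dbit, mul_one, mul_add, add_mul, smul_mul_assoc, mul_smul_comm,
        one_mul, pt_mul, smul_smul, smul_add]
      module
    have h1 : 0 ≤ q * (1 - q) := mul_nonneg hq0.le (by linarith)
    rw [zero_add, pow_one, e]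
    exact (((nonneg_pt _).smul h1).add ((nonneg_pt _).smul h1)).add
      ((nonneg_pt _).smul (mul_self_nonneg _))

/-- offset of the cut number `i` inside its period -/
def us_ph (S0 δ : ℕ) : ℕ :=
  if S0 < S0 / 4 + δ + S0 / 16 ∧ S0 / 4 + δ < S0 + S0 / 16 then 2 * (S0 / 4) else S0 / 4

/-- the cuts of the shorter word -/
def us_cut (S0 h0 I i : ℕ) : ℕ := if i = 0 then 0 else i * h0 * S0 + us_ph S0 (i * S0 / I)

/-- the cuts of the longer word -/
def us_cut' (S0 h0 I i : ℕ) : ℕ := us_cut S0 h0 I i + i * S0 / I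

lemma us_ph_le (S0 δ : ℕ) : S0 / 4 ≤ us_ph S0 δ ∧ us_ph S0 δ ≤ 2 * (S0 / 4) := by
  unfold us_ph; split_ifs <;> omega

lemma us_ph_good {S0 δ : ℕ} (h16 : 16 ≤ S0) (hδ : δ ≤ S0) :
    S0 / 16 ≤ us_ph S0 δ % S0 ∧ us_ph S0 δ % S0 + S0 / 16 ≤ S0 ∧
      S0 / 16 ≤ (us_ph S0 δ + δ) % S0 ∧ (us_ph S0 δ + δ) % S0 + S0 / 16 ≤ S0 := by
  have hq := us_ph_le S0 δ
  have hph : us_ph S0 δ + δ + S0 / 16 ≤ S0 ∨ S0 + S0 / 16 ≤ us_ph S0 δ + δ := by
    unfold us_ph
    split_ifs with hbad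
    · omega
    · rw [not_and, not_lt] at hbad
      omega
  rw [Nat.mod_eq_of_lt (show us_ph S0 δ < S0 by omega)]
  refine ⟨by omega, by omega, ?_⟩
  rcases hph with h | h
  · rw [Nat.mod_eq_of_lt (by omega)]
    omega
  · rw [Nat.mod_eq_sub_mod (by omega), Nat.mod_eq_of_lt (by omega)]
    omega

lemma us_cut_phase {S0 h0 I i : ℕ} (h16 : 16 ≤ S0) (hI : 0 < I) (hi : i ≤ I) :
    us_cut S0 h0 I i % S0 + S0 / 16 ≤ S0 ∧ us_cut' S0 h0 I i % S0 + S0 / 16 ≤ S0 ∧
      (0 < i → S0 / 16 ≤ us_cut S0 h0 I i % S0 ∧ S0 / 16 ≤ us_cut' S0 h0 I i % S0) := by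
  rcases Nat.eq_zero_or_pos i with rfl | hpos
  · simp only [us_cut', us_cut, if_true, Nat.zero_mul, Nat.zero_div, Nat.zero_mod, Nat.zero_add]
    exact ⟨by omega, by omega, fun h => absurd h (lt_irrefl 0)⟩
  have hδ : i * S0 / I ≤ S0 :=
    (Nat.div_le_div_right (Nat.mul_le_mul_right _ hi)).trans (Nat.mul_div_cancel_left _ hI).le
  obtain ⟨a, b, c, d⟩ := us_ph_good h16 hδ
  simp only [us_cut', us_cut, if_neg (Nat.pos_iff_ne_zero.mp hpos)]
  rw [Nat.add_assoc, Nat.mul_add_mod_self_right, Nat.mul_add_mod_self_right]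
  exact ⟨b, d, fun _ => ⟨a, c⟩⟩

lemma us_cut_len {S0 h0 I i : ℕ} (hh0 : 0 < h0) (hI : 0 < I) (hi : i < I) :
    us_cut S0 h0 I i ≤ us_cut S0 h0 I (i + 1) ∧ us_cut' S0 h0 I i ≤ us_cut' S0 h0 I (i + 1) ∧
      us_cut S0 h0 I (i + 1) - us_cut S0 h0 I i ≤ (h0 + 2) * S0 ∧
      us_cut' S0 h0 I (i + 1) - us_cut' S0 h0 I i ≤ (h0 + 2) * S0 ∧
      h0 * S0 ≤ us_cut S0 h0 I (i + 1) - us_cut S0 h0 I i + S0 ∧
      us_cut' S0 h0 I (i + 1) - us_cut' S0 h0 I i
        = us_cut S0 h0 I (i + 1) - us_cut S0 h0 I i + ((i + 1) * S0 / I - i * S0 / I) := by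
  have a3 : (i + 1) * S0 / I ≤ S0 :=
    (Nat.div_le_div_right (Nat.mul_le_mul_right _ hi)).trans (Nat.mul_div_cancel_left _ hI).le
  have a2 : i * S0 / I ≤ (i + 1) * S0 / I :=
    Nat.div_le_div_right (Nat.mul_le_mul_right _ (Nat.le_succ i))
  have hS0le : S0 ≤ h0 * S0 := Nat.le_mul_of_pos_left _ hh0
  have e : us_cut S0 h0 I (i + 1) = i * h0 * S0 + h0 * S0 + us_ph S0 ((i + 1) * S0 / I) := by
    rw [us_cut, if_neg (by omega), Nat.succ_mul, Nat.add_mul]
  have a1 := us_ph_le S0 ((i + 1) * S0 / I)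
  rw [Nat.add_mul h0 2 S0]
  rcases Nat.eq_zero_or_pos i with rfl | hpos
  · have e0 : us_cut S0 h0 I 0 = 0 := if_pos rfl
    simp only [us_cut', e0, e, Nat.zero_mul, Nat.zero_div, Nat.zero_add] at *
    omega
  · have e0 : us_cut S0 h0 I i = i * h0 * S0 + us_ph S0 (i * S0 / I) :=
      if_neg (Nat.pos_iff_ne_zero.mp hpos)
    have := us_ph_le S0 (i * S0 / I)
    simp only [us_cut', e0, e]
    generalize (i + 1) * S0 / I = δ1 at *
    generalize i * S0 / I = δ0 at *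
    generalize us_ph S0 δ1 = p1 at *
    generalize us_ph S0 δ0 = p0 at *
    generalize h0 * S0 = P1 at *
    generalize i * h0 * S0 = P0 at *
    omega

lemma us_ratio {Kc S0 : ℕ} (hK : 0 < Kc) (hK64 : (64 : ℝ) ≤ Kc) (hS0 : 6 * Kc ≤ S0)
    (h16 : 16 ≤ S0) :
    Real.sqrt (((S0 / Kc + 2 + 4 : ℕ) : ℝ) / ((S0 / 16 : ℕ) : ℝ)) +
        ((S0 / Kc + 2 + 4 : ℕ) : ℝ) / ((S0 / 16 : ℕ) : ℝ) ≤ 16 / Real.sqrt Kc := by
  have hdiv : ((S0 / Kc : ℕ) : ℝ) ≤ (S0 : ℝ) / Kc := Nat.cast_div_le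
  have hKR : (0 : ℝ) < Kc := Nat.cast_pos.mpr hK
  have hS0K : (6 : ℝ) * Kc ≤ S0 := by exact_mod_cast hS0
  have hSR : (S0 : ℝ) ≤ 32 * ((S0 / 16 : ℕ) : ℝ) := by
    exact_mod_cast (by omega : S0 ≤ 32 * (S0 / 16))
  have hSR0 : (0 : ℝ) < ((S0 / 16 : ℕ) : ℝ) := Nat.cast_pos.mpr (by omega)
  have hratio : ((S0 / Kc + 2 + 4 : ℕ) : ℝ) / ((S0 / 16 : ℕ) : ℝ) ≤ 64 / Kc := by
    generalize S0 / 16 = S at hSR hSR0
    push_cast
    have h6 : (6 : ℝ) ≤ (S0 : ℝ) / Kc := by rw [le_div_iff₀ hKR]; linarith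
    have h2 : (2 : ℝ) * ((S0 : ℝ) / Kc) ≤ 64 / Kc * S := by
      rw [mul_div_assoc', div_mul_eq_mul_div, div_le_div_iff_of_pos_right hKR]; linarith
    rw [div_le_iff₀ hSR0]
    linarith
  have h1 : Real.sqrt (((S0 / Kc + 2 + 4 : ℕ) : ℝ) / ((S0 / 16 : ℕ) : ℝ)) ≤ 8 / Real.sqrt Kc := by
    refine (Real.sqrt_le_sqrt hratio).trans (le_of_eq ?_)
    rw [Real.sqrt_div (by norm_num), show (64 : ℝ) = 8 ^ 2 by norm_num,
      Real.sqrt_sq (by norm_num)]
  have hsK : 8 ≤ Real.sqrt Kc := by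
    rw [show (8 : ℝ) = Real.sqrt (8 ^ 2) by rw [Real.sqrt_sq (by norm_num)]]
    exact Real.sqrt_le_sqrt (by linarith)
  have h2 : (64 : ℝ) / Kc ≤ 8 / Real.sqrt Kc := by
    rw [div_le_div_iff₀ hKR (by linarith)]
    nlinarith [Real.mul_self_sqrt hKR.le]
  exact (add_le_add h1 (hratio.trans h2)).trans (le_of_eq (by rw [← add_div]; norm_num))

/-- the drift of the pure length along one segment -/
lemma us_drift {q σ0 : ℝ} (hq0 : 0 ≤ q) (hq1 : q ≤ 1) (hσ0 : 0 ≤ σ0)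
    (hμ : Smooth (D q [false, true]) σ0) {Kc S0 I i m : ℕ} (hK : 0 < Kc)
    (hK64 : (64 : ℝ) ≤ Kc) (hI0 : 0 < I) (hI : 12 * σ0 * Real.sqrt (2 * Kc) ≤ I) (hIS : I ≤ S0)
    (hm : (S0 / Kc + 2) * S0 ≤ m + S0) :
    nrm (D q [false, true] ^ (m + ((i + 1) * S0 / I - i * S0 / I)) - D q [false, true] ^ m)
      ≤ 1 / 6 := by
  set dl := (i + 1) * S0 / I - i * S0 / I with hdldef
  have hKR : (0 : ℝ) < Kc := Nat.cast_pos.mpr hK
  have hIR : (0 : ℝ) < I := Nat.cast_pos.mpr hI0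
  have hS0pos : (0 : ℝ) < S0 := Nat.cast_pos.mpr (by omega)
  have hsm := hμ.pow_sub_one (isPM_D hq0 hq1 _) m dl
  rw [sub_mul, one_mul, ← pow_add, Nat.add_comm dl m] at hsm
  refine hsm.trans ?_
  have hdl : (dl : ℝ) ≤ 2 * S0 / I := by
    have h1 : I * ((i + 1) * S0 / I) ≤ (i + 1) * S0 := Nat.mul_div_le _ _
    have h2 : i * S0 < I * (i * S0 / I + 1) := by
      rw [Nat.mul_comm I]
      exact (Nat.div_lt_iff_lt_mul hI0).mp (Nat.lt_succ_self _)
    have h3 : I * dl ≤ S0 + I := by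
      rw [hdldef, Nat.mul_sub]
      rw [Nat.succ_mul] at h1 ⊢
      rw [Nat.mul_succ] at h2
      omega
    have h4 : (I : ℝ) * dl ≤ (S0 : ℝ) + I := by exact_mod_cast h3
    have h5 : (I : ℝ) ≤ S0 := by exact_mod_cast hIS
    rw [le_div_iff₀ hIR]
    linarith
  have hm' : (S0 : ℝ) ^ 2 / (2 * Kc) ≤ (m : ℝ) + 1 := by
    have hdm := Nat.div_add_mod S0 Kc
    have hml := Nat.mod_lt S0 hK
    have h1 : S0 * S0 ≤ Kc * m := by
      calc S0 * S0 ≤ Kc * (S0 / Kc + 1) * S0 :=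
            Nat.mul_le_mul_right _ (by rw [Nat.mul_succ]; omega)
        _ = Kc * ((S0 / Kc + 1) * S0) := Nat.mul_assoc _ _ _
        _ ≤ Kc * m := Nat.mul_le_mul_left _ (by
            rw [Nat.succ_mul]
            rw [Nat.add_mul] at hm
            omega)
    have h2 : (S0 : ℝ) * S0 ≤ (Kc : ℝ) * m := by exact_mod_cast h1
    rw [div_le_iff₀ (by linarith)]
    nlinarith [(m.cast_nonneg : (0 : ℝ) ≤ m)]
  have hs : (S0 : ℝ) / Real.sqrt (2 * Kc) ≤ Real.sqrt ((m : ℝ) + 1) := by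
    rw [← Real.sqrt_sq hS0pos.le, ← Real.sqrt_div (sq_nonneg _)]
    exact Real.sqrt_le_sqrt hm'
  have hspos : (0 : ℝ) < (S0 : ℝ) / Real.sqrt (2 * Kc) :=
    div_pos hS0pos (Real.sqrt_pos.mpr (by linarith))
  calc (dl : ℝ) * (σ0 / Real.sqrt ((m : ℝ) + 1))
      ≤ 2 * S0 / I * (σ0 / ((S0 : ℝ) / Real.sqrt (2 * Kc))) :=
        mul_le_mul hdl (div_le_div_of_nonneg_left hσ0 hspos hs)
          (div_nonneg hσ0 (Real.sqrt_nonneg _)) (by positivity)
    _ = 2 * σ0 * Real.sqrt (2 * Kc) / I := by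
        rw [div_div_eq_mul_div, div_mul_div_comm, mul_comm (I : ℝ) (S0 : ℝ), ← mul_assoc,
          mul_right_comm (2 : ℝ), mul_right_comm (2 * σ0),
          mul_comm (2 * σ0 * Real.sqrt (2 * Kc)), mul_div_mul_left _ _ hS0pos.ne']
    _ ≤ 1 / 6 := by rw [div_le_iff₀ hIR]; linarith

/-- powers of the base unit are smooth at the diffusive rate -/
theorem unit_smooth {q : ℝ} (hq0 : 0 < q) (hq1 : q < 1) :
    ∃ K L0 : ℕ, ∀ L ≥ L0, ∃ σ : ℝ, Smooth (D q (unitStr L)) σ ∧ σ ^ 2 ≤ K * (L : ℝ) := by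
  obtain ⟨c, hc0, hover⟩ := slot_overlap hq0 hq1
  obtain ⟨σ0, hσ0, hμ⟩ := us_mu_smooth hq0 hq1
  -- the constants
  obtain ⟨ρ, ρpos, hρ1, hρ2⟩ : ∃ ρ : ℝ, 0 < ρ ∧ c * ρ ≤ 1 ∧ 6 * ρ ≤ (1 / (16 * c)) ^ 2 := by
    refine ⟨min (1 / c) ((1 / (16 * c)) ^ 2 / 6), lt_min (by positivity) (by positivity), ?_, ?_⟩
    · rw [mul_comm, ← le_div_iff₀ hc0]; exact min_le_left _ _
    · rw [mul_comm, ← le_div_iff₀ (by norm_num)]; exact min_le_right _ _
  obtain ⟨Kc, hKc⟩ : ∃ Kc : ℕ, (16 / ρ) ^ 2 + 64 ≤ Kc := exists_nat_ge _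
  have hK64 : (64 : ℝ) ≤ Kc := by nlinarith [sq_nonneg (16 / ρ)]
  have hKpos : 0 < Kc := by
    have : (0 : ℝ) < Kc := by linarith
    exact_mod_cast this
  obtain ⟨I, hI⟩ : ∃ I : ℕ, 12 * σ0 * Real.sqrt (2 * Kc) + 1 ≤ I := exists_nat_ge _
  have hIpos : 0 < I := by
    have : (0 : ℝ) < I := by
      have : (0 : ℝ) ≤ 12 * σ0 * Real.sqrt (2 * Kc) := by positivity
      linarith
    exact_mod_cast this
  obtain ⟨K, hK⟩ : ∃ K : ℕ, 24 * (I : ℝ) / (3 / 4) ^ I ≤ K := exists_nat_ge _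
  refine ⟨K, 16 + 6 * Kc + I, fun L hL => ?_⟩
  have hr16 : 16 / Real.sqrt Kc ≤ ρ := by
    have h3 : 16 / ρ ≤ Real.sqrt Kc := by
      rw [← Real.sqrt_sq (show 0 ≤ 16 / ρ by positivity)]
      exact Real.sqrt_le_sqrt (by linarith)
    rw [div_le_iff₀ (Real.sqrt_pos.mpr (by linarith))]
    rw [div_le_iff₀ ρpos] at h3
    linarith
  set S0 := L + 1 with hS0def
  have h16 : 16 ≤ S0 := by omega
  set h0 := S0 / Kc + 2 with hh0def
  have hh0pos : 0 < h0 := Nat.succ_pos _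
  have hclose : ∀ i < I, us_cut S0 h0 I i ≤ us_cut S0 h0 I (i + 1) ∧
      us_cut' S0 h0 I i ≤ us_cut' S0 h0 I (i + 1) ∧
      nrm (D q (slotStr (us_seg S0 (us_cut S0 h0 I i)
          (us_cut S0 h0 I (i + 1) - us_cut S0 h0 I i))) -
        D q (slotStr (us_seg S0 (us_cut' S0 h0 I i)
          (us_cut' S0 h0 I (i + 1) - us_cut' S0 h0 I i)))) ≤ 1 / 2 := by
    intro i hi
    obtain ⟨l1, l2, l3, l4, l5, l6⟩ := us_cut_len (S0 := S0) hh0pos hIpos hi
    obtain ⟨pa, pa', -⟩ := us_cut_phase (h0 := h0) h16 hIpos hi.le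
    obtain ⟨-, -, pb⟩ := us_cut_phase (h0 := h0) h16 hIpos (show i + 1 ≤ I from hi)
    obtain ⟨pb, pb'⟩ := pb (Nat.succ_pos i)
    set r : ℝ := Real.sqrt (((h0 + 4 : ℕ) : ℝ) / ((S0 / 16 : ℕ) : ℝ)) +
      ((h0 + 4 : ℕ) : ℝ) / ((S0 / 16 : ℕ) : ℝ) with hr
    have hrρ : r ≤ ρ := (us_ratio hKpos hK64 (by omega) h16).trans hr16
    have hr0 : 0 ≤ r := by rw [hr]; positivity
    have hr1 : c * r ≤ 1 := (mul_le_mul_of_nonneg_left hrρ hc0.le).trans hρ1
    have hr2 : 2 / (6 : ℝ) ^ 2 + c * Real.sqrt (6 * r) ≤ 1 / 8 := by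
      have h1 : Real.sqrt (6 * r) ≤ 1 / (16 * c) := by
        rw [← Real.sqrt_sq (show 0 ≤ 1 / (16 * c) by positivity)]
        exact Real.sqrt_le_sqrt (by linarith)
      have h2 : c * Real.sqrt (6 * r) ≤ 1 / 16 :=
        (mul_le_mul_of_nonneg_left h1 hc0.le).trans (le_of_eq (by field_simp))
      linarith
    have hA := (us_seg_close hover 6 (by norm_num) (show 0 < S0 / 16 by omega) (by omega) pa
      (by rw [Nat.add_sub_cancel' l1]; exact pb) l3 hr1).trans hr2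
    have hB := (us_seg_close hover 6 (by norm_num) (show 0 < S0 / 16 by omega) (by omega) pa'
      (by rw [Nat.add_sub_cancel' l2]; exact pb') l4 hr1).trans hr2
    have hd := us_drift (i := i) hq0.le hq1.le hσ0 hμ hKpos hK64 hIpos (by linarith)
      (show I ≤ S0 by omega) l5
    rw [l6] at hB
    rw [l6]
    refine ⟨l1, l2, ?_⟩
    refine (nrm_sub_le_sub_add_sub _ (D q [false, true] ^ _) _).trans
      ((add_le_add hA ((nrm_sub_le_sub_add_sub _ (D q [false, true] ^ _) _).trans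
        (add_le_add ((nrm_sub_comm _ _).trans_le hd) ((nrm_sub_comm _ _).trans_le hB)))).trans ?_)
    norm_num
  obtain ⟨C, hC, hCc, hCd, hCm⟩ := us_chain hq0.le hq1.le S0 (us_cut S0 h0 I) (us_cut' S0 h0 I)
    (if_pos rfl) (by simp [us_cut', us_cut]) I hclose
  -- the common suffix
  set cI := us_cut S0 h0 I I with hcI
  have eI : cI = I * h0 * S0 + us_ph S0 (I * S0 / I) := if_neg (Nat.pos_iff_ne_zero.mp hIpos)
  have edI : us_cut' S0 h0 I I = cI + 1 * S0 := by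
    rw [us_cut', Nat.mul_div_cancel_left _ hIpos, Nat.one_mul]
  have hphI : us_ph S0 (I * S0 / I) ≤ S0 := by have := us_ph_le S0 (I * S0 / I); omega
  set H := I * h0 + 1 with hH
  have hge : cI ≤ H * S0 := by rw [eI, hH, Nat.succ_mul]; omega
  set rest := H * S0 - cI with hrest
  set Z := D q (slotStr (us_seg S0 cI rest)) with hZdef
  have hZ : IsPM Z := isPM_D hq0.le hq1.le _
  have e1 : D q (unitStr L) ^ H = D q (slotStr (us_seg S0 0 cI)) * Z := by
    rw [us_pow_unit, ← hS0def, ← Nat.add_sub_cancel' hge, us_seg_append, us_D_slot_append,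
      Nat.zero_add, hZdef, hrest]
  have e2 : D q (unitStr L) ^ (H + 1) = D q (slotStr (us_seg S0 0 (us_cut' S0 h0 I I))) * Z := by
    rw [us_pow_unit, ← hS0def, hZdef, ← us_seg_shift S0 cI 1 rest, ← edI]
    rw [show (H + 1) * S0 = us_cut' S0 h0 I I + rest by rw [edI, Nat.succ_mul H]; omega,
      us_seg_append, us_D_slot_append, Nat.zero_add]
  have h34 : (0 : ℝ) < (3 / 4) ^ I := by positivity
  have hmass : mass (C * Z) = mass C := by rw [mass_mul, hZ.2, mul_one]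
  have hpos : 0 < mass (C * Z) := by rw [hmass]; linarith
  refine ⟨2 * Real.sqrt (((H : ℝ) + 1) / mass (C * Z)),
    smooth_of_overlap (isPM_D hq0.le hq1.le _) (hC.mul hZ.1) ?_ ?_ hpos, ?_⟩
  · rw [e1, ← sub_mul]; exact hCc.mul hZ.1
  · rw [e2, ← sub_mul]; exact hCd.mul hZ.1
  · rw [mul_pow, Real.sq_sqrt (div_nonneg (by positivity) hpos.le), hmass]
    have hh0L : h0 ≤ 4 * L := by
      have := Nat.div_le_self S0 Kc
      omega
    have hH1 : ((H : ℝ) + 1) ≤ 6 * I * L := by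
      have h1 : (I : ℝ) * h0 ≤ (I : ℝ) * (4 * L) :=
        mul_le_mul_of_nonneg_left (by exact_mod_cast hh0L) (Nat.cast_nonneg _)
      have h2 : (1 : ℝ) ≤ (I : ℝ) * L :=
        one_le_mul_of_one_le_of_one_le (by exact_mod_cast hIpos)
          (by exact_mod_cast (by omega : 1 ≤ L))
      rw [hH]
      push_cast
      linarith
    have hL0 : (0 : ℝ) ≤ L := Nat.cast_nonneg _
    calc (2 : ℝ) ^ 2 * (((H : ℝ) + 1) / mass C)
        ≤ 2 ^ 2 * ((6 * I * L) / (3 / 4) ^ I) :=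
          mul_le_mul_of_nonneg_left
            (div_le_div₀ (by positivity) hH1 h34 hCm) (by norm_num)
      _ = 24 * (I : ℝ) / (3 / 4) ^ I * L := by ring
      _ ≤ K * (L : ℝ) := mul_le_mul_of_nonneg_right hK hL0

end Vale.Agent.P321
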