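import Mathlib
import Vale.Agent.P321.UnitSmooth

/-
The first level: Thue-Morse patterns of the atoms `unitStr (L ± 1)` among units `unitStr L`.
-/

open scoped BigOperators
open Finset

namespace Vale.Agent.P321

variable {k : ℕ}

/-- the trace law of one slot 01 -/
noncomputable def stMu (q : ℝ) : Alg := D q [false, true]

/-- the trace law of a landmark -/
noncomputable def stB (q : ℝ) : Alg := D q [true]

lemma st_slotStr (n : ℕ) :
    slotStr (List.replicate n false) = (List.replicate n [false, true]).flatten := by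
  induction n with
  | zero => rfl
  | succ n ih =>
    rw [List.replicate_succ, List.replicate_succ, List.flatten_cons, ← ih]
    simp [slotStr]

lemma st_D_replicate (q : ℝ) (n : ℕ) (x : List Bool) :
    D q (List.replicate n x).flatten = D q x ^ n := by
  induction n with
  | zero => simp [D_nil]
  | succ n ih => rw [List.replicate_succ, List.flatten_cons, D_append, ih, pow_succ']

lemma st_unitStr (L : ℕ) :
    unitStr L = (List.replicate L [false, true]).flatten ++ [true] := by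
  rw [← st_slotStr]
  simp [unitStr, slotStr]

lemma st_D_unit (q : ℝ) (L : ℕ) : D q (unitStr L) = stMu q ^ L * stB q := by
  rw [st_unitStr, D_append, st_D_replicate]; rfl

lemma st_len_unit (L : ℕ) : (unitStr L).length = 2 * L + 1 := by
  rw [st_unitStr]; simp [List.length_flatten]; ring

lemma st_mu_one {q : ℝ} (h0 : 0 ≤ q) (h1 : q ≤ 1) : q * q ≤ (stMu q).coeff 1 := by
  have e : stMu q = (q * q) • (1 : Alg) + ((q * (1 - q)) • pt (FreeMonoid.of true)
      + ((1 - q) * q) • pt (FreeMonoid.of false)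
      + ((1 - q) * (1 - q)) • (pt (FreeMonoid.of false) * pt (FreeMonoid.of true))) := by
    simp only [stMu, D_cons, D_nil, mul_one, dbit, add_mul, mul_add, smul_mul_smul_comm, one_mul,
      mul_one]
    abel
  have hn : Nonneg ((q * (1 - q)) • pt (FreeMonoid.of true)
      + ((1 - q) * q) • pt (FreeMonoid.of false)
      + ((1 - q) * (1 - q)) • (pt (FreeMonoid.of false) * pt (FreeMonoid.of true))) := by
    have : (0 : ℝ) ≤ 1 - q := by linarith
    exact (((nonneg_pt _).smul (by positivity)).add ((nonneg_pt _).smul (by positivity))).add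
      (((nonneg_pt _).mul (nonneg_pt _)).smul (by positivity))
  have h := hn 1
  rw [e, MonoidAlgebra.coeff_add, Finsupp.add_apply, ← pt_one, MonoidAlgebra.coeff_smul_apply,
    coeff_pt, if_pos rfl, smul_eq_mul, mul_one]
  linarith

/-! ### products over coordinates -/

lemma st_prod_dep (P : Finset ℕ) (h : ℕ → W → ℝ) :
    DependsOn (fun ω : ℕ → W => ∏ i ∈ P, h i (ω i)) ↑P :=
  fun x y hxy => prod_congr rfl fun i hi => by rw [hxy i hi]

lemma st_piN_prod (T : Alg) (h : ℕ → W → ℝ) : ∀ n,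
    piN T n (fun ω => ∏ i ∈ range n, h i (ω i))
      = sprod (fun i => piN T 1 (fun ω => h i (ω 0))) n
  | 0 => by simp [piN_zero, sprod]
  | n + 1 => by
    have hc := piN_concat T n 1 (fun ω => ∏ i ∈ range n, h i (ω i)) (fun ω => h n (ω 0))
      (st_prod_dep _ _) (fun x y hxy => by simp only [hxy 0 (by simp)])
    rw [sprod, ← st_piN_prod T h n, ← hc]
    congr 1
    funext ω
    rw [prod_range_succ]
    rfl

lemma st_single_E {V : Type*} [AddCommGroup V] [Module ℝ V] (T : Alg) (i : ℕ) (h : W → V) :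
    Ew T {i} (fun ω : ℕ → W => h (ω i)) om0 = E T (range 1) (fun ω => h (ω 0)) := by
  rw [E, range_one, Ew_singleton, Ew_singleton]
  simp

/-- product of centred one-coordinate terms -/
lemma st_prod_good {T : Alg} (hT : IsPM T) (P : Finset ℕ) (h : ℕ → W → ℝ) (w : ℕ → ℝ)
    (hc : ∀ i ∈ P, E T (range 1) (fun ω => h i (ω 0)) = 0)
    (hb : ∀ i ∈ P, Bd T k (range 1) (fun ω => h i (ω 0)) (w i)) :
    (Term.mk P (fun ω => ∏ i ∈ P, h i (ω i)) (∏ i ∈ P, w i)).Good T k := by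
  induction P using Finset.induction_on with
  | empty =>
    refine ⟨fun x y _ => by simp, fun i hi => absurd hi (notMem_empty i), ⟨by simp, ?_⟩⟩
    simp [E, Ew_empty]
  | @insert i P hi ih =>
    have h1 : (Term.mk {i} (fun ω => h i (ω i)) (w i)).Good T k := by
      refine ⟨fun x y hxy => by simp only [hxy i (by simp)], ?_, ⟨(hb i (mem_insert_self i P)).1, ?_⟩⟩
      · intro j hj ω
        simp only [mem_singleton] at hj
        subst hj
        rw [← hc j (mem_insert_self j P), ← st_single_E T j (h j)]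
        exact Ew_base T _ _ ω (S := {j}) (fun x y hxy => by simp only [hxy j rfl])
          (fun x hx => by simpa using hx) om0
      · refine le_of_eq_of_le ?_ (hb i (mem_insert_self i P)).2
        exact st_single_E T i (fun v => h i v ^ (2 * k))
    have := h1.mul hT (ih (fun j hj => hc j (mem_insert_of_mem hj))
      fun j hj => hb j (mem_insert_of_mem hj)) (by simpa using hi)
    simp only [Term.mul] at this
    rw [← insert_eq] at this
    convert this using 2
    · funext ω; rw [prod_insert hi]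
    · rw [prod_insert hi]

lemma st_term_smul {T : Alg} {t : Term} (h : t.Good T k) (c : ℝ) :
    (Term.mk t.S (fun ω => c * t.f ω) (|c| * t.w)).Good T k := by
  refine ⟨fun x y hxy => by simp only [h.dep hxy], fun i hi ω => ?_, h.bd.const_mul c⟩
  have := Ew_smul T {i} t.f ω c
  simp only [smul_eq_mul] at this
  show Ew T {i} (fun ω => c * t.f ω) ω = 0
  rw [this, h.cen i hi ω, mul_zero]

/-! ### densities of differences of powers of the slot law -/

/-- one removed slot -/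
noncomputable def stG0 (μ : Alg) (v : W) : ℝ := (if v = 1 then (μ.coeff 1)⁻¹ else 0) - 1

/-- density of `(1-μ)^j μ^(N-j)` on N slots -/
noncomputable def stE (μ : Alg) (N j : ℕ) (ω : ℕ → W) : ℝ :=
  ∑ S ∈ (range N).powersetCard j, (1 / (N.choose j : ℝ)) * ∏ i ∈ S, stG0 μ (ω i)

lemma st_g0 {μ : Alg} (h : μ.coeff 1 ≠ 0) :
    piN μ 1 (fun ω => stG0 μ (ω 0)) = 1 - μ := by
  rw [piN_single]
  simp only [Function.update_self, stG0, mul_sub, mul_one, sub_smul, sum_sub_distrib]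
  rw [← eq_sum_pt μ, sum_eq_single (1 : W)]
  · rw [if_pos rfl, mul_inv_cancel₀ h, one_smul, pt_one]
  · intro v _ hv
    rw [if_neg hv, mul_zero, zero_smul]
  · intro hn
    exact absurd (Finsupp.notMem_support_iff.mp hn) h

lemma st_g0_cen {μ : Alg} (hμ : IsPM μ) (h : μ.coeff 1 ≠ 0) :
    E μ (range 1) (fun ω => stG0 μ (ω 0)) = 0 := by
  have h1 := congrArg mass (st_g0 h)
  rw [mass_sub, mass_one, hμ.2, sub_self, mass_eq] at h1
  rw [← h1, piN, E]
  refine Eq.trans ?_ (Ew_linear μ (range 1) _ om0 massHom.toLinearMap)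
  refine Ew_congr _ _ _ fun x _ _ => ?_
  show _ = massHom (stG0 μ (x 0) • sprod (fun i => pt (x i)) 1)
  rw [map_smul, ← mass_eq, (sprod_pt_isPM x 1).2, smul_eq_mul, mul_one]

lemma st_g0_bd {μ : Alg} (hμ : IsPM μ) :
    Bd μ k (range 1) (fun ω => stG0 μ (ω 0)) ((μ.coeff 1)⁻¹ + 1) := by
  have h0 : 0 ≤ (μ.coeff 1)⁻¹ := inv_nonneg.mpr (hμ.1 1)
  refine ⟨by linarith, le_trans (Ew_mono hμ _ _ (G := fun _ => ((μ.coeff 1)⁻¹ + 1) ^ (2 * k))
    fun ω => ?_) (le_of_eq (Ew_const μ _ _ hμ _))⟩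
  show stG0 μ (ω 0) ^ (2 * k) ≤ _
  rw [← (even_two_mul k).pow_abs]
  refine pow_le_pow_left₀ (abs_nonneg _) ?_ _
  unfold stG0
  split_ifs
  · exact abs_le.mpr ⟨by linarith, by linarith⟩
  · rw [zero_sub, abs_neg, abs_one]; linarith

lemma st_sprod_mark (d μ : Alg) (hc : Commute d μ) (S : Finset ℕ) : ∀ N,
    sprod (fun i => if i ∈ S then d else μ) N
      = d ^ ((range N).filter (· ∈ S)).card * μ ^ (N - ((range N).filter (· ∈ S)).card)
  | 0 => by simp [sprod]
  | N + 1 => by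
    have hle : ((range N).filter (· ∈ S)).card ≤ N :=
      (card_filter_le _ _).trans (le_of_eq (card_range N))
    rw [sprod, st_sprod_mark d μ hc S N, range_add_one, filter_insert]
    split_ifs with h
    · rw [card_insert_of_notMem (by simp), mul_assoc, ← (hc.pow_right _).eq, ← mul_assoc, pow_succ]
      congr 2
      omega
    · rw [mul_assoc, ← pow_succ, Nat.sub_add_comm hle]

lemma st_piN_stE {μ : Alg} (h : μ.coeff 1 ≠ 0) {N j : ℕ} (hj : j ≤ N) :
    piN μ N (stE μ N j) = (1 - μ) ^ j * μ ^ (N - j) := by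
  have hS : ∀ S ∈ (range N).powersetCard j,
      piN μ N (fun ω => ∏ i ∈ S, stG0 μ (ω i)) = (1 - μ) ^ j * μ ^ (N - j) := by
    intro S hS
    rw [mem_powersetCard] at hS
    have hfilter : (range N).filter (· ∈ S) = S := by
      ext x
      simp only [mem_filter]
      exact ⟨fun hx => hx.2, fun hx => ⟨hS.1 hx, hx⟩⟩
    have e : (fun ω : ℕ → W => ∏ i ∈ S, stG0 μ (ω i))
        = fun ω => ∏ i ∈ range N, (fun (i : ℕ) (v : W) => if i ∈ S then stG0 μ v else 1) i (ω i) := by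
      funext ω
      show _ = ∏ i ∈ range N, (if i ∈ S then stG0 μ (ω i) else 1)
      rw [← prod_filter, hfilter]
    have e2 : (fun i : ℕ => piN μ 1 (fun ω => if i ∈ S then stG0 μ (ω 0) else 1))
        = fun i => if i ∈ S then 1 - μ else μ := by
      funext i
      split_ifs with hi
      · exact st_g0 h
      · rw [piN_one, pow_one]
    rw [e]
    refine (st_piN_prod μ (fun i v => if i ∈ S then stG0 μ v else 1) N).trans ?_
    rw [e2, st_sprod_mark _ _ ((Commute.one_left μ).sub_left (Commute.refl μ)), hfilter, hS.2]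
  show piN μ N (fun ω => ∑ S ∈ (range N).powersetCard j, _) = _
  rw [piN_sum, sum_congr rfl fun S hS' => by rw [piN_smul, hS S hS'], sum_const, card_powersetCard,
    card_range, ← Nat.cast_smul_eq_nsmul ℝ, smul_smul]
  have : (N.choose j : ℝ) ≠ 0 := by exact_mod_cast (Nat.choose_pos hj).ne'
  rw [mul_one_div, div_self this, one_smul]

lemma st_choose (N j : ℕ) (h : 2 * j ≤ N) :
    (N : ℝ) ^ j ≤ 2 ^ j * j.factorial * N.choose j := by
  have h1 : ((N + 1 - j : ℕ) : ℝ) ^ j ≤ (N.descFactorial j : ℝ) := by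
    exact_mod_cast Nat.pow_sub_le_descFactorial N j
  have h2 : (N.descFactorial j : ℝ) = j.factorial * N.choose j := by
    exact_mod_cast Nat.descFactorial_eq_factorial_mul_choose N j
  have h3 : (N : ℝ) ≤ 2 * ((N + 1 - j : ℕ) : ℝ) := by
    exact_mod_cast (show N ≤ 2 * (N + 1 - j) by omega)
  calc (N : ℝ) ^ j ≤ (2 * ((N + 1 - j : ℕ) : ℝ)) ^ j := pow_le_pow_left₀ (Nat.cast_nonneg _) h3 _
    _ ≤ 2 ^ j * ((j.factorial : ℝ) * N.choose j) := by
        rw [mul_pow, ← h2]; exact mul_le_mul_of_nonneg_left h1 (by positivity)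
    _ = _ := by ring

/-- the constant in the bound of `stE` -/
noncomputable def stC (μ : Alg) (k j : ℕ) : ℝ :=
  smC k ^ j * (((μ.coeff 1)⁻¹ + 1) ^ j * Real.sqrt (2 ^ j * j.factorial))

lemma stC_nonneg {μ : Alg} (hμ : IsPM μ) (k j : ℕ) : 0 ≤ stC μ k j := by
  have h1 := smC_ge_one k
  have h2 : 0 ≤ (μ.coeff 1)⁻¹ := inv_nonneg.mpr (hμ.1 1)
  exact mul_nonneg (pow_nonneg (by linarith) _) (mul_nonneg (pow_nonneg (by linarith) _)
    (Real.sqrt_nonneg _))

lemma st_stE_bd {μ : Alg} (hμ : IsPM μ) (h : μ.coeff 1 ≠ 0) (hk : 1 ≤ k) {N j Bn : ℕ}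
    (hj : 2 * j ≤ N) (hB : Bn ^ 2 ≤ N) (hB0 : 0 < Bn) :
    Bd μ k (range N) (stE μ N j) (stC μ k j / (Bn : ℝ) ^ j) := by
  set C0 := (μ.coeff 1)⁻¹ + 1 with hC0
  have hC0p : 0 ≤ C0 := by have := inv_nonneg.mpr (hμ.1 1); rw [hC0]; linarith
  set I := (range N).powersetCard j with hI
  have hg : ∀ S ∈ I, (Term.mk S (fun ω => (1 / (N.choose j : ℝ)) * ∏ i ∈ S, stG0 μ (ω i))
      (|1 / (N.choose j : ℝ)| * ∏ _i ∈ S, C0)).Good μ k := fun S _ =>
    st_term_smul (st_prod_good hμ S (fun _ => stG0 μ) (fun _ => C0)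
      (fun _ _ => st_g0_cen hμ h) (fun _ _ => st_g0_bd hμ)) _
  have hNpos : (0 : ℝ) < N.choose j := by exact_mod_cast Nat.choose_pos (by omega)
  have hcount : nuC 1 I (fun S => S) (fun S => |1 / (N.choose j : ℝ)| * ∏ _i ∈ S, C0)
      ≤ (C0 ^ j * (Real.sqrt (2 ^ j * j.factorial) / (Bn : ℝ) ^ j)) ^ 2 := by
    have hw : ∀ S ∈ I, |1 / (N.choose j : ℝ)| * ∏ _i ∈ S, C0 = C0 ^ j / N.choose j := by
      intro S hS
      rw [prod_const, (mem_powersetCard.mp hS).2, abs_of_pos (by positivity)]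
      ring
    have e : nuC 1 I (fun S => S) (fun S => |1 / (N.choose j : ℝ)| * ∏ _i ∈ S, C0)
        = ∑ S ∈ I, (C0 ^ j / N.choose j) ^ 2 := by
      refine sum_congr rfl fun S hS => ?_
      rw [sum_eq_single S, if_pos rfl, one_pow, one_mul]
      beta_reduce
      rw [hw S hS, sq]
      · intro S' _ hne; rw [if_neg (Ne.symm hne)]
      · exact fun h => absurd hS h
    rw [e, sum_const, hI, card_powersetCard, card_range, nsmul_eq_mul, mul_pow, div_pow, div_pow,
      Real.sq_sqrt (by positivity)]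
    have hc := st_choose N j hj
    have hBN : ((Bn : ℝ) ^ j) ^ 2 ≤ (N : ℝ) ^ j := by
      rw [← pow_mul, mul_comm, pow_mul]
      exact pow_le_pow_left₀ (by positivity) (by exact_mod_cast hB) _
    have hBp : (0 : ℝ) < ((Bn : ℝ) ^ j) ^ 2 := by
      have : (0 : ℝ) < Bn := by exact_mod_cast hB0
      positivity
    calc (N.choose j : ℝ) * ((C0 ^ j) ^ 2 / (N.choose j : ℝ) ^ 2)
        = (C0 ^ j) ^ 2 * (1 / N.choose j) := by field_simp
      _ ≤ _ := by
          refine mul_le_mul_of_nonneg_left ?_ (sq_nonneg _)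
          rw [div_le_div_iff₀ hNpos hBp, one_mul]
          exact hBN.trans (hc.trans (le_of_eq (by ring)))
  have h0 : 0 ≤ C0 ^ j * (Real.sqrt (2 ^ j * j.factorial) / (Bn : ℝ) ^ j) := by positivity
  refine Bd.mono (es_bd hμ k hk (range N) I _ hg (fun S hS => (mem_powersetCard.mp hS).1) j
    (fun S hS => le_of_eq (mem_powersetCard.mp hS).2) h0 hcount) (le_of_eq ?_)
  rw [stC, ← hC0]; ring

/-- pushforward density, with the Jensen bound -/
lemma st_density {ι : Type*} (s : Finset ι) (c : ι → ℝ) (hc : ∀ i ∈ s, 0 ≤ c i) (φ : ι → W)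
    (F : ι → ℝ) (T : Alg) (hT : T = ∑ i ∈ s, c i • pt (φ i)) :
    ∃ f : W → ℝ, piN T 1 (fun ω => f (ω 0)) = ∑ i ∈ s, (c i * F i) • pt (φ i) ∧
      E T (range 1) (fun ω => f (ω 0) ^ (2 * k)) ≤ ∑ i ∈ s, c i * F i ^ (2 * k) := by
  classical
  have hcoef : ∀ (G : ι → ℝ) (w : W), (∑ i ∈ s, G i • pt (φ i)).coeff w
      = ∑ i ∈ s with φ i = w, G i := by
    intro G w
    rw [MonoidAlgebra.coeff_sum, Finsupp.finsetSum_apply, sum_filter]
    refine sum_congr rfl fun i _ => ?_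
    rw [MonoidAlgebra.coeff_smul_apply, coeff_pt, smul_eq_mul]
    split_ifs <;> simp
  have hTc : ∀ w, T.coeff w = ∑ i ∈ s with φ i = w, c i := fun w => by rw [hT, hcoef c w]
  have hzero : ∀ w, T.coeff w = 0 → ∀ i ∈ s, φ i = w → c i = 0 := by
    intro w h i hi he
    rw [hTc] at h
    exact (sum_eq_zero_iff_of_nonneg fun i hi => hc i (mem_filter.mp hi).1).mp h i
      (mem_filter.mpr ⟨hi, he⟩)
  refine ⟨fun w => (∑ i ∈ s with φ i = w, c i * F i) / T.coeff w, ?_, ?_⟩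
  · rw [piN_single]
    simp only [Function.update_self]
    apply MonoidAlgebra.coeff_injective
    ext w
    rw [hcoef, MonoidAlgebra.coeff_sum, Finsupp.finsetSum_apply]
    simp only [MonoidAlgebra.coeff_smul_apply, coeff_pt, smul_eq_mul, mul_ite, mul_one, mul_zero]
    rw [sum_ite_eq']
    by_cases h : T.coeff w = 0
    · rw [if_neg (by simpa using h), eq_comm]
      exact sum_eq_zero fun i hi => by
        rw [hzero w h i (mem_filter.mp hi).1 (mem_filter.mp hi).2, zero_mul]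
    · rw [if_pos (by simpa using h), mul_div_cancel₀ _ h]
  · rw [E, range_one, Ew_singleton]
    simp only [Function.update_self, smul_eq_mul]
    set T' := T.coeff.support
    have hmaps : ∀ i ∈ s, φ i ∈ T' ∨ c i = 0 := by
      intro i hi
      by_cases h : T.coeff (φ i) = 0
      · exact Or.inr (hzero _ h i hi rfl)
      · exact Or.inl (by simpa [T'] using h)
    have key : ∀ w ∈ T', T.coeff w * ((∑ i ∈ s with φ i = w, c i * F i) / T.coeff w) ^ (2 * k)
        ≤ ∑ i ∈ s with φ i = w, c i * F i ^ (2 * k) := by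
      intro w hw
      have hpos : 0 < T.coeff w := by
        refine lt_of_le_of_ne ?_ (Ne.symm (by simpa [T'] using hw))
        rw [hTc]
        exact sum_nonneg fun i hi => hc i (mem_filter.mp hi).1
      have hj := Real.pow_arith_mean_le_arith_mean_pow_of_even (s.filter fun i => φ i = w)
        (fun i => c i / T.coeff w) F (fun i hi => div_nonneg (hc i (mem_filter.mp hi).1) hpos.le)
        (by rw [← sum_div, ← hTc, div_self hpos.ne']) (even_two_mul k)
      simp only [div_mul_eq_mul_div, ← sum_div] at hj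
      rw [le_div_iff₀ hpos] at hj
      linarith
    calc ∑ w ∈ T', T.coeff w * ((∑ i ∈ s with φ i = w, c i * F i) / T.coeff w) ^ (2 * k)
        ≤ ∑ w ∈ T', ∑ i ∈ s with φ i = w, c i * F i ^ (2 * k) := sum_le_sum key
      _ = ∑ i ∈ s.filter (fun i => φ i ∈ T'), c i * F i ^ (2 * k) := by
          rw [← sum_fiberwise_of_maps_to (g := φ) (t := T') (fun i hi => (mem_filter.mp hi).2)]
          refine sum_congr rfl fun w hw => ?_
          rw [filter_filter]
          refine sum_congr (filter_congr fun i _ => ?_) fun _ _ => rfl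
          exact ⟨fun h => ⟨h ▸ hw, h⟩, fun h => h.2⟩
      _ = _ := sum_filter_of_ne fun i hi hne => (hmaps i hi).resolve_right
          fun h => hne (by rw [h, zero_mul])

/-- a density on the slots becomes one on the unit coordinate -/
lemma st_to_unit {μ B : Alg} (hμ : IsPM μ) (hB : IsPM B) (L : ℕ) {F : (ℕ → W) → ℝ} {w : ℝ}
    (hF : Bd μ k (range L) F w) :
    ∃ f : W → ℝ, piN (μ ^ L * B) 1 (fun ω => f (ω 0)) = piN μ L F * B ∧
      Bd (μ ^ L * B) k (range 1) (fun ω => f (ω 0)) w := by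
  set s := ((range L).pi fun _ => μ.coeff.support) ×ˢ B.coeff.support
  set wt : (∀ i ∈ range L, W) → ℝ := fun g => ∏ i ∈ (range L).attach, μ.coeff (g i.1 i.2)
  set φ : (∀ i ∈ range L, W) × W → W := fun p =>
    ((List.range L).map (patch om0 (range L) p.1)).prod * p.2
  have hword : ∀ (x : ℕ → W) (n : ℕ),
      sprod (fun i => pt (x i)) n = pt (((List.range n).map x).prod) := by
    intro x n
    induction n with
    | zero => simp [sprod, pt_one]
    | succ n ih => rw [sprod, ih, pt_mul, List.range_succ]; simp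
  have expand : ∀ G : (ℕ → W) → ℝ, piN μ L G * B
      = ∑ p ∈ s, (wt p.1 * B.coeff p.2 * G (patch om0 (range L) p.1)) • pt (φ p) := by
    intro G
    conv_lhs => arg 2; rw [eq_sum_pt B]
    rw [piN, E, Ew, sum_mul_sum, sum_product]
    refine sum_congr rfl fun g _ => sum_congr rfl fun v _ => ?_
    rw [hword, smul_smul, smul_mul_smul_comm, pt_mul]
    congr 1
    ring
  obtain ⟨f, hf1, hf2⟩ := st_density (k := k) s (fun p => wt p.1 * B.coeff p.2)
    (fun p _ => mul_nonneg (wt_nonneg hμ _ p.1) (hB.1 _)) φ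
    (fun p => F (patch om0 (range L) p.1)) (μ ^ L * B)
    (by rw [← piN_one μ L, expand]; simp)
  refine ⟨f, by rw [hf1, expand], hF.1, hf2.trans (le_of_eq_of_le ?_ hF.2)⟩
  have hBm : ∑ v ∈ B.coeff.support, B.coeff v = 1 := hB.2
  rw [E, Ew, sum_product]
  refine sum_congr rfl fun g _ => ?_
  simp only [smul_eq_mul]
  rw [← sum_mul, ← mul_sum, hBm, mul_one]

/-- telescoping expansion of one extra slot -/
lemma st_extra (μ : Alg) (L : ℕ) : ∀ m, m ≤ L →
    (μ - 1) * μ ^ L = ∑ j ∈ Icc 1 m, (-1 : ℝ) ^ j • ((1 - μ) ^ j * μ ^ (L - j))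
      + (-1 : ℝ) ^ (m + 1) • ((1 - μ) ^ (m + 1) * μ ^ (L - m)) := by
  intro m
  induction m with
  | zero =>
    intro _
    simp only [zero_add, pow_one, Nat.sub_zero, Finset.Icc_eq_empty_of_lt (show (0 : ℕ) < 1 by norm_num),
      sum_empty, neg_one_smul]
    noncomm_ring
  | succ m ih =>
    intro hm
    rw [ih (by omega), sum_Icc_succ_top (by omega : 1 ≤ m + 1), add_assoc]
    congr 1
    have e : L - m = (L - (m + 1)) + 1 := by omega
    have e2 : (1 - μ) ^ (m + 1) * μ ^ (L - m)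
        = (1 - μ) ^ (m + 1) * μ ^ (L - (m + 1)) - (1 - μ) ^ (m + 1 + 1) * μ ^ (L - (m + 1)) := by
      have hc : Commute μ (μ ^ (L - (m + 1))) := (Commute.refl μ).pow_right _
      rw [e, pow_succ' μ, pow_succ (1 - μ) (m + 1), mul_assoc ((1 - μ) ^ (m + 1)) (1 - μ)]
      noncomm_ring
    rw [e2, pow_succ (-1 : ℝ) (m + 1), mul_neg_one, neg_smul, smul_sub, sub_eq_add_neg]

lemma st_neg_one_pow (j : ℕ) : |(-1 : ℝ) ^ j| = 1 := by rw [abs_pow, abs_neg, abs_one, one_pow]

/-- the two atoms, one on each side of the unit -/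
lemma st_atoms {q : ℝ} (hq0 : 0 < q) (hq1 : q < 1) (hk : 1 ≤ k) (m0 : ℕ) (hm0 : 1 ≤ m0) :
    ∃ C : ℝ, 1 ≤ C ∧ ∀ Bn : ℕ, 2 * (m0 + 2) ≤ Bn →
      ∃ (fa fo : W → ℝ) (e : Alg),
        Bd (D q (unitStr (Bn ^ 2))) k (range 1) (fun ω => fa (ω 0)) (C * ((Bn : ℝ))⁻¹) ∧
        Bd (D q (unitStr (Bn ^ 2))) k (range 1) (fun ω => fo (ω 0)) (C * ((Bn : ℝ))⁻¹ ^ 2) ∧
        E (D q (unitStr (Bn ^ 2))) (range 1) (fun ω => fa (ω 0)) = 0 ∧
        E (D q (unitStr (Bn ^ 2))) (range 1) (fun ω => fo (ω 0)) = 0 ∧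
        D q (unitStr (Bn ^ 2 + 1)) = D q (unitStr (Bn ^ 2))
          + piN (D q (unitStr (Bn ^ 2))) 1 (fun ω => fa (ω 0))
          + piN (D q (unitStr (Bn ^ 2))) 1 (fun ω => fo (ω 0)) + e ∧
        D q (unitStr (Bn ^ 2 - 1)) = D q (unitStr (Bn ^ 2))
          - piN (D q (unitStr (Bn ^ 2))) 1 (fun ω => fa (ω 0))
          + piN (D q (unitStr (Bn ^ 2))) 1 (fun ω => fo (ω 0)) ∧
        nrm e ≤ C * ((Bn : ℝ))⁻¹ ^ (m0 + 1) := by
  set μ := stMu q with hμdef
  have hμ : IsPM μ := isPM_D hq0.le hq1.le _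
  have hB : IsPM (stB q) := isPM_D hq0.le hq1.le _
  have hμ1 : μ.coeff 1 ≠ 0 := by
    have := st_mu_one hq0.le hq1.le
    have := mul_pos hq0 hq0
    intro h; rw [hμdef] at h; linarith
  have hC := stC_nonneg hμ k
  set S2 := ∑ j ∈ Icc 2 m0, stC μ k j
  have hS2 : 0 ≤ S2 := sum_nonneg fun j _ => hC j
  refine ⟨1 + stC μ k 1 + S2 + stC μ k (m0 + 1), by
    linarith [hC 1, hC (m0 + 1)], fun Bn hBn => ?_⟩
  set C := 1 + stC μ k 1 + S2 + stC μ k (m0 + 1)
  set L := Bn ^ 2 with hL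
  set β := ((Bn : ℝ))⁻¹ with hβ
  have hB0 : (1 : ℝ) ≤ Bn := by exact_mod_cast (by omega : 1 ≤ Bn)
  have hβ0 : 0 ≤ β := by positivity
  have hβ1 : β ≤ 1 := inv_le_one_of_one_le₀ hB0
  have hLB : Bn ≤ L := Nat.le_self_pow (by norm_num) _
  set e1 := stE μ L 1
  set R2 := fun ω => ∑ j ∈ Icc 2 m0, (-1 : ℝ) ^ j * stE μ L j ω
  have be1 : Bd μ k (range L) e1 (stC μ k 1 * β) := by
    have := st_stE_bd hμ hμ1 hk (N := L) (j := 1) (Bn := Bn) (by omega) le_rfl (by omega)
    rwa [pow_one, div_eq_mul_inv] at this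
  have bR2 : Bd μ k (range L) R2 (S2 * β ^ 2) := by
    refine Bd.mono (mink_even hμ (range L) (Icc 2 m0) _ (fun j => stC μ k j * β ^ 2) k hk
      fun j hj => ?_) (le_of_eq (sum_mul _ _ _).symm)
    rw [mem_Icc] at hj
    refine Bd.mono ((st_stE_bd hμ hμ1 hk (N := L) (j := j) (Bn := Bn) (by omega) le_rfl
      (by omega)).const_mul _) ?_
    rw [st_neg_one_pow, one_mul, div_eq_mul_inv, ← inv_pow]
    exact mul_le_mul_of_nonneg_left (pow_le_pow_of_le_one hβ0 hβ1 hj.1) (hC j)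
  have bFa : Bd μ k (range L) (fun ω => (-1) * e1 ω + (1 / 2) * R2 ω) (C * β) := by
    have h2 := mink_even hμ (range L) ({0, 1} : Finset ℕ)
      (fun i ω => if i = 0 then (-1) * e1 ω else (1 / 2) * R2 ω)
      (fun i => if i = 0 then stC μ k 1 * β else S2 * β) k hk (fun i hi => by
        by_cases h : i = 0
        · simp only [h, if_true]
          simpa using be1.const_mul (-1)
        · simp only [if_neg h]
          refine Bd.mono (bR2.const_mul (1 / 2)) ?_
          rw [abs_of_pos (by norm_num : (0 : ℝ) < 1 / 2)]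
          nlinarith [mul_nonneg hS2 (mul_nonneg hβ0 (sub_nonneg.mpr hβ1)),
            mul_nonneg hS2 hβ0])
    rw [sum_pair (by norm_num)] at h2
    simp only [sum_pair (show (0 : ℕ) ≠ 1 by norm_num), if_true, if_neg (by norm_num : (1:ℕ) ≠ 0)] at h2
    refine Bd.mono h2 ?_
    rw [← add_mul]
    exact mul_le_mul_of_nonneg_right (by linarith [hC (m0 + 1)]) hβ0
  have bFo : Bd μ k (range L) (fun ω => (1 / 2) * R2 ω) (C * β ^ 2) := by
    refine Bd.mono (bR2.const_mul _) ?_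
    rw [abs_of_pos (by norm_num : (0 : ℝ) < 1 / 2), ← mul_assoc]
    exact mul_le_mul_of_nonneg_right (by linarith [hC 1, hC (m0 + 1)]) (by positivity)
  obtain ⟨fa, hfa, bfa⟩ := st_to_unit hμ hB L bFa
  obtain ⟨fo, hfo, bfo⟩ := st_to_unit hμ hB L bFo
  have hT : D q (unitStr L) = μ ^ L * stB q := st_D_unit q L
  have hZ : ∀ j, 1 ≤ j → mass ((1 - μ) ^ j * μ ^ (L - j)) = 0 := fun j hj => by
    rw [mass_mul, mass_pow, mass_sub, mass_one, hμ.2, sub_self, zero_pow (by omega), zero_mul]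
  have hR2 : piN μ L R2 = ∑ j ∈ Icc 2 m0, (-1 : ℝ) ^ j • ((1 - μ) ^ j * μ ^ (L - j)) := by
    show piN μ L (fun ω => ∑ j ∈ Icc 2 m0, _) = _
    rw [piN_sum]
    refine sum_congr rfl fun j hj => ?_
    rw [mem_Icc] at hj
    rw [piN_smul, st_piN_stE hμ1 (by omega)]
  have he1 : piN μ L e1 = (1 - μ) * μ ^ (L - 1) := by
    rw [st_piN_stE hμ1 (by omega), pow_one]
  have hFo : piN μ L (fun ω => (1 / 2) * R2 ω) = (1 / 2 : ℝ) • piN μ L R2 := piN_smul ..
  have hFa : piN μ L (fun ω => (-1) * e1 ω + (1 / 2) * R2 ω)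
      = -((1 - μ) * μ ^ (L - 1)) + (1 / 2 : ℝ) • piN μ L R2 := by
    rw [piN_add, piN_smul, piN_smul, he1, neg_one_smul]
  have mR2 : mass (piN μ L R2) = 0 := by
    rw [hR2, mass_eq, map_sum]
    refine sum_eq_zero fun j hj => ?_
    rw [mem_Icc] at hj
    rw [map_smul, ← mass_eq, hZ j (by omega), smul_zero]
  have cen : ∀ (T : Alg) (f : W → ℝ),
      E T (range 1) (fun ω => f (ω 0)) = mass (piN T 1 (fun ω => f (ω 0))) := by
    intro T f
    rw [piN_single, mass_eq, map_sum, E, range_one, Ew_singleton]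
    refine sum_congr rfl fun w _ => ?_
    rw [map_smul, ← mass_eq, mass_pt]
    simp
  set e : Alg := (-1 : ℝ) ^ (m0 + 1) • ((1 - μ) ^ (m0 + 1) * μ ^ (L - m0)) * stB q with he
  refine ⟨fa, fo, e, hT ▸ bfa, hT ▸ bfo, ?_, ?_, ?_, ?_, ?_⟩
  · rw [hT, cen, hfa, mass_mul, hFa, mass_add, mass_smul, mR2, mul_zero, add_zero, hB.2, mul_one,
      mass_eq, map_neg, ← mass_eq]
    have := hZ 1 le_rfl
    rw [pow_one] at this
    rw [this, neg_zero]
  · rw [hT, cen, hfo, mass_mul, hFo, mass_smul, mR2, mul_zero, zero_mul]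
  · rw [hT, hfa, hfo, st_D_unit, hFa, hFo]
    have hx := st_extra μ L m0 (by omega)
    have hsplit : Icc 1 m0 = insert 1 (Icc 2 m0) := by ext x; simp; omega
    rw [hsplit, sum_insert (by simp), ← hR2, pow_one, pow_one, neg_one_smul] at hx
    have hl : (μ - 1) * μ ^ L = μ ^ (L + 1) - μ ^ L := by rw [sub_mul, one_mul, pow_succ']
    rw [hl] at hx
    rw [← hμdef, he, ← add_mul, ← add_mul, ← add_mul, eq_add_of_sub_eq hx]
    congr 1
    module
  · rw [hT, hfa, hfo, st_D_unit, hFa, hFo, ← hμdef]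
    have hL1 : μ ^ L = μ * μ ^ (L - 1) := by rw [← pow_succ']; congr 1; omega
    rw [hL1, add_mul, neg_mul, smul_mul_assoc, sub_mul, one_mul, sub_mul]
    module
  · have h1 : (1 - μ) ^ (m0 + 1) * μ ^ (L - m0) = piN μ (L + 1) (stE μ (L + 1) (m0 + 1)) := by
      rw [st_piN_stE hμ1 (by omega), show L + 1 - (m0 + 1) = L - m0 by omega]
    rw [he]
    refine (nrm_mul _ _).trans ?_
    rw [hB.nrm_eq, mul_one, nrm_smul, st_neg_one_pow, one_mul, h1]
    refine (nrm_piN_le_of_Bd hμ hk _ (st_stE_bd hμ hμ1 hk (Bn := Bn) (by omega)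
      (by omega) (by omega))).trans ?_
    rw [div_eq_mul_inv, ← inv_pow]
    exact mul_le_mul_of_nonneg_right (by linarith [hC 1]) (by positivity)

/-! ### the pattern -/

/-- Thue-Morse pattern as booleans -/
def stPat : ℕ → ℕ → Bool
  | 0, _ => true
  | l + 1, i => if i < 2 ^ l then stPat l i else !stPat l (i - 2 ^ l)

/-- sign of a boolean -/
def stSg (b : Bool) : ℝ := if b then 1 else -1

lemma st_sgn : ∀ l i, sgn l i = stSg (stPat l i)
  | 0, _ => by simp [sgn, stPat, stSg]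
  | l + 1, i => by
    rw [sgn, stPat]
    split_ifs
    · exact st_sgn l i
    · rw [st_sgn l]; cases stPat l (i - 2 ^ l) <;> simp [stSg]

lemma st_pat_zero : ∀ l, stPat l 0 = true
  | 0 => rfl
  | l + 1 => by rw [stPat, if_pos (Nat.two_pow_pos l), st_pat_zero l]

lemma st_sum_sgn : ∀ l, 1 ≤ l → ∑ i ∈ range (2 ^ l), sgn l i = 0
  | l + 1, _ => by
    rw [show 2 ^ (l + 1) = 2 ^ l + 2 ^ l by rw [pow_succ]; omega, sum_range_add, ← sum_add_distrib]
    refine sum_eq_zero fun i hi => ?_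
    rw [mem_range] at hi
    rw [sgn, if_pos hi, sgn, if_neg (by omega), Nat.add_sub_cancel_left, add_neg_cancel]

/-- one atom -/
def stV (L : ℕ) (b : Bool) : List Bool := unitStr (if b then L + 1 else L - 1)

/-- units, pattern, units -/
def stWord (L a c n : ℕ) (p : ℕ → Bool) : List Bool :=
  (List.replicate a (unitStr L)).flatten ++ ((List.range n).map fun i => stV L (p i)).flatten ++
    (List.replicate c (unitStr L)).flatten

lemma st_D_map (q : ℝ) (V : ℕ → List Bool) : ∀ n,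
    D q (((List.range n).map V).flatten) = sprod (fun i => D q (V i)) n
  | 0 => by simp [D_nil, sprod]
  | n + 1 => by
    rw [List.range_succ, List.map_append, List.flatten_append, D_append, st_D_map q V n, sprod]
    simp

lemma st_D_word (q : ℝ) (L a c n : ℕ) (p : ℕ → Bool) : D q (stWord L a c n p)
    = D q (unitStr L) ^ a * sprod (fun i => D q (stV L (p i))) n * D q (unitStr L) ^ c := by
  rw [stWord, D_append, D_append, st_D_replicate, st_D_replicate, st_D_map]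

lemma st_len_map (V : ℕ → List Bool) : ∀ n,
    ((((List.range n).map V).flatten).length : ℝ) = ∑ i ∈ range n, ((V i).length : ℝ)
  | 0 => by simp
  | n + 1 => by
    rw [List.range_succ, List.map_append, List.flatten_append, List.length_append, Nat.cast_add,
      st_len_map V n, sum_range_succ]
    simp

lemma st_len_word (L a c n : ℕ) (hL : 1 ≤ L) (p : ℕ → Bool) :
    ((stWord L a c n p).length : ℝ)
      = ((a + n + c : ℕ) : ℝ) * (2 * L + 1) + 2 * ∑ i ∈ range n, stSg (p i) := by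
  have hv : ∀ b, ((stV L b).length : ℝ) = (2 * L + 1) + 2 * stSg b := by
    intro b
    cases b <;> simp [stV, st_len_unit, stSg]
    · rw [Nat.cast_sub hL]; push_cast; ring
    · ring
  rw [stWord, List.length_append, List.length_append, Nat.cast_add, Nat.cast_add, st_len_map]
  simp only [hv, sum_add_distrib, sum_const, card_range, nsmul_eq_mul, ← mul_sum]
  simp [List.length_flatten, st_len_unit]
  ring

lemma st_word_ne (L a c n : ℕ) (hL : 1 ≤ L) (hn : 1 ≤ n) (p p' : ℕ → Bool) (h : p 0 = true)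
    (h' : p' 0 = false) : stWord L a c n p ≠ stWord L a c n p' := by
  obtain ⟨n, rfl⟩ : ∃ j, n = j + 1 := ⟨n - 1, by omega⟩
  obtain ⟨L, rfl⟩ : ∃ j, L = j + 1 := ⟨L - 1, by omega⟩
  simp only [stWord, List.range_succ_eq_map, List.map_cons, List.flatten_cons, List.append_assoc]
  intro he
  have he' := List.append_cancel_left he
  rw [h, h'] at he'
  simp only [stV, if_true, Bool.false_eq_true, if_false, Nat.add_sub_cancel, st_unitStr,
    List.append_assoc] at he'
  rw [show L + 1 + 1 = L + 2 by ring, List.replicate_add, List.flatten_append,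
    List.append_assoc] at he'
  have := List.append_cancel_left he'
  simp [List.replicate_succ] at this

/-! ### algebra of products -/

lemma st_sprod_sum {C : Type*} [Fintype C] (c0 : C) (X : ℕ → C → Alg) : ∀ n,
    sprod (fun i => ∑ c, X i c) n
      = ∑ ch : Fin n → C, sprod (fun i => if h : i < n then X i (ch ⟨i, h⟩) else X i c0) n
  | 0 => by simp [sprod]
  | n + 1 => by
    classical
    rw [← (Fin.snocEquiv fun _ : Fin (n + 1) => C).sum_comp, Fintype.sum_prod_type, sprod,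
      st_sprod_sum c0 X n, sum_mul_sum, sum_comm]
    refine sum_congr rfl fun c _ => sum_congr rfl fun ch _ => ?_
    rw [sprod]
    congr 1
    · refine sprod_congr n fun i hi => ?_
      rw [dif_pos hi, dif_pos (by omega)]
      show X i (ch ⟨i, hi⟩) = X i (Fin.snoc (α := fun _ => C) ch c _)
      rw [show (⟨i, by omega⟩ : Fin (n + 1)) = Fin.castSucc ⟨i, hi⟩ from rfl, Fin.snoc_castSucc]
    · rw [dif_pos (by omega)]
      show X n c = X n (Fin.snoc (α := fun _ => C) ch c _)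
      rw [show (⟨n, by omega⟩ : Fin (n + 1)) = Fin.last n from rfl, Fin.snoc_last]

lemma st_nrm_sprod (X : ℕ → Alg) : ∀ n, (∀ i < n, nrm (X i) ≤ 2) → nrm (sprod X n) ≤ 2 ^ n
  | 0, _ => by simp [sprod, IsPM.one.nrm_eq]
  | n + 1, h => by
    rw [sprod, pow_succ]
    exact (nrm_mul _ _).trans (mul_le_mul (st_nrm_sprod X n fun i hi => h i (by omega))
      (h n (by omega)) (nrm_nonneg _) (by positivity))

lemma st_sprod_diff (X Y : ℕ → Alg) {ε : ℝ} (hε : 0 ≤ ε) : ∀ n, (∀ i < n, nrm (X i) ≤ 2) →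
    (∀ i < n, nrm (Y i) ≤ 2) → (∀ i < n, nrm (X i - Y i) ≤ ε) →
    nrm (sprod X n - sprod Y n) ≤ n * 2 ^ n * ε
  | 0, _, _, _ => by simp [sprod, nrm_zero]
  | n + 1, hX, hY, hd => by
    have e : sprod X (n + 1) - sprod Y (n + 1)
        = (sprod X n - sprod Y n) * X n + sprod Y n * (X n - Y n) := by
      rw [sprod, sprod]; noncomm_ring
    rw [e]
    refine (nrm_add _ _).trans ?_
    have h1 := (nrm_mul (sprod X n - sprod Y n) (X n)).trans (mul_le_mul
      (st_sprod_diff X Y hε n (fun i hi => hX i (by omega)) (fun i hi => hY i (by omega))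
        (fun i hi => hd i (by omega))) (hX n (by omega)) (nrm_nonneg _) (by positivity))
    have h2 := (nrm_mul (sprod Y n) (X n - Y n)).trans (mul_le_mul
      (st_nrm_sprod Y n fun i hi => hY i (by omega)) (hd n (by omega)) (nrm_nonneg _)
      (by positivity))
    have h3 : (0 : ℝ) ≤ 2 ^ n * ε := by positivity
    push_cast
    rw [pow_succ]
    nlinarith [h1, h2, h3]

/-! ### the families -/

/-- choices: 0 unit, 1 the odd density, 2 the even one -/
def stH (fa fo : W → ℝ) (s : ℕ → ℝ) (i : ℕ) (c : Fin 3) (v : W) : ℝ :=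
  if c = 0 then 1 else if c = 1 then s i * fa v else fo v

/-- density of one choice pattern, starting at slot a -/
def stTermF (fa fo : W → ℝ) (s : ℕ → ℝ) (a n : ℕ) (ch : Fin n → Fin 3) (ω : ℕ → W) : ℝ :=
  ∏ i ∈ range n, stH fa fo s i (if h : i < n then ch ⟨i, h⟩ else 0) (ω (a + i))

/-- coordinates of a pattern -/
def stSupp (a n : ℕ) (ch : Fin n → Fin 3) : Finset ℕ :=
  (univ.filter fun i : Fin n => ch i ≠ 0).image fun i : Fin n => a + (i : ℕ)

/-- number of odd choices -/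
def stNa {n : ℕ} (ch : Fin n → Fin 3) : ℕ := (univ.filter fun i => ch i = 1).card

/-- number of even choices -/
def stNo {n : ℕ} (ch : Fin n → Fin 3) : ℕ := (univ.filter fun i => ch i = 2).card

lemma stTermF_fin (fa fo : W → ℝ) (s : ℕ → ℝ) (a n : ℕ) (ch : Fin n → Fin 3) (ω : ℕ → W) :
    stTermF fa fo s a n ch ω = ∏ i : Fin n, stH fa fo s i (ch i) (ω (a + i)) := by
  rw [stTermF, ← Fin.prod_univ_eq_prod_range]
  exact prod_congr rfl fun i _ => by rw [dif_pos i.2]

lemma st_fin3 (z : Fin 3) : z = 0 ∨ z = 1 ∨ z = 2 := by fin_cases z <;> simp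

lemma st_supp_prod {M : Type*} [CommMonoid M] (a n : ℕ) (ch : Fin n → Fin 3) (g : ℕ → M) :
    ∏ j ∈ stSupp a n ch, g j = ∏ i : Fin n, if ch i ≠ 0 then g (a + i) else 1 := by
  rw [stSupp, prod_image fun x _ y _ hxy => Fin.ext (by simpa using hxy), prod_filter]

/-- the slot j of a pattern -/
def stAt {n : ℕ} (a : ℕ) (ch : Fin n → Fin 3) (j : ℕ) : Fin 3 :=
  if h : j - a < n then ch ⟨j - a, h⟩ else 0

lemma stAt_add {n : ℕ} (a : ℕ) (ch : Fin n → Fin 3) (i : Fin n) : stAt a ch (a + i) = ch i := by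
  simp [stAt]

lemma st_supp_fun (fa fo : W → ℝ) (s : ℕ → ℝ) (a n : ℕ) (ch : Fin n → Fin 3) :
    (fun ω : ℕ → W => ∏ j ∈ stSupp a n ch, stH fa fo s (j - a) (stAt a ch j) (ω j))
      = stTermF fa fo s a n ch := by
  funext ω
  rw [st_supp_prod, stTermF_fin]
  refine prod_congr rfl fun i _ => ?_
  rw [stAt_add, Nat.add_sub_cancel_left]
  rcases st_fin3 (ch i) with h | h | h <;> simp [h, stH]

lemma st_supp_w (wa wo : ℝ) (a n : ℕ) (ch : Fin n → Fin 3) :
    ∏ j ∈ stSupp a n ch, (if stAt a ch j = 1 then wa else wo) = wa ^ stNa ch * wo ^ stNo ch := by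
  rw [st_supp_prod, stNa, stNo, ← prod_const, ← prod_const, prod_filter, prod_filter,
    ← prod_mul_distrib]
  refine prod_congr rfl fun i _ => ?_
  rw [stAt_add]
  rcases st_fin3 (ch i) with h | h | h <;> simp [h]

lemma st_supp_mem {a n : ℕ} {ch : Fin n → Fin 3} {j : ℕ} (hj : j ∈ stSupp a n ch) :
    stAt a ch j = 1 ∨ stAt a ch j = 2 := by
  obtain ⟨i, hi, rfl⟩ := mem_image.mp hj
  have h0 := (mem_filter.mp hi).2
  rw [stAt_add]
  rcases st_fin3 (ch i) with h | h | h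
  · exact absurd h h0
  · exact Or.inl h
  · exact Or.inr h

/-- one pattern is a good term -/
lemma st_term_good {T : Alg} (hT : IsPM T) {fa fo : W → ℝ} {wa wo : ℝ}
    (ha : Bd T k (range 1) (fun ω => fa (ω 0)) wa) (ho : Bd T k (range 1) (fun ω => fo (ω 0)) wo)
    (ca : E T (range 1) (fun ω => fa (ω 0)) = 0) (co : E T (range 1) (fun ω => fo (ω 0)) = 0)
    (s : ℕ → ℝ) (hs : ∀ i, |s i| = 1) (a n : ℕ) (ch : Fin n → Fin 3) :
    (Term.mk (stSupp a n ch) (stTermF fa fo s a n ch) (wa ^ stNa ch * wo ^ stNo ch)).Good T k := by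
  rw [← st_supp_fun, ← st_supp_w wa wo a n ch]
  refine st_prod_good hT (stSupp a n ch) (fun j v => stH fa fo s (j - a) (stAt a ch j) v)
    (fun j => if stAt a ch j = 1 then wa else wo) (fun j hj => ?_) (fun j hj => ?_)
  · rcases st_supp_mem hj with h | h
    · simp only [h, stH, one_ne_zero, if_false, if_true]
      have := Ew_smul T (range 1) (fun ω => fa (ω 0)) om0 (s (j - a))
      simp only [smul_eq_mul] at this
      rw [E, this, ← E, ca, mul_zero]
    · simp only [h, stH, show (2 : Fin 3) ≠ 0 by decide, show (2 : Fin 3) ≠ 1 by decide, if_false]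
      exact co
  · rcases st_supp_mem hj with h | h
    · simp only [h, stH, one_ne_zero, if_false, if_true]
      have := ha.const_mul (s (j - a))
      rwa [hs, one_mul] at this
    · simp only [h, stH, show (2 : Fin 3) ≠ 0 by decide, show (2 : Fin 3) ≠ 1 by decide, if_false]
      exact ho

lemma stH_zero (fa fo : W → ℝ) (s : ℕ → ℝ) (i : ℕ) (v : W) : stH fa fo s i 0 v = 1 := rfl

lemma st_term_piN (T : Alg) (fa fo : W → ℝ) (s : ℕ → ℝ) (a n c : ℕ) (ch : Fin n → Fin 3) :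
    piN T (a + n + c) (stTermF fa fo s a n ch)
      = T ^ a * sprod (fun i => piN T 1 fun ω =>
          stH fa fo s i (if h : i < n then ch ⟨i, h⟩ else 0) (ω 0)) n * T ^ c := by
  have e : stTermF fa fo s a n ch = shiftF a (fun ω => ∏ i ∈ range n,
      stH fa fo s i (if h : i < n then ch ⟨i, h⟩ else 0) (ω i)) := by
    funext ω
    simp only [stTermF, shiftF, Function.comp_apply]
  rw [e, piN_shift T a n c _ (st_prod_dep (range n)
      (fun i v => stH fa fo s i (if h : i < n then ch ⟨i, h⟩ else 0) v)),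
    st_piN_prod T (fun i v => stH fa fo s i (if h : i < n then ch ⟨i, h⟩ else 0) v) n]

/-- the selected patterns, scaled by c -/
def stFam (fa fo : W → ℝ) (wa wo : ℝ) (s : ℕ → ℝ) (a n : ℕ) (c : ℝ)
    (Sel : Finset (Fin n → Fin 3)) : Fam :=
  ⟨↥Sel, fun ch => ⟨stSupp a n ch.1, fun ω => c * stTermF fa fo s a n ch.1 ω,
    |c| * (wa ^ stNa ch.1 * wo ^ stNo ch.1)⟩⟩

lemma st_fam_val (T : Alg) (fa fo : W → ℝ) (wa wo : ℝ) (s : ℕ → ℝ) (a n : ℕ) (c : ℝ)
    (Sel : Finset (Fin n → Fin 3)) (N : ℕ) :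
    (stFam fa fo wa wo s a n c Sel).val T N
      = c • ∑ ch ∈ Sel, piN T N (stTermF fa fo s a n ch) := by
  show piN T N (fun ω => ∑ ch : ↥Sel, c * stTermF fa fo s a n ch.1 ω) = _
  rw [piN_sum, smul_sum, ← sum_coe_sort Sel (fun ch => c • piN T N (stTermF fa fo s a n ch))]
  exact sum_congr rfl fun ch _ => piN_smul ..

lemma st_fam_good {T : Alg} (hT : IsPM T) {fa fo : W → ℝ} {wa wo : ℝ}
    (ha : Bd T k (range 1) (fun ω => fa (ω 0)) wa) (ho : Bd T k (range 1) (fun ω => fo (ω 0)) wo)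
    (ca : E T (range 1) (fun ω => fa (ω 0)) = 0) (co : E T (range 1) (fun ω => fo (ω 0)) = 0)
    (s : ℕ → ℝ) (hs : ∀ i, |s i| = 1) (a n : ℕ) (c : ℝ) (Sel : Finset (Fin n → Fin 3))
    (hSel : ∀ ch ∈ Sel, 1 ≤ stNa ch + stNo ch) {lo hi : ℕ} (hlo : lo ≤ a) (hhi : a + n ≤ hi) :
    (stFam fa fo wa wo s a n c Sel).Good T k n lo hi := by
  refine ⟨fun ch => st_term_smul (st_term_good hT ha ho ca co s hs a n ch.1) c, ?_, ?_, ?_⟩
  · intro ch j hj
    obtain ⟨i, -, rfl⟩ := mem_image.mp hj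
    simp only [mem_Ico]
    omega
  · intro ch
    refine Finset.Nonempty.image ?_ _
    by_contra hne
    rw [not_nonempty_iff_eq_empty, filter_eq_empty_iff] at hne
    have h0 : ∀ i, ch.1 i = 0 := fun i => not_not.mp (hne (mem_univ i))
    have := hSel ch.1 ch.2
    simp [stNa, stNo, h0] at this
  · intro ch
    exact card_image_le.trans ((card_filter_le _ _).trans (by simp))

lemma st_weight {n : ℕ} {C β : ℝ} (hC : 1 ≤ C) (h0 : 0 ≤ β) (h1 : β ≤ 1) (ch : Fin n → Fin 3)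
    {e : ℕ} (he : e ≤ stNa ch + 2 * stNo ch) :
    (C * β) ^ stNa ch * (C * β ^ 2) ^ stNo ch ≤ C ^ (2 * n) * β ^ e := by
  rw [mul_pow, mul_pow, ← pow_mul, mul_mul_mul_comm, ← pow_add, ← pow_add]
  refine mul_le_mul (pow_le_pow_right₀ hC ?_) (pow_le_pow_of_le_one h0 h1 he) (by positivity)
    (by positivity)
  have h1' : stNa ch ≤ n := (card_filter_le _ _).trans (by simp)
  have h2' : stNo ch ≤ n := (card_filter_le _ _).trans (by simp)
  omega

/-- a single odd choice -/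
def stOne (n : ℕ) (i : Fin n) : Fin n → Fin 3 := fun j => if j = i then 1 else 0

lemma stOne_inj (n : ℕ) : Function.Injective (stOne n) := fun i j h => by
  by_contra hne
  have := congrFun h i
  simp [stOne, hne] at this

lemma stOne_iff {n : ℕ} (ch : Fin n → Fin 3) :
    (stNa ch = 1 ∧ stNo ch = 0) ↔ ch ∈ (univ : Finset (Fin n)).image (stOne n) := by
  constructor
  · rintro ⟨h1, h2⟩
    obtain ⟨i, hi⟩ := card_eq_one.mp h1
    refine mem_image.mpr ⟨i, mem_univ _, funext fun j => ?_⟩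
    have hj : ch j = 1 ↔ j = i := by
      have h := congrArg (fun s : Finset (Fin n) => j ∈ s) hi
      simpa using h
    have h2' : ch j ≠ 2 := by
      intro h
      exact notMem_empty j (card_eq_zero.mp h2 ▸ mem_filter.mpr ⟨mem_univ j, h⟩)
    unfold stOne
    split_ifs with hji
    · exact (hj.mpr hji).symm
    · have h1' : ch j ≠ 1 := fun h => hji (hj.mp h)
      revert h1' h2'
      generalize ch j = z
      fin_cases z <;> simp
  · intro h
    obtain ⟨i, -, rfl⟩ := mem_image.mp h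
    refine ⟨card_eq_one.mpr ⟨i, ?_⟩, card_eq_zero.mpr ?_⟩
    · ext j; simp [stOne]
    · refine filter_eq_empty_iff.mpr fun j _ => ?_
      unfold stOne; split_ifs <;> decide

/-- the linear odd part -/
noncomputable def stLin (T : Alg) (fa fo : W → ℝ) (s : ℕ → ℝ) (a n M : ℕ) : Alg :=
  ∑ ch ∈ (univ : Finset (Fin n)).image (stOne n), piN T M (stTermF fa fo s a n ch)

lemma st_one_fun (fa fo : W → ℝ) (s : ℕ → ℝ) (a n : ℕ) (i : Fin n) :
    stTermF fa fo s a n (stOne n i)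
      = shiftF (a + (i : ℕ)) fun ω => s i * fa (ω 0) := by
  funext ω
  rw [stTermF_fin, prod_eq_single i]
  · simp [stOne, stH, shiftF]
  · intro j _ hj; simp [stOne, hj, stH]
  · exact fun h => absurd (mem_univ i) h

lemma st_one_piN (T : Alg) (fa fo : W → ℝ) (s : ℕ → ℝ) (a n c : ℕ) (i : Fin n) :
    piN T (a + n + c) (stTermF fa fo s a n (stOne n i))
      = s i • place T (piN T 1 fun ω => fa (ω 0)) (a + i) (c + (n - 1 - i)) := by
  have hi := i.2
  rw [st_one_fun, show a + n + c = (a + i) + 1 + (c + (n - 1 - i)) by omega,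
    piN_shift T _ 1 _ _ (fun x y h => by simp only [h 0 (by simp)]), piN_smul, place,
    mul_smul_comm, smul_mul_assoc]

lemma st_lin_eq (T : Alg) (fa fo : W → ℝ) (l a c n : ℕ) (hn : n = 2 ^ l) :
    stLin T fa fo (sgn l) a n (a + n + c)
      = tmSum T (piN T 1 fun ω => fa (ω 0)) l a (c + (n - 1)) := by
  rw [stLin, sum_image fun x _ y _ h => stOne_inj _ h, tmSum_eq, ← hn,
    ← Fin.sum_univ_eq_sum_range]
  refine sum_congr rfl fun i _ => ?_
  have hi := i.2
  rw [st_one_piN, show c + (n - 1 - (i : ℕ)) = c + (n - 1) - i by omega]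

lemma stTermF_neg (fa fo : W → ℝ) (s : ℕ → ℝ) (a n : ℕ) (ch : Fin n → Fin 3) (ω : ℕ → W) :
    stTermF fa fo (fun i => - s i) a n ch ω = (-1) ^ stNa ch * stTermF fa fo s a n ch ω := by
  rw [stTermF_fin, stTermF_fin, stNa, ← prod_const, prod_filter, ← prod_mul_distrib]
  refine prod_congr rfl fun i _ => ?_
  unfold stH
  by_cases h1 : ch i = 1
  · simp [h1]
  · simp [h1]

/-- expansion of a product of perturbed units -/
lemma st_expand (T : Alg) (fa fo : W → ℝ) (s : ℕ → ℝ) (a n c : ℕ) :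
    T ^ a * sprod (fun i => T + s i • piN T 1 (fun ω => fa (ω 0)) + piN T 1 (fun ω => fo (ω 0))) n
        * T ^ c
      = ∑ ch : Fin n → Fin 3, piN T (a + n + c) (stTermF fa fo s a n ch) := by
  have e : (fun i => T + s i • piN T 1 (fun ω => fa (ω 0)) + piN T 1 (fun ω => fo (ω 0)))
      = fun i => ∑ cc : Fin 3, piN T 1 (fun ω => stH fa fo s i cc (ω 0)) := by
    funext i
    rw [Fin.sum_univ_three]
    simp [stH, piN_one, piN_smul]
  rw [e, st_sprod_sum (0 : Fin 3), mul_sum, sum_mul]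
  refine sum_congr rfl fun ch _ => ?_
  rw [st_term_piN]
  congr 2
  refine sprod_congr n fun i hi => ?_
  rw [dif_pos hi, dif_pos hi]

/-! ### the estimates at the first level -/

/-- patterns of second and higher order -/
def stSelG (n : ℕ) : Finset (Fin n → Fin 3) :=
  univ.filter fun ch => 2 ≤ stNa ch + 2 * stNo ch

/-- odd patterns of third and higher order -/
def stSelD (n : ℕ) : Finset (Fin n → Fin 3) :=
  univ.filter fun ch => Odd (stNa ch) ∧ 3 ≤ stNa ch + 2 * stNo ch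

lemma st_one_not_sel {n : ℕ} {ch : Fin n → Fin 3} (h : ch ∈ (univ : Finset (Fin n)).image (stOne n)) :
    ch ∉ stSelG n ∧ ch ∉ stSelD n := by
  obtain ⟨h1, h2⟩ := (stOne_iff ch).mpr h
  simp [stSelG, stSelD, h1, h2]

lemma st_dec_G (T : Alg) (fa fo : W → ℝ) (s : ℕ → ℝ) (a n M : ℕ) :
    ∑ ch : Fin n → Fin 3, piN T M (stTermF fa fo s a n ch)
      = T ^ M + stLin T fa fo s a n M + ∑ ch ∈ stSelG n, piN T M (stTermF fa fo s a n ch) := by
  have hzero : T ^ M = ∑ ch ∈ ({fun _ => 0} : Finset (Fin n → Fin 3)),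
      piN T M (stTermF fa fo s a n ch) := by
    rw [sum_singleton]
    have : stTermF fa fo s a n (fun _ => 0) = fun _ => 1 := by
      funext ω
      rw [stTermF_fin]
      simp [stH_zero]
    rw [this, piN_one]
  have hna : stNa (fun _ : Fin n => (0 : Fin 3)) = 0 := by simp [stNa]
  have hno : stNo (fun _ : Fin n => (0 : Fin 3)) = 0 := by simp [stNo]
  rw [hzero, stLin, ← sum_union, ← sum_union]
  · refine (sum_subset (subset_univ _) fun ch _ hch => absurd ?_ hch).symm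
    simp only [mem_union, mem_singleton]
    by_cases h1 : stNa ch + 2 * stNo ch = 0
    · left; left
      funext i
      have ha' : stNa ch = 0 := by omega
      have ho' : stNo ch = 0 := by omega
      rw [stNa, card_eq_zero, filter_eq_empty_iff] at ha'
      rw [stNo, card_eq_zero, filter_eq_empty_iff] at ho'
      rcases st_fin3 (ch i) with h | h | h
      · exact h
      · exact absurd h (ha' (mem_univ i))
      · exact absurd h (ho' (mem_univ i))
    · by_cases h2 : stNa ch + 2 * stNo ch = 1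
      · left; right; exact (stOne_iff ch).mp ⟨by omega, by omega⟩
      · right; simp only [stSelG, mem_filter, mem_univ, true_and]; omega
  · rw [disjoint_union_left, disjoint_singleton_left]
    exact ⟨by simp [stSelG, hna, hno], disjoint_left.mpr fun ch h => (st_one_not_sel h).1⟩
  · rw [disjoint_singleton_left]
    intro h
    have := ((stOne_iff _).mpr h).1
    omega

lemma st_dec_D (T : Alg) (fa fo : W → ℝ) (s : ℕ → ℝ) (a n M : ℕ) :
    ∑ ch : Fin n → Fin 3, piN T M (stTermF fa fo (fun i => - s i) a n ch)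
      - ∑ ch : Fin n → Fin 3, piN T M (stTermF fa fo s a n ch)
      = (-2 : ℝ) • stLin T fa fo s a n M
        + (-2 : ℝ) • ∑ ch ∈ stSelD n, piN T M (stTermF fa fo s a n ch) := by
  have hneg : ∀ ch : Fin n → Fin 3, piN T M (stTermF fa fo (fun i => - s i) a n ch)
      = (-1 : ℝ) ^ stNa ch • piN T M (stTermF fa fo s a n ch) := by
    intro ch
    rw [← piN_smul]
    congr 1
    funext ω
    exact stTermF_neg ..
  rw [stLin, smul_sum, smul_sum, ← sum_sub_distrib,
    ← sum_union (disjoint_left.mpr fun ch h => (st_one_not_sel h).2)]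
  refine (sum_subset (subset_univ _) fun ch _ hch => ?_).symm.trans (sum_congr rfl fun ch hch => ?_)
  · rw [mem_union, not_or] at hch
    rcases Nat.even_or_odd (stNa ch) with hev | hodd
    · rw [hneg, hev.neg_one_pow, one_smul, sub_self]
    · exfalso
      by_cases h2 : stNa ch + 2 * stNo ch < 3
      · exact hch.1 ((stOne_iff ch).mp (by obtain ⟨r, hr⟩ := hodd; omega))
      · exact hch.2 (by
          simp only [stSelD, mem_filter, mem_univ, true_and]; exact ⟨hodd, by omega⟩)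
  · have hodd : Odd (stNa ch) := by
      rw [mem_union] at hch
      rcases hch with hch | hch
      · rw [((stOne_iff ch).mpr hch).1]; exact odd_one
      · simp only [stSelD, mem_filter] at hch; exact hch.2.1
    rw [hneg, hodd.neg_one_pow, neg_one_smul]
    module

lemma st_word_err {q : ℝ} (h0 : 0 ≤ q) (h1 : q ≤ 1) (L a c n : ℕ) (p : ℕ → Bool) (fa fo : W → ℝ)
    (e : Alg) {ε : ℝ} (hε : 0 ≤ ε)
    (hna : nrm (piN (D q (unitStr L)) 1 (fun ω => fa (ω 0))) ≤ 1 / 2)
    (hno : nrm (piN (D q (unitStr L)) 1 (fun ω => fo (ω 0))) ≤ 1 / 2)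
    (hVp : D q (unitStr (L + 1)) = D q (unitStr L)
      + piN (D q (unitStr L)) 1 (fun ω => fa (ω 0))
      + piN (D q (unitStr L)) 1 (fun ω => fo (ω 0)) + e)
    (hVm : D q (unitStr (L - 1)) = D q (unitStr L)
      - piN (D q (unitStr L)) 1 (fun ω => fa (ω 0))
      + piN (D q (unitStr L)) 1 (fun ω => fo (ω 0)))
    (he : nrm e ≤ ε) :
    nrm (D q (stWord L a c n p) - ∑ ch : Fin n → Fin 3,
      piN (D q (unitStr L)) (a + n + c) (stTermF fa fo (fun i => stSg (p i)) a n ch))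
      ≤ n * 2 ^ n * ε := by
  have hT : IsPM (D q (unitStr L)) := isPM_D h0 h1 _
  rw [st_D_word, ← st_expand, ← sub_mul, ← mul_sub]
  refine (nrm_mul _ _).trans ?_
  rw [(hT.pow c).nrm_eq, mul_one]
  refine (nrm_mul _ _).trans ?_
  rw [(hT.pow a).nrm_eq, one_mul]
  refine st_sprod_diff _ _ hε n (fun i _ => ?_) (fun i _ => ?_) (fun i _ => ?_)
  · rw [(isPM_D h0 h1 _).nrm_eq]; norm_num
  · have e1 := nrm_add (D q (unitStr L)
      + stSg (p i) • piN (D q (unitStr L)) 1 (fun ω => fa (ω 0)))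
      (piN (D q (unitStr L)) 1 (fun ω => fo (ω 0)))
    have e2 := nrm_add (D q (unitStr L))
      (stSg (p i) • piN (D q (unitStr L)) 1 (fun ω => fa (ω 0)))
    have e3 : |stSg (p i)| = 1 := by cases p i <;> simp [stSg]
    rw [nrm_smul, hT.nrm_eq, e3, one_mul] at e2
    linarith
  · cases p i
    · simp only [stV, stSg, Bool.false_eq_true, if_false, neg_one_smul, hVm, ← sub_eq_add_neg,
        sub_self, nrm_zero]
      exact hε
    · simp only [stV, stSg, if_true, one_smul, hVp]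
      rw [add_sub_cancel_left]
      exact he

lemma st_gap (l n M : ℕ) (h : 4 * n ≤ M) (hn : 1 ≤ n) :
    l * (M / (4 * (l + 1))) ≤ M / 2 ∧
      l * (M / (4 * (l + 1))) + n ≤ M - M / 2 - n + (n - 1) ∧
      M ≤ (M / (4 * (l + 1)) + 1) * (4 * (l + 1)) := by
  obtain ⟨g, hg⟩ : ∃ g, g = M / (4 * (l + 1)) := ⟨_, rfl⟩
  have h1 : g * (4 * (l + 1)) ≤ M := hg ▸ Nat.div_mul_le_self M _
  have h2 : M < g * (4 * (l + 1)) + 4 * (l + 1) :=
    hg ▸ Nat.lt_div_mul_add (a := M) (show 0 < 4 * (l + 1) by omega)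
  have h3 : g * (4 * (l + 1)) = 4 * (l * g) + 4 * g := by ring
  rw [← hg, add_mul, one_mul]
  refine ⟨by omega, ?_, by omega⟩
  rcases Nat.eq_zero_or_pos g with h0 | h0
  · rw [h0, mul_zero]; omega
  · omega

lemma st_smooth_pow {l KU A b M g : ℕ} {σ : ℝ} (hl : 1 ≤ l) (hb : 0 < b)
    (hσ2 : σ ^ 2 ≤ KU * (b : ℝ) ^ A) (hM : M = b ^ (A + 1))
    (hg : M ≤ (g + 1) * (4 * (l + 1))) :
    (2 * 2 ^ l * (σ / Real.sqrt ((g : ℝ) + 1))) ^ l
      ≤ Real.sqrt ((2 * 2 ^ l) ^ (2 * l) * (4 * (2 * l) * KU) ^ l / (b : ℝ) ^ l) := by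
  refine Real.le_sqrt_of_sq_le ?_
  rw [← pow_mul, mul_comm l 2, pow_mul]
  have hMR : (M : ℝ) = (b : ℝ) ^ A * b := by rw [hM, pow_succ]; push_cast; ring
  have hgR : (M : ℝ) ≤ ((g : ℝ) + 1) * (4 * ((l : ℝ) + 1)) := by exact_mod_cast hg
  have hbR : (0 : ℝ) < b := by exact_mod_cast hb
  have hlR : (1 : ℝ) ≤ l := by exact_mod_cast hl
  have hKU : (0 : ℝ) ≤ KU := Nat.cast_nonneg _
  have hη2 : (2 * 2 ^ l * (σ / Real.sqrt ((g : ℝ) + 1))) ^ 2
      ≤ (2 * 2 ^ l) ^ 2 * (4 * (2 * l) * KU / b) := by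
    rw [mul_pow]
    refine mul_le_mul_of_nonneg_left ?_ (by positivity)
    rw [div_pow, Real.sq_sqrt (by positivity), div_le_div_iff₀ (by positivity) hbR]
    calc σ ^ 2 * b ≤ KU * (b : ℝ) ^ A * b := mul_le_mul_of_nonneg_right hσ2 hbR.le
      _ = KU * (M : ℝ) := by rw [hMR]; ring
      _ ≤ KU * (((g : ℝ) + 1) * (4 * ((l : ℝ) + 1))) := mul_le_mul_of_nonneg_left hgR hKU
      _ ≤ KU * (((g : ℝ) + 1) * (4 * (2 * (l : ℝ)))) :=
          mul_le_mul_of_nonneg_left
            (mul_le_mul_of_nonneg_left (by linarith) (by positivity)) hKU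
      _ = _ := by ring
  refine (pow_le_pow_left₀ (sq_nonneg _) hη2 l).trans (le_of_eq ?_)
  rw [mul_pow, ← pow_mul, div_pow, mul_div_assoc]

lemma st_lin_bd {T : Alg} (hT : IsPM T) {σ : ℝ} (hσ : Smooth T σ) (Z : Alg) {l n KU A b M : ℕ}
    (hl : 1 ≤ l) (hn : n = 2 ^ l) (hb : 0 < b) (hσ2 : σ ^ 2 ≤ KU * (b : ℝ) ^ A)
    (hM : M = b ^ (A + 1)) (hMn : 4 * n ≤ M) :
    nrm (tmSum T Z l (M / 2) (M - M / 2 - n + (n - 1)))
      ≤ Real.sqrt ((2 * 2 ^ l) ^ (2 * l) * (4 * (2 * l) * KU) ^ l / (b : ℝ) ^ l) * nrm Z := by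
  have hn1 : 1 ≤ n := hn ▸ Nat.one_le_two_pow
  obtain ⟨g1, g2, g3⟩ := st_gap l n M hMn hn1
  refine (nrm_tmSum hT hσ Z (M / (4 * (l + 1))) l _ _ g1 (by rw [← hn]; exact g2)).trans ?_
  exact mul_le_mul_of_nonneg_right (st_smooth_pow hl hb hσ2 hM g3) (nrm_nonneg _)

lemma st_beta_pow {b h m Q : ℕ} (hb : 1 ≤ b) (hQ : Q ≤ h * m) :
    ((((b ^ h : ℕ) : ℝ))⁻¹) ^ m * (b : ℝ) ^ Q ≤ 1 := by
  have hbR : (1 : ℝ) ≤ b := by exact_mod_cast hb
  rw [inv_pow, inv_mul_le_iff₀ (by positivity), mul_one]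
  push_cast
  rw [← pow_mul]
  exact pow_le_pow_right₀ hbR hQ

lemma st_sqrt_pow {K : ℝ} {b l Q : ℕ} (hb : 1 ≤ b) (hQ : 2 * Q ≤ l) :
    Real.sqrt (K / (b : ℝ) ^ l) * (b : ℝ) ^ Q ≤ Real.sqrt K := by
  have hbR : (1 : ℝ) ≤ b := by exact_mod_cast hb
  rw [Real.sqrt_div' _ (by positivity), div_mul_eq_mul_div, div_le_iff₀ (by positivity)]
  refine mul_le_mul_of_nonneg_left ?_ (Real.sqrt_nonneg _)
  refine Real.le_sqrt_of_sq_le ?_
  rw [← pow_mul]
  exact pow_le_pow_right₀ hbR (by omega)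

lemma st_wt {n : ℕ} {C β : ℝ} (hC : 1 ≤ C) (h0 : 0 ≤ β) (h1 : β ≤ 1) (fa fo : W → ℝ)
    (s : ℕ → ℝ) (a : ℕ) (cc : ℝ) (hcc : |cc| ≤ 2) (Sel : Finset (Fin n → Fin 3)) (e : ℕ)
    (hSel : ∀ ch ∈ Sel, e ≤ stNa ch + 2 * stNo ch) :
    (stFam fa fo (C * β) (C * β ^ 2) s a n cc Sel).wt ≤ 2 * 3 ^ n * C ^ (2 * n) * β ^ e := by
  show ∑ ch : ↥Sel, |cc| * ((C * β) ^ stNa ch.1 * (C * β ^ 2) ^ stNo ch.1) ≤ _
  rw [sum_coe_sort Sel (fun ch => |cc| * ((C * β) ^ stNa ch * (C * β ^ 2) ^ stNo ch))]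
  refine (sum_le_card_nsmul _ _ _ fun ch hch => mul_le_mul hcc
    (st_weight hC h0 h1 ch (hSel ch hch)) (by positivity) (by norm_num)).trans ?_
  rw [nsmul_eq_mul]
  have : ((Sel.card : ℕ) : ℝ) ≤ 3 ^ n := by
    have := card_le_univ Sel
    simp at this
    exact_mod_cast this
  calc (Sel.card : ℝ) * (2 * (C ^ (2 * n) * β ^ e))
      ≤ 3 ^ n * (2 * (C ^ (2 * n) * β ^ e)) := mul_le_mul_of_nonneg_right this (by positivity)
    _ = _ := by ring

lemma st_errG {X P Lin S : Alg} {ε : ℝ} (h : nrm (X - (P + Lin + S)) ≤ ε) :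
    nrm (X - P - S) ≤ 2 * (ε + nrm Lin) := by
  have e : X - P - S = (X - (P + Lin + S)) + Lin := by abel
  rw [e]
  have := nrm_add (X - (P + Lin + S)) Lin
  linarith [nrm_nonneg (X - (P + Lin + S)), nrm_nonneg Lin]

lemma st_errD {X Y Sx Sy Lin F : Alg} {ε : ℝ} (hX : nrm (X - Sx) ≤ ε) (hY : nrm (Y - Sy) ≤ ε)
    (h : Sy - Sx = (-2 : ℝ) • Lin + F) : nrm (Y - X - F) ≤ 2 * (ε + nrm Lin) := by
  have e : Y - X - F = (Y - Sy) - (X - Sx) + (-2 : ℝ) • Lin := by
    rw [show F = Sy - Sx - (-2 : ℝ) • Lin by rw [h]; abel]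
    abel
  rw [e]
  have h1 := nrm_add ((Y - Sy) - (X - Sx)) ((-2 : ℝ) • Lin)
  have h2 := nrm_sub (Y - Sy) (X - Sx)
  rw [nrm_smul, show |(-2 : ℝ)| = 2 by norm_num] at h1
  linarith

/-- the first level -/
theorem base_stage {q : ℝ} (hq0 : 0 < q) (hq1 : q < 1) (k A Q : ℕ) (hk : 1 ≤ k)
    (hA : 16 ≤ A) (hAe : Even A) :
    ∃ d K b0 : ℕ, ∀ b ≥ b0, ∃ s : Stage, s.OK q k d Q A (3 * (A / 2)) A b K := by
  obtain ⟨KU, L0, hU⟩ := unit_smooth hq0 hq1
  obtain ⟨l, hl⟩ : ∃ l, l = 2 * Q + 1 := ⟨_, rfl⟩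
  obtain ⟨n, hn⟩ : ∃ n, n = 2 ^ l := ⟨_, rfl⟩
  have hn1 : 1 ≤ n := hn ▸ Nat.one_le_two_pow
  obtain ⟨C, hC1, hat⟩ := st_atoms (k := k) hq0 hq1 hk l (by omega)
  obtain ⟨Kt, hKt⟩ : ∃ Kt : ℝ, Kt = (2 * 2 ^ l) ^ (2 * l) * (4 * (2 * l) * KU) ^ l := ⟨_, rfl⟩
  obtain ⟨cE, hcE⟩ : ∃ cE : ℝ, cE = n * 2 ^ n * C + Real.sqrt Kt * C := ⟨_, rfl⟩
  obtain ⟨K, hK⟩ : ∃ K, K = max (max (max 3 n) KU)
      (max ⌈(2 : ℝ) * 3 ^ n * C ^ (2 * n)⌉₊ ⌈2 * cE⌉₊) := ⟨_, rfl⟩
  have hK3 : (3 : ℝ) ≤ K := by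
    exact_mod_cast hK ▸ le_max_of_le_left (le_max_of_le_left (le_max_left 3 n))
  have hKn : n ≤ K := hK ▸ le_max_of_le_left (le_max_of_le_left (le_max_right _ _))
  have hKKU : (KU : ℝ) ≤ K := by
    exact_mod_cast hK ▸ le_max_of_le_left (le_max_right (max 3 n) KU)
  have hKw : (2 : ℝ) * 3 ^ n * C ^ (2 * n) ≤ K :=
    (Nat.le_ceil _).trans (by exact_mod_cast hK ▸ le_max_of_le_right (le_max_left _ _))
  have hKe : 2 * cE ≤ K :=
    (Nat.le_ceil _).trans (by exact_mod_cast hK ▸ le_max_of_le_right (le_max_right _ _))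
  refine ⟨n, K, max (max L0 (2 * (l + 2))) (max ⌈2 * C⌉₊ (4 * n)), fun b hb => ?_⟩
  simp only [ge_iff_le, max_le_iff] at hb
  obtain ⟨⟨hbL, hbm⟩, hbC, hbn⟩ := hb
  obtain ⟨h, hA2⟩ := hAe
  have hb0 : 0 < b := by omega
  have hbB : b ≤ b ^ h := Nat.le_self_pow (by omega) b
  obtain ⟨fa, fo, e, ba, bo, ca, co, hVp, hVm, he⟩ := hat (b ^ h) (by omega)
  have hL : (b ^ h) ^ 2 = b ^ A := by rw [← pow_mul]; congr 1; omega
  rw [hL] at ba bo ca co hVp hVm
  obtain ⟨β, hβ⟩ : ∃ β : ℝ, β = (((b ^ h : ℕ) : ℝ))⁻¹ := ⟨_, rfl⟩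
  rw [← hβ] at ba bo he
  have hBR : (1 : ℝ) ≤ ((b ^ h : ℕ) : ℝ) := by exact_mod_cast (show 1 ≤ b ^ h by omega)
  have hβ0 : 0 ≤ β := hβ ▸ by positivity
  have hβ1 : β ≤ 1 := hβ ▸ inv_le_one_of_one_le₀ hBR
  have hL1 : 1 ≤ b ^ A := Nat.one_le_pow _ _ hb0
  have hLR : ((b ^ A : ℕ) : ℝ) = (b : ℝ) ^ A := by push_cast; rfl
  have hMb : b ≤ slotLen b A := Nat.le_self_pow (by omega) b
  obtain ⟨M, hM⟩ : ∃ M, M = slotLen b A := ⟨_, rfl⟩
  rw [← hM] at hMb
  have hsum : M / 2 + n + (M - M / 2 - n) = M := by omega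
  have hT : IsPM (D q (unitStr (b ^ A))) := isPM_D hq0.le hq1.le _
  obtain ⟨σ, hσ, hσ2⟩ := hU (b ^ A) (hbL.trans (Nat.le_self_pow (by omega) b))
  rw [hLR] at hσ2
  have hwa : C * β ≤ 1 / 2 := by
    have hb2 : 2 * C ≤ ((b ^ h : ℕ) : ℝ) :=
      (Nat.le_ceil _).trans (by exact_mod_cast hbC.trans hbB)
    rw [hβ, ← div_eq_mul_inv, div_le_iff₀ (by linarith)]; linarith
  have hwo : C * β ^ 2 ≤ C * β := by
    rw [sq]; exact mul_le_mul_of_nonneg_left (mul_le_of_le_one_right hβ0 hβ1) (by linarith)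
  have nZa := nrm_piN_le_of_Bd hT hk 1 ba
  have nZo := nrm_piN_le_of_Bd hT hk 1 bo
  have hlinb : nrm (stLin (D q (unitStr (b ^ A))) fa fo (sgn l) (M / 2) n M)
      ≤ Real.sqrt (Kt / (b : ℝ) ^ l) * (C * β) := by
    have e1 := st_lin_eq (D q (unitStr (b ^ A))) fa fo l (M / 2) (M - M / 2 - n) n hn
    rw [hsum] at e1
    rw [e1]
    have := st_lin_bd hT hσ (piN (D q (unitStr (b ^ A))) 1 fun ω => fa (ω 0)) (M := M)
      (by omega : 1 ≤ l) hn hb0 hσ2 hM (by omega)
    rw [← hKt] at this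
    exact this.trans
      (mul_le_mul_of_nonneg_left nZa (Real.sqrt_nonneg _))
  have herr : ∀ t : ℝ, t ≤ 2 * (n * 2 ^ n * (C * β ^ (l + 1))
      + nrm (stLin (D q (unitStr (b ^ A))) fa fo (sgn l) (M / 2) n M)) →
      t * (b : ℝ) ^ Q ≤ K := by
    intro t ht
    refine (mul_le_mul_of_nonneg_right ht (by positivity)).trans (le_trans ?_ hKe)
    rw [mul_assoc, hcE]
    refine mul_le_mul_of_nonneg_left ?_ (by norm_num)
    rw [add_mul]
    refine add_le_add ?_ ?_
    · have h1 : β ^ (l + 1) * (b : ℝ) ^ Q ≤ 1 :=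
        hβ ▸ st_beta_pow (by omega) (le_trans (by omega : Q ≤ l + 1) (Nat.le_mul_of_pos_left _ (by omega)))
      calc n * 2 ^ n * (C * β ^ (l + 1)) * (b : ℝ) ^ Q
          = n * 2 ^ n * C * (β ^ (l + 1) * (b : ℝ) ^ Q) := by ring
        _ ≤ _ := mul_le_of_le_one_right (by positivity) h1
    · refine (mul_le_mul_of_nonneg_right hlinb (by positivity)).trans ?_
      calc Real.sqrt (Kt / (b : ℝ) ^ l) * (C * β) * (b : ℝ) ^ Q
          = Real.sqrt (Kt / (b : ℝ) ^ l) * (b : ℝ) ^ Q * (C * β) := by ring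
        _ ≤ Real.sqrt Kt * C :=
            mul_le_mul (st_sqrt_pow (by omega) (by omega))
              (mul_le_of_le_one_right (by linarith) hβ1) ba.1 (Real.sqrt_nonneg _)
  have habs : ∀ i, |sgn l i| = 1 := fun i => by rw [st_sgn]; cases stPat l i <;> simp [stSg]
  have hsg : sgn l = fun i => stSg (stPat l i) := funext (st_sgn l)
  have hsg' : (fun i => - sgn l i) = fun i => stSg (!stPat l i) := by
    funext i; rw [st_sgn]; cases stPat l i <;> simp [stSg]
  have hwords : ∀ (p : ℕ → Bool),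
      nrm (D q (stWord (b ^ A) (M / 2) (M - M / 2 - n) n p) - ∑ ch : Fin n → Fin 3,
        piN (D q (unitStr (b ^ A))) M (stTermF fa fo (fun i => stSg (p i)) (M / 2) n ch))
      ≤ n * 2 ^ n * (C * β ^ (l + 1)) := by
    intro p
    have := st_word_err hq0.le hq1.le (b ^ A) (M / 2) (M - M / 2 - n) n p fa fo e
      (ε := C * β ^ (l + 1)) (by positivity) (nZa.trans hwa) (nZo.trans (hwo.trans hwa)) hVp hVm he
    rwa [hsum] at this
  have hx0 : ∑ i ∈ range n, stSg (stPat l i) = 0 := by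
    rw [hn, ← st_sum_sgn l (by omega)]; simp only [st_sgn]
  have hy0 : ∑ i ∈ range n, stSg (!stPat l i) = 0 := by
    rw [sum_congr rfl fun i _ => (congrFun hsg' i).symm, sum_neg_distrib, hn,
      st_sum_sgn l (by omega), neg_zero]
  have hwin : ∀ (cc : ℝ) (Sel : Finset (Fin n → Fin 3)),
      (∀ ch ∈ Sel, 1 ≤ stNa ch + stNo ch) →
      (stFam fa fo (C * β) (C * β ^ 2) (sgn l) (M / 2) n cc Sel).Good (D q (unitStr (b ^ A))) k n
        (slotLen b A / 2 - winLen b A K) (slotLen b A / 2 + winLen b A K) := by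
    intro cc Sel hSel
    rw [← hM]
    refine st_fam_good hT ba bo ca co (sgn l) habs (M / 2) n cc Sel hSel (by omega) ?_
    have : n ≤ winLen b A K := hKn.trans (Nat.le_mul_of_pos_right K (Nat.pow_pos hb0))
    omega
  have hwt : ∀ (Sel : Finset (Fin n → Fin 3)) (cc : ℝ) (ee : ℕ), |cc| ≤ 2 →
      (∀ ch ∈ Sel, ee ≤ stNa ch + 2 * stNo ch) →
      (stFam fa fo (C * β) (C * β ^ 2) (sgn l) (M / 2) n cc Sel).wt * (b : ℝ) ^ (ee * h) ≤ K := by
    intro Sel cc ee hcc hSel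
    refine (mul_le_mul_of_nonneg_right (st_wt hC1 hβ0 hβ1 fa fo _ _ cc hcc Sel ee hSel)
      (by positivity)).trans (le_of_eq_of_le ?_ hKw)
    rw [mul_assoc, show (b : ℝ) ^ (ee * h) = ((b ^ h : ℕ) : ℝ) ^ ee by
      push_cast; rw [← pow_mul, mul_comm h], ← mul_pow, hβ, inv_mul_cancel₀ (by positivity),
      one_pow, mul_one]
  have hlen : ∀ p : ℕ → Bool, ∑ i ∈ range n, stSg (p i) = 0 →
      ((stWord (b ^ A) (M / 2) (M - M / 2 - n) n p).length : ℝ)
        = (M : ℝ) * (2 * (b : ℝ) ^ A + 1) := fun p hp => by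
    rw [st_len_word _ _ _ n hL1, hp, hsum, hLR]; ring
  refine ⟨⟨unitStr (b ^ A), stWord (b ^ A) (M / 2) (M - M / 2 - n) n (stPat l),
    stWord (b ^ A) (M / 2) (M - M / 2 - n) n (fun i => !stPat l i),
    stFam fa fo (C * β) (C * β ^ 2) (sgn l) (M / 2) n 1 (stSelG n),
    stFam fa fo (C * β) (C * β ^ 2) (sgn l) (M / 2) n (-2) (stSelD n)⟩,
    ⟨?_, ?_, ?_, ?_, ?_, ?_, ?_, ?_, ?_, ?_⟩⟩
  · rw [hlen _ hx0]
    have hMR : (M : ℝ) = (b : ℝ) ^ (A + 1) := by rw [hM, slotLen]; push_cast; ring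
    have hbA : (1 : ℝ) ≤ (b : ℝ) ^ A := one_le_pow₀ (by exact_mod_cast (show 1 ≤ b by omega))
    calc (M : ℝ) * (2 * (b : ℝ) ^ A + 1) ≤ (M : ℝ) * (3 * (b : ℝ) ^ A) :=
          mul_le_mul_of_nonneg_left (by linarith) (Nat.cast_nonneg _)
      _ = 3 * (b : ℝ) ^ (2 * A + 1) := by rw [hMR]; ring
      _ ≤ _ := mul_le_mul_of_nonneg_right hK3 (by positivity)
  · exact_mod_cast (hlen _ hy0).trans (hlen _ hx0).symm
  · exact st_word_ne _ _ _ n hL1 hn1 _ _ (st_pat_zero l) (by simp [st_pat_zero])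
  · exact ⟨σ, hσ, hσ2.trans (mul_le_mul_of_nonneg_right hKKU (by positivity))⟩
  · exact hwin 1 _ fun ch hch => by simp only [stSelG, mem_filter] at hch; omega
  · exact hwin (-2) _ fun ch hch => by simp only [stSelD, mem_filter] at hch; omega
  · have := hwt (stSelG n) 1 2 (by norm_num) fun ch hch => by
      simp only [stSelG, mem_filter] at hch; exact hch.2
    rw [show 2 * h = A by omega] at this
    exact this
  · have := hwt (stSelD n) (-2) 3 (by norm_num) fun ch hch => by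
      simp only [stSelD, mem_filter] at hch; exact hch.2.2
    rw [show A / 2 = h by omega]
    exact this
  · refine herr _ ?_
    have h1 := hwords (stPat l)
    rw [← hsg, st_dec_G] at h1
    show nrm (_ - _ - Fam.val _ _ _) ≤ _
    rw [← hM, st_fam_val, one_smul]
    exact st_errG h1
  · refine herr _ ?_
    have h1 := hwords (stPat l)
    have h2 := hwords (fun i => !stPat l i)
    rw [← hsg] at h1
    rw [← hsg'] at h2
    show nrm (_ - _ - Fam.val _ _ _) ≤ _
    rw [← hM, st_fam_val]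
    exact st_errD h1 h2 (st_dec_D (D q (unitStr (b ^ A))) fa fo (sgn l) (M / 2) n M)

end Vale.Agent.P321
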