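import Mathlib
import Vale.Agent.P321.Defs

/-
Ordered products over slots: perturbation, expansion, and products of push-forwards; finite
products of slot densities.
-/

open scoped BigOperators
open Finset

namespace Vale.Agent.P321

variable {T : Alg} {k : ℕ}

lemma nrm_sprod_le_prod (X : ℕ → Alg) (β : ℕ → ℝ) : ∀ g, (∀ i < g, nrm (X i) ≤ β i) →
    nrm (sprod X g) ≤ ∏ i ∈ range g, β i
  | 0, _ => by simp [sprod, IsPM.one.nrm_eq]
  | g + 1, h => by
    rw [sprod, prod_range_succ]
    refine (nrm_mul _ _).trans (mul_le_mul (nrm_sprod_le_prod X β g fun i hi => h i (by omega))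
      (h g (by omega)) (nrm_nonneg _) ?_)
    exact prod_nonneg fun i hi => (nrm_nonneg _).trans (h i (by simp at hi; omega))

lemma nrm_sprod_sub_le (X Y : ℕ → Alg) (β : ℕ → ℝ) (ε : ℝ) : ∀ g,
    (∀ i < g, nrm (X i) ≤ β i ∧ nrm (Y i) ≤ β i ∧ 1 ≤ β i ∧ nrm (X i - Y i) ≤ ε) →
    nrm (sprod X g - sprod Y g) ≤ g * ε * ∏ i ∈ range g, β i
  | 0, _ => by simp [sprod, nrm_zero]
  | g + 1, h => by
    have ih := nrm_sprod_sub_le X Y β ε g fun i hi => h i (by omega)
    obtain ⟨hX, hY, h1, hd⟩ := h g (by omega)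
    have hε : 0 ≤ ε := (nrm_nonneg _).trans hd
    have e : sprod X (g + 1) - sprod Y (g + 1)
        = (sprod X g - sprod Y g) * X g + sprod Y g * (X g - Y g) := by
      simp only [sprod]; noncomm_ring
    rw [e, prod_range_succ]
    set P := ∏ i ∈ range g, β i
    have hP : 0 ≤ P := prod_nonneg fun i hi => by
      have := (h i (by simp at hi; omega)).2.2.1; linarith
    have hg : 0 ≤ (g : ℝ) * ε * P := by positivity
    refine (nrm_add _ _).trans ?_
    have a1 := (nrm_mul (sprod X g - sprod Y g) (X g)).trans (mul_le_mul ih hX (nrm_nonneg _) hg)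
    have a2 := (nrm_mul (sprod Y g) (X g - Y g)).trans (mul_le_mul
      (nrm_sprod_le_prod Y β g fun i hi => (h i (by omega)).2.1) hd (nrm_nonneg _) hP)
    have a3 : P * ε ≤ ε * (P * β g) := by nlinarith [mul_nonneg hP hε]
    push_cast
    nlinarith

/-- expansion of an ordered product -/
lemma sprod_add_fun (X Z : ℕ → Alg) : ∀ g, sprod (fun i => X i + Z i) g
    = ∑ A ∈ (range g).powerset, sprod (fun i => if i ∈ A then Z i else X i) g
  | 0 => by simp [sprod]
  | g + 1 => by
    rw [range_add_one, sum_powerset_insert notMem_range_self, sprod, sprod_add_fun X Z g, mul_add,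
      sum_mul, sum_mul]
    congr 1
    · refine sum_congr rfl fun A hA => ?_
      rw [mem_powerset] at hA
      have : g ∉ A := fun h => notMem_range_self (hA h)
      simp only [sprod]
      rw [if_neg this]
    · refine sum_congr rfl fun A hA => ?_
      simp only [sprod]
      rw [if_pos (mem_insert_self _ _), sprod_congr g fun i hi => ?_]
      have : i ≠ g := by omega
      simp [this]

/-- density of a finite product of translated slot densities -/
def slotFn (M : ℕ) (h : ℕ → (ℕ → W) → ℝ) (S : Finset ℕ) : (ℕ → W) → ℝ :=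
  fun ω => ∏ i ∈ S, shiftF (i * M) (h i) ω

lemma range_image_slot (M i : ℕ) : (range M).image (fun x => i * M + x) = slotI M i := by
  ext x
  simp only [mem_image, mem_range, slotI, mem_Ico, Nat.succ_mul]
  exact ⟨by rintro ⟨a, ha, rfl⟩; omega, fun h => ⟨x - i * M, by omega, by omega⟩⟩

lemma slotI_disj {M i j : ℕ} (h : i ≠ j) : Disjoint (slotI M i) (slotI M j) := by
  rw [disjoint_left]
  intro x hx hy
  simp only [slotI, mem_Ico, Nat.succ_mul] at hx hy
  rcases Nat.lt_or_ge i j with hij | hij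
  · have := Nat.mul_le_mul_right M (show i + 1 ≤ j by omega)
    rw [Nat.succ_mul] at this
    omega
  · have := Nat.mul_le_mul_right M (show j + 1 ≤ i by omega)
    rw [Nat.succ_mul] at this
    omega

lemma shiftF_slot_dependsOn {M : ℕ} {h : (ℕ → W) → ℝ} (hd : DependsOn h ↑(range M)) (i : ℕ) :
    DependsOn (shiftF (i * M) h) ↑(slotI M i) := by
  rw [← range_image_slot]; exact shiftF_dependsOn hd _

lemma slotFn_dependsOn {M : ℕ} {h : ℕ → (ℕ → W) → ℝ} {S : Finset ℕ}
    (hd : ∀ i ∈ S, DependsOn (h i) ↑(range M)) : DependsOn (slotFn M h S) ↑(unitsOf M S) :=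
  fun _ _ hxy => prod_congr rfl fun i hi => shiftF_slot_dependsOn (hd i hi) i fun j hj =>
    hxy j (mem_biUnion.mpr ⟨i, hi, hj⟩)

lemma slotFn_bd (hT : IsPM T) {M : ℕ} {h : ℕ → (ℕ → W) → ℝ} {w : ℕ → ℝ} {S : Finset ℕ}
    (hd : ∀ i ∈ S, DependsOn (h i) ↑(range M)) (hb : ∀ i ∈ S, Bd T k (range M) (h i) (w i)) :
    Bd T k (unitsOf M S) (slotFn M h S) (∏ i ∈ S, w i) := by
  refine ⟨prod_nonneg fun i hi => (hb i hi).1, ?_⟩
  induction S using Finset.induction_on with
  | empty => simp [slotFn, unitsOf, E, Ew_empty]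
  | @insert a S ha ih =>
    have hS := ih (fun i hi => hd i (mem_insert_of_mem hi)) fun i hi => hb i (mem_insert_of_mem hi)
    have hdisj : Disjoint (slotI M a) (unitsOf M S) := by
      rw [unitsOf, disjoint_biUnion_right]
      exact fun i hi => slotI_disj fun e => ha (e ▸ hi)
    have hfS := slotFn_dependsOn (h := h) (S := S) fun i hi => hd i (mem_insert_of_mem hi)
    have hfa := shiftF_slot_dependsOn (hd a (mem_insert_self _ _)) a
    have e : E T (unitsOf M (insert a S)) (fun ω => slotFn M h (insert a S) ω ^ (2 * k))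
        = E T (slotI M a) (fun ω => shiftF (a * M) (h a) ω ^ (2 * k))
          * E T (unitsOf M S) (fun ω => slotFn M h S ω ^ (2 * k)) := by
      rw [← E_mul_disjoint hdisj _ _ (fun x y hxy => by simp only [hfa hxy])
        (fun x y hxy => by simp only [hfS hxy]), unitsOf, biUnion_insert]
      congr 1
      funext ω
      rw [slotFn, prod_insert ha, mul_pow]; rfl
    rw [e, prod_insert ha, mul_pow, ← range_image_slot]
    have ea := E_shiftF (T := T) (range M) (fun ω => h a ω ^ (2 * k)) (a * M)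
    refine mul_le_mul ((le_of_eq ea).trans (hb a (mem_insert_self _ _)).2) hS
      (Ew_nonneg hT _ _ fun x => (even_two_mul k).pow_nonneg _)
      (pow_nonneg (hb a (mem_insert_self _ _)).1 _)

lemma slotFn_cen {M : ℕ} {h : ℕ → (ℕ → W) → ℝ} {S : Finset ℕ}
    (hd : ∀ i ∈ S, DependsOn (h i) ↑(range M)) (hc : ∀ i ∈ S, ∀ ω, Ew T (range M) (h i) ω = 0)
    {i : ℕ} (hi : i ∈ S) (ω : ℕ → W) : Ew T (slotI M i) (slotFn M h S) ω = 0 := by
  have e : slotFn M h S = fun x => slotFn M h (S.erase i) x * shiftF (i * M) (h i) x := by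
    funext x
    exact (prod_erase_mul S _ hi).symm
  rw [e, Ew_mul_real (S := ↑(unitsOf M (S.erase i))) ?_ _ _
    (slotFn_dependsOn fun j hj => hd j (mem_of_mem_erase hj))]
  · have h2 : Ew T ((range M).image (fun x => i * M + x)) (shiftF (i * M) (h i)) ω
        = Ew T (range M) (h i) (ω ∘ fun x => i * M + x) :=
      Ew_image T (range M) (h i) (fun x => i * M + x) (fun a b hab => by simpa using hab) ω
    rw [range_image_slot, hc i hi] at h2
    rw [h2, mul_zero]
  · intro x hx hx'
    simp only [unitsOf, Finset.coe_biUnion, Set.mem_iUnion, Finset.mem_coe, mem_erase] at hx'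
    obtain ⟨j, ⟨hj, _⟩, hxj⟩ := hx'
    exact disjoint_left.mp (slotI_disj hj.symm) hx hxj

lemma unitsOf_subset_range {M g : ℕ} {S : Finset ℕ} (h : S ⊆ range g) :
    unitsOf M S ⊆ range (g * M) := by
  intro x hx
  simp only [unitsOf, mem_biUnion, slotI, mem_Ico] at hx
  obtain ⟨i, hi, _, h2⟩ := hx
  have := Nat.mul_le_mul_right M (show i + 1 ≤ g from mem_range.mp (h hi))
  exact mem_range.mpr (by omega)

/-- product of slot push-forwards -/
lemma piN_slotFn (T : Alg) (M : ℕ) (h : ℕ → (ℕ → W) → ℝ) : ∀ g (S : Finset ℕ), S ⊆ range g →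
    (∀ i ∈ S, DependsOn (h i) ↑(range M)) →
    piN T (g * M) (slotFn M h S)
      = sprod (fun i => if i ∈ S then piN T M (h i) else T ^ M) g
  | 0, S, hS, _ => by
    rw [range_zero, subset_empty] at hS
    subst hS
    simp [slotFn, sprod, piN_zero]
  | g + 1, S, hS, hd => by
    have hSg : S.erase g ⊆ range g := fun x hx => by
      have := mem_range.mp (hS (mem_of_mem_erase hx))
      have := ne_of_mem_erase hx
      exact mem_range.mpr (by omega)
    have hdS : DependsOn (slotFn M h (S.erase g)) ↑(range (g * M)) := fun x y hxy =>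
      slotFn_dependsOn (fun j hj => hd j (mem_of_mem_erase hj)) fun j hj =>
        hxy j (unitsOf_subset_range hSg hj)
    have ih := piN_slotFn T M h g (S.erase g) hSg fun i hi => hd i (mem_of_mem_erase hi)
    have er : sprod (fun i => if i ∈ S.erase g then piN T M (h i) else T ^ M) g
        = sprod (fun i => if i ∈ S then piN T M (h i) else T ^ M) g :=
      sprod_congr g fun i hi => by
        have : i ≠ g := by omega
        simp [this]
    rw [sprod, ← er, ← ih]
    by_cases hg : g ∈ S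
    · rw [if_pos hg, ← piN_concat T (g * M) M _ _ hdS (hd g hg), Nat.succ_mul]
      congr 1
      funext ω
      exact (prod_erase_mul S _ hg).symm
    · rw [if_neg hg, ← piN_one T M, ← piN_concat T (g * M) M _ (fun _ => 1) hdS (fun _ _ _ => rfl),
        Nat.succ_mul]
      congr 1
      funext ω
      rw [erase_eq_of_notMem hg, mul_one]

/-- the bounded-size tail of the subset weights -/
lemma sum_pow_card_le (g : ℕ) (α : ℝ) (hα : 0 ≤ α) (hg : 2 * (g : ℝ) * α ≤ 1) (Fr : Finset ℕ)
    (hF : Fr.card ≤ g) (r : ℕ) :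
    ∑ A ∈ Fr.powerset.filter (fun A => r ≤ A.card), α ^ A.card ≤ 2 * ((g : ℝ) * α) ^ r := by
  have hg0 : 0 ≤ (g : ℝ) * α := by positivity
  calc ∑ A ∈ Fr.powerset.filter (fun A => r ≤ A.card), α ^ A.card
      = ∑ j ∈ Ico r (g + 1), ∑ A ∈ Fr.powersetCard j, α ^ A.card := by
        rw [← sum_biUnion]
        · refine sum_congr ?_ fun _ _ => rfl
          ext A
          simp only [mem_filter, mem_powerset, mem_biUnion, mem_Ico, mem_powersetCard]
          constructor
          · rintro ⟨h1, h2⟩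
            exact ⟨A.card, ⟨h2, by have := card_le_card h1; omega⟩, h1, rfl⟩
          · rintro ⟨j, ⟨h2, _⟩, h1, rfl⟩
            exact ⟨h1, h2⟩
        · intro i _ j _ hij
          rw [Function.onFun, disjoint_left]
          intro A hA hA'
          rw [mem_powersetCard] at hA hA'
          exact hij (hA.2.symm.trans hA'.2)
    _ ≤ ∑ j ∈ Ico r (g + 1), ((g : ℝ) * α) ^ j := by
        refine sum_le_sum fun j _ => ?_
        rw [sum_congr rfl fun A hA => by rw [(mem_powersetCard.mp hA).2], sum_const, card_powersetCard,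
          nsmul_eq_mul, mul_pow]
        refine mul_le_mul_of_nonneg_right ?_ (by positivity)
        exact_mod_cast (Nat.choose_le_pow Fr.card j).trans (Nat.pow_le_pow_left hF j)
    _ ≤ 2 * ((g : ℝ) * α) ^ r := by
        rw [sum_Ico_eq_sum_range]
        have : ∀ n, ∑ i ∈ range n, ((g : ℝ) * α) ^ (r + i) ≤ 2 * ((g : ℝ) * α) ^ r := by
          intro n
          simp only [pow_add, ← mul_sum]
          rw [mul_comm 2]
          refine mul_le_mul_of_nonneg_left ?_ (by positivity)
          calc ∑ i ∈ range n, ((g : ℝ) * α) ^ i ≤ ∑ i ∈ range n, ((1 : ℝ) / 2) ^ i :=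
                sum_le_sum fun i _ => pow_le_pow_left₀ hg0 (by linarith) i
            _ ≤ 2 := sum_geometric_two_le n
        exact this _

/-- product family of translated copies of a family -/
lemma exists_prod_fam {T : Alg} {k : ℕ} (hT : IsPM T) {F : Fam} {d lo hi M : ℕ}
    (hF : F.Good T k d lo hi) (hlh : hi ≤ M) (S : Finset ℕ) :
    ∃ G : Fam, (∀ i, (G.t i).Good T k) ∧
      (∀ i, ∀ x ∈ (G.t i).S, ∃ j ∈ S, j * M + lo ≤ x ∧ x < j * M + hi) ∧
      (∀ i, (G.t i).S.card ≤ S.card * d) ∧
      (∀ i, ∀ j ∈ S, ∃ x ∈ (G.t i).S, j * M + lo ≤ x ∧ x < j * M + hi) ∧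
      G.wt = F.wt ^ S.card ∧ G.fn = slotFn M (fun _ => F.fn) S := by
  induction S using Finset.induction_on with
  | empty =>
    refine ⟨⟨Unit, fun _ => ⟨∅, fun _ => 1, 1⟩⟩, fun _ => ⟨fun _ _ _ => rfl, fun i hi => by simp at hi,
      zero_le_one, ?_⟩, fun _ => by simp, fun _ => by simp, fun _ j hj => by simp at hj, ?_, ?_⟩
    · simp [E, Ew_empty]
    · simp [Fam.wt]
    · funext ω; simp [Fam.fn, slotFn]
  | @insert a S ha ih =>
    obtain ⟨G, g1, g2, g3, g4, g5, g6⟩ := ih
    have hsh := hF.shift (a * M)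
    have hwin : ∀ i, ∀ x ∈ ((F.shift (a * M)).t i).S, a * M + lo ≤ x ∧ x < a * M + hi :=
      fun i x hx => mem_Ico.mp (hsh.win i hx)
    have hdisj : ∀ i j, Disjoint ((F.shift (a * M)).t i).S (G.t j).S := by
      intro i j
      rw [disjoint_left]
      intro x hx hx'
      obtain ⟨h1, h2⟩ := hwin i x hx
      obtain ⟨l, hl, h3, h4⟩ := g2 j x hx'
      have m1 : x ∈ slotI M a := by simp only [slotI, mem_Ico, Nat.succ_mul]; omega
      have m2 : x ∈ slotI M l := by simp only [slotI, mem_Ico, Nat.succ_mul]; omega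
      exact disjoint_left.mp (slotI_disj (M := M) (i := a) (j := l) (fun e => ha (e ▸ hl))) m1 m2
    refine ⟨⟨F.ι × G.ι, fun p => ((F.shift (a * M)).t p.1).mul (G.t p.2)⟩,
      fun p => (hsh.good p.1).mul hT (g1 p.2) (hdisj _ _), fun p x hx => ?_, fun p => ?_,
      fun p j hj => ?_, ?_, ?_⟩
    · rcases mem_union.mp hx with h | h
      · exact ⟨a, mem_insert_self _ _, hwin _ x h⟩
      · obtain ⟨l, hl, h2⟩ := g2 _ x h
        exact ⟨l, mem_insert_of_mem hl, h2⟩
    · refine (card_union_le _ _).trans ?_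
      rw [card_insert_of_notMem ha, Nat.succ_mul]
      have := hsh.deg p.1
      have := g3 p.2
      omega
    · rcases mem_insert.mp hj with rfl | hj
      · obtain ⟨x, hx⟩ := hsh.ne p.1
        exact ⟨x, mem_union_left _ hx, hwin _ x hx⟩
      · obtain ⟨x, hx, h2⟩ := g4 p.2 j hj
        exact ⟨x, mem_union_right _ hx, h2⟩
    · rw [card_insert_of_notMem ha, pow_succ', ← g5]
      simp only [Fam.wt, Term.mul, Fam.shift, Term.shift]
      rw [Fintype.sum_prod_type, sum_mul_sum]
    · funext ω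
      rw [slotFn, prod_insert ha]
      have e := congrFun g6 ω
      rw [slotFn] at e
      rw [← e]
      simp only [Fam.fn, Term.mul, Fam.shift, Term.shift, shiftF]
      rw [Fintype.sum_prod_type, sum_mul_sum]

/-- signed scaling of a term -/
def Term.smul (c : ℝ) (t : Term) : Term := ⟨t.S, fun ω => c * t.f ω, |c| * t.w⟩

lemma Term.Good.smul {t : Term} (h : t.Good T k) (c : ℝ) : (t.smul c).Good T k := by
  refine ⟨fun x y hxy => by simp only [Term.smul, h.dep hxy], fun i hi ω => ?_, h.bd.const_mul c⟩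
  have := Ew_smul T {i} t.f ω c
  simp only [smul_eq_mul, h.cen i hi ω, mul_zero] at this
  exact this

/-- signed union of families -/
def Fam.comb {ι : Type} [Fintype ι] (c : ι → ℝ) (F : ι → Fam) : Fam :=
  ⟨Σ i, (F i).ι, fun p => ((F p.1).t p.2).smul (c p.1)⟩

lemma Fam.comb_wt {ι : Type} [Fintype ι] (c : ι → ℝ) (F : ι → Fam) :
    (Fam.comb c F).wt = ∑ i, |c i| * (F i).wt := by
  simp only [Fam.wt, Fam.comb, Term.smul, mul_sum]
  exact Fintype.sum_sigma _

lemma Fam.comb_val {ι : Type} [Fintype ι] (c : ι → ℝ) (F : ι → Fam) (T : Alg) (N : ℕ) :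
    (Fam.comb c F).val T N = ∑ i, c i • (F i).val T N := by
  have : (Fam.comb c F).fn = fun ω => ∑ i, c i * (F i).fn ω := by
    funext ω; simp only [Fam.fn, Fam.comb, Term.smul, mul_sum]
    exact Fintype.sum_sigma _
  rw [Fam.val, this, piN_sum]
  exact sum_congr rfl fun i _ => piN_smul T N _ _

lemma Fam.Good.comb {ι : Type} [Fintype ι] {d lo hi : ℕ} (c : ι → ℝ) (F : ι → Fam)
    (h : ∀ i, (F i).Good T k d lo hi) : (Fam.comb c F).Good T k d lo hi :=
  ⟨fun p => ((h p.1).good p.2).smul _, fun p => (h p.1).win p.2, fun p => (h p.1).ne p.2,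
    fun p => (h p.1).deg p.2⟩

end Vale.Agent.P321
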