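import Mathlib
import Vale.Agent.P321.Defs

/-
Change of reference from units to slots: a density on the units of some slots is rewritten as a
short family of centred terms over the slot words.
-/

open scoped BigOperators
open Finset

namespace Vale.Agent.P321

variable {T T' : Alg} {k : ℕ}

/-- concatenation of the first n coordinates -/
def xfWord (x : ℕ → W) : ℕ → W
  | 0 => 1
  | n + 1 => xfWord x n * x n

lemma xfWord_congr {x y : ℕ → W} : ∀ n, (∀ i < n, x i = y i) → xfWord x n = xfWord y n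
  | 0, _ => rfl
  | n + 1, h => by rw [xfWord, xfWord, xfWord_congr n fun i hi => h i (by omega), h n (by omega)]

lemma sprod_pt_eq (x : ℕ → W) : ∀ n, sprod (fun i => pt (x i)) n = pt (xfWord x n)
  | 0 => rfl
  | n + 1 => by rw [sprod, sprod_pt_eq x n, pt_mul]; rfl

/-- the word in slot i -/
def xfSlot (M i : ℕ) (ω : ℕ → W) : W := xfWord (fun j => ω (i * M + j)) M

lemma xfSlot_dependsOn (M i : ℕ) : DependsOn (xfSlot M i) ↑(slotI M i) := fun x y h =>
  xfWord_congr M fun j hj => h _ (by simp [slotI, add_mul]; omega)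

lemma xfSlot_one (i : ℕ) (ω : ℕ → W) : xfSlot 1 i ω = ω i := by
  simp [xfSlot, xfWord]

lemma slotI_eq_image (M i : ℕ) : slotI M i = (range M).image (fun j => i * M + j) := by
  ext x
  simp only [slotI, mem_Ico, mem_image, mem_range, add_mul, one_mul]
  exact ⟨fun h => ⟨x - i * M, by omega, by omega⟩, fun ⟨j, hj, e⟩ => by omega⟩

lemma slotI_disjoint {M i j : ℕ} (h : i ≠ j) : Disjoint (slotI M i) (slotI M j) := by
  rw [disjoint_left]
  intro x hx hx'
  simp only [slotI, mem_Ico] at hx hx'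
  rcases Nat.lt_or_gt_of_ne h with h | h
  · have := Nat.mul_le_mul_right M (show i + 1 ≤ j from h); omega
  · have := Nat.mul_le_mul_right M (show j + 1 ≤ i from h); omega

lemma unitsOf_insert (M i : ℕ) (O : Finset ℕ) :
    unitsOf M (insert i O) = slotI M i ∪ unitsOf M O := by simp [unitsOf, biUnion_insert]

lemma slotI_disjoint_units {M i : ℕ} {O : Finset ℕ} (h : i ∉ O) :
    Disjoint (slotI M i) (unitsOf M O) :=
  (disjoint_biUnion_right _ _ _).mpr fun _ hj => slotI_disjoint fun e => h (e ▸ hj)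

lemma slotI_subset_units {M i : ℕ} {O : Finset ℕ} (h : i ∈ O) : slotI M i ⊆ unitsOf M O :=
  subset_biUnion_of_mem (slotI M) h

lemma unitsOf_range (M : ℕ) : ∀ g, unitsOf M (range g) = range (g * M)
  | 0 => by simp [unitsOf]
  | g + 1 => by
    rw [range_add_one, unitsOf_insert, unitsOf_range M g]
    ext x; simp [slotI]
    have := Nat.mul_le_mul_right M (show g ≤ g + 1 by omega)
    omega

lemma unitsOf_one (O : Finset ℕ) : unitsOf 1 O = O := by
  ext x; simp [unitsOf, slotI]

/-- slot i holds its units if i is in O, and the given element otherwise -/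
noncomputable def xfSlots (M : ℕ) (O : Finset ℕ) (Y : ℕ → Alg) (ω : ℕ → W) : ℕ → Alg :=
  fun i => if i ∈ O then pt (xfSlot M i ω) else Y i

/-- the measure of a density on the units of the slots in O, with Y in the other slots -/
noncomputable def weave (T : Alg) (M g : ℕ) (O : Finset ℕ) (Y : ℕ → Alg)
    (f : (ℕ → W) → ℝ) : Alg :=
  Ew T (unitsOf M O) (fun ω => f ω • sprod (xfSlots M O Y ω) g) om0

lemma xfSlots_dependsOn (M g : ℕ) (O : Finset ℕ) (Y : ℕ → Alg) :
    DependsOn (fun ω => sprod (xfSlots M O Y ω) g) ↑(unitsOf M O) := fun x y h => by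
  refine sprod_congr g fun i _ => ?_
  simp only [xfSlots]
  split_ifs with hi
  · rw [xfSlot_dependsOn M i fun j hj => h j (slotI_subset_units hi hj)]
  · rfl

lemma sprod_split {X X' : ℕ → Alg} {i g : ℕ} (hi : i < g) (h : ∀ j, j ≠ i → X' j = X j) :
    sprod X' g = sprod X i * X' i * sprod (fun j => X (i + 1 + j)) (g - (i + 1)) := by
  conv_lhs => rw [show g = i + 1 + (g - (i + 1)) by omega]
  rw [sprod_add, sprod, sprod_congr i fun j hj => h j (by omega),
    sprod_congr _ fun j _ => h (i + 1 + j) (by omega)]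

lemma nrm_sprod_le (X : ℕ → Alg) : ∀ g, nrm (sprod X g) ≤ ∏ i ∈ range g, nrm (X i)
  | 0 => by simp [sprod, IsPM.one.nrm_eq]
  | g + 1 => by
    rw [sprod, prod_range_succ]
    exact (nrm_mul _ _).trans (mul_le_mul_of_nonneg_right (nrm_sprod_le X g) (nrm_nonneg _))

/-- replace slot i of the background -/
noncomputable def xfUpd (Y : ℕ → Alg) (i : ℕ) (a : Alg) : ℕ → Alg := Function.update Y i a

lemma xfUpd_self (Y : ℕ → Alg) (i : ℕ) : xfUpd Y i (Y i) = Y := Function.update_eq_self i Y

lemma weave_congr {M g : ℕ} {O : Finset ℕ} {Y Y' : ℕ → Alg} (f : (ℕ → W) → ℝ)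
    (h : ∀ i < g, i ∉ O → Y i = Y' i) : weave T M g O Y f = weave T M g O Y' f := by
  refine Ew_congr T _ _ fun x _ _ => congrArg _ (sprod_congr g fun i hi => ?_)
  simp only [xfSlots]
  split_ifs with h1
  · rfl
  · exact h i hi h1

lemma weave_slot_add {M g i : ℕ} {O : Finset ℕ} (Y : ℕ → Alg) (f : (ℕ → W) → ℝ) (hi : i < g)
    (hiO : i ∉ O) (a b : Alg) :
    weave T M g O (xfUpd Y i (a + b)) f
      = weave T M g O (xfUpd Y i a) f + weave T M g O (xfUpd Y i b) f := by
  rw [weave, weave, weave, ← Ew_add]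
  refine Ew_congr T _ _ fun x _ _ => ?_
  have e : ∀ c, sprod (xfSlots M O (xfUpd Y i c) x) g
      = sprod (xfSlots M O Y x) i * c
        * sprod (fun j => xfSlots M O Y x (i + 1 + j)) (g - (i + 1)) := by
    intro c
    rw [sprod_split (X := xfSlots M O Y x) hi fun j hj => by simp [xfSlots, xfUpd, hj]]
    congr 2
    simp [xfSlots, xfUpd, hiO]
  rw [e, e, e, ← smul_add, mul_add, add_mul]

lemma weave_nrm_le {M g : ℕ} {O : Finset ℕ} {Y : ℕ → Alg} {f : (ℕ → W) → ℝ} {w : ℝ}
    (hT : IsPM T) (hk : 1 ≤ k) (hf : Bd T k (unitsOf M O) f w) (b : ℕ → ℝ)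
    (hb : ∀ i < g, i ∉ O → nrm (Y i) ≤ b i) (hb1 : ∀ i ∈ O, b i = 1) (hb0 : ∀ i, 0 ≤ b i) :
    nrm (weave T M g O Y f) ≤ w * ∏ i ∈ range g, b i := by
  refine (nrm_Ew_le hT _ _ _).trans ?_
  calc Ew T (unitsOf M O) (fun x => nrm (f x • sprod (xfSlots M O Y x) g)) om0
      ≤ Ew T (unitsOf M O) (fun x => (∏ i ∈ range g, b i) • |f x|) om0 := by
        refine Ew_mono hT _ _ fun x => ?_
        rw [nrm_smul, smul_eq_mul, mul_comm]
        refine mul_le_mul_of_nonneg_right ((nrm_sprod_le _ g).trans ?_) (abs_nonneg _)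
        refine prod_le_prod (fun i _ => nrm_nonneg _) fun i hi => ?_
        simp only [xfSlots]
        split_ifs with h
        · rw [nrm_pt, hb1 i h]
        · exact hb i (mem_range.mp hi) h
    _ = (∏ i ∈ range g, b i) * E T (unitsOf M O) (fun x => |f x|) := by
        rw [Ew_smul]; rfl
    _ ≤ (∏ i ∈ range g, b i) * w :=
        mul_le_mul_of_nonneg_left (hf.abs_le hT hk) (prod_nonneg fun i _ => hb0 i)
    _ = w * ∏ i ∈ range g, b i := mul_comm _ _

/-- a slot holding a pushforward joins the density -/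
lemma weave_absorb {M g i : ℕ} {O : Finset ℕ} (Y : ℕ → Alg) (f h : (ℕ → W) → ℝ) (hi : i < g)
    (hiO : i ∉ O) (hf : DependsOn f ↑(unitsOf M O)) (hh : DependsOn h ↑(range M)) :
    weave T M g O (xfUpd Y i (piN T M h)) f
      = weave T M g (insert i O) Y (fun ω => f ω * shiftF (i * M) h ω) := by
  rw [weave, weave, unitsOf_insert, union_comm,
    Ew_union T _ _ (slotI_disjoint_units hiO).symm]
  refine Ew_congr T _ _ fun x _ _ => ?_
  set A := sprod (xfSlots M O Y x) i with hA
  set B := sprod (fun j => xfSlots M O Y x (i + 1 + j)) (g - (i + 1)) with hB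
  set L : Alg →ₗ[ℝ] Alg := f x • ((LinearMap.mulRight ℝ B).comp (LinearMap.mulLeft ℝ A))
  have hdis := slotI_disjoint_units (M := M) hiO
  have e1 : Ew T (slotI M i)
      (fun ω => (f ω * shiftF (i * M) h ω) • sprod (xfSlots M (insert i O) Y ω) g) x
      = Ew T (slotI M i) (fun ω => L (shiftF (i * M) h ω • pt (xfSlot M i ω))) x := by
    refine Ew_congr T _ _ fun y _ hy => ?_
    have hfy : f y = f x := hf fun j hj => hy j (Finset.disjoint_right.mp hdis hj)
    have hsw : ∀ j ∈ O, xfSlot M j y = xfSlot M j x := fun j hj =>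
      xfSlot_dependsOn M j fun l hl =>
        hy l (Finset.disjoint_right.mp hdis (slotI_subset_units hj hl))
    rw [sprod_split (X := xfSlots M O Y x) hi fun j hj => by
      simp only [xfSlots, mem_insert, hj, false_or]
      split_ifs with h1
      · rw [hsw j h1]
      · rfl]
    simp only [xfSlots, mem_insert, true_or, if_true]
    rw [hfy]
    simp only [L, LinearMap.smul_apply, LinearMap.comp_apply, LinearMap.mulRight_apply,
      LinearMap.mulLeft_apply, mul_smul_comm, smul_mul_assoc, smul_smul]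
    rfl
  rw [e1, Ew_linear T _ (fun ω : ℕ → W => shiftF (i * M) h ω • pt (xfSlot M i ω)) x L]
  have e2 : Ew T (slotI M i) (fun ω => shiftF (i * M) h ω • pt (xfSlot M i ω)) x = piN T M h := by
    rw [slotI_eq_image]
    have e3 := Ew_image T (range M) (fun ω => h ω • sprod (fun j => pt (ω j)) M)
      (fun j => i * M + j) (fun a b hab => by simpa using hab) x
    have e4 : (fun ω => shiftF (i * M) h ω • pt (xfSlot M i ω))
        = fun ω : ℕ → W => (fun ω => h ω • sprod (fun j => pt (ω j)) M) (ω ∘ fun j => i * M + j) := by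
      funext ω
      show _ = h (ω ∘ fun j => i * M + j) • sprod (fun j => pt ((ω ∘ fun j => i * M + j) j)) M
      rw [sprod_pt_eq]
      rfl
    rw [e4, e3]
    exact Ew_base T _ _ _ (S := ↑(range M))
      (fun u v huv => by simp only [hh huv, sprod_pt_dependsOn M huv]) (fun j hj => hj) _
  rw [e2]
  have e5 : sprod (xfSlots M O (xfUpd Y i (piN T M h)) x) g = A * piN T M h * B := by
    rw [sprod_split (X := xfSlots M O Y x) hi fun j hj => by simp [xfSlots, xfUpd, hj]]
    simp [xfSlots, xfUpd, hiO, hA, hB]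
  rw [e5]
  simp [L, LinearMap.mulRight_apply, LinearMap.mulLeft_apply]

/-- the pushforward of a density on some slots -/
lemma weave_pow {M g : ℕ} {O : Finset ℕ} (f : (ℕ → W) → ℝ) (hO : O ⊆ range g)
    (hf : DependsOn f ↑(unitsOf M O)) :
    piN T (g * M) f = weave T M g O (fun _ => T ^ M) f := by
  suffices h : ∀ U, U ⊆ range g \ O →
      weave T M g O (fun _ => T ^ M) f = weave T M g (O ∪ U) (fun _ => T ^ M) f by
    rw [h _ (Finset.Subset.refl _), union_sdiff_of_subset hO, weave, unitsOf_range, piN, E]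
    refine Ew_congr T _ _ fun x _ _ => congrArg _ ?_
    have : ∀ g', g' ≤ g → sprod (fun i => pt (x i)) (g' * M)
        = sprod (xfSlots M (range g) (fun _ => T ^ M) x) g' := by
      intro g'
      induction g' with
      | zero => intro _; rw [zero_mul]; rfl
      | succ n ih =>
        intro hn
        rw [add_mul, one_mul, sprod_add, sprod, ih (by omega)]
        congr 1
        rw [sprod_pt_eq]
        simp [xfSlots, xfSlot, show n < g by omega]
    exact this g le_rfl
  intro U hU
  induction U using Finset.induction_on with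
  | empty => rw [union_empty]
  | @insert i U hi ih =>
    rw [insert_subset_iff, mem_sdiff, mem_range] at hU
    rw [ih hU.2, union_insert]
    have hiO : i ∉ O ∪ U := by simp [hU.1.2, hi]
    have hd : DependsOn f ↑(unitsOf M (O ∪ U)) := fun a b hab => hf fun j hj => hab j
      (by simp only [unitsOf, mem_coe, mem_biUnion, mem_union] at hj ⊢
          obtain ⟨l, hl, hl'⟩ := hj
          exact ⟨l, Or.inl hl, hl'⟩)
    have := weave_absorb (T := T) (fun _ => T ^ M) f (fun _ => 1) hU.1.1 hiO hd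
      (fun _ _ _ => rfl)
    rw [piN_one, show xfUpd (fun _ => T ^ M) i (T ^ M) = fun _ => T ^ M from xfUpd_self _ i] at this
    simpa [shiftF] using this

/-- the coefficient at v as a linear map -/
def xfCoeff (v : W) : Alg →ₗ[ℝ] ℝ where
  toFun f := f.coeff v
  map_add' f g := by simp
  map_smul' c f := by simp

lemma piN_coeff (T : Alg) (N : ℕ) (F : (ℕ → W) → ℝ) (v : W) :
    (piN T N F).coeff v = E T (range N) (fun ω => if xfWord ω N = v then F ω else 0) := by
  have := Ew_linear T (range N) (fun ω => F ω • sprod (fun i => pt (ω i)) N) om0 (xfCoeff v)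
  refine this.symm.trans (Ew_congr T _ _ fun x _ _ => ?_)
  show (F x • sprod (fun i => pt (x i)) N).coeff v = _
  rw [sprod_pt_eq, MonoidAlgebra.coeff_smul_apply, coeff_pt]
  split_ifs <;> simp

lemma E_slot (T : Alg) (M i : ℕ) (F : W → ℝ) :
    E T (slotI M i) (fun ω => F (xfSlot M i ω)) = E T (range M) (fun ω => F (xfWord ω M)) := by
  rw [slotI_eq_image]
  exact E_shiftF (T := T) (range M) (fun ω => F (xfWord ω M)) (i * M)

lemma E_slot_ind (T : Alg) (M i : ℕ) (v : W) :
    E T (slotI M i) (fun ω => if xfSlot M i ω = v then (1 : ℝ) else 0) = (T ^ M).coeff v := by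
  rw [← piN_one, piN_coeff]
  exact E_slot T M i fun u => if u = v then (1 : ℝ) else 0

lemma coeff_mul_ge {a b : Alg} (ha : Nonneg a) (hb : Nonneg b) (u v : W) :
    a.coeff u * b.coeff v ≤ (a * b).coeff (u * v) := by
  classical
  have part : ∀ (c : Alg), Nonneg c → ∀ z, Nonneg (c - c.coeff z • pt z) := by
    intro c hc z y
    simp only [MonoidAlgebra.coeff_sub, Finsupp.sub_apply, MonoidAlgebra.coeff_smul_apply,
      coeff_pt, smul_eq_mul]
    split_ifs with h
    · subst h; simp
    · simp [hc y]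
  have hsplit : a * b = (a.coeff u * b.coeff v) • pt (u * v)
      + ((a.coeff u • pt u) * (b - b.coeff v • pt v) + (a - a.coeff u • pt u) * b) := by
    rw [← pt_mul, ← smul_mul_smul_comm, mul_sub, sub_mul]
    abel
  have hn : Nonneg ((a.coeff u • pt u) * (b - b.coeff v • pt v) + (a - a.coeff u • pt u) * b) :=
    (((nonneg_pt u).smul (ha u)).mul (part b hb v)).add ((part a ha u).mul hb)
  conv_rhs => rw [hsplit]
  have := hn (u * v)
  simp only [MonoidAlgebra.coeff_add, Finsupp.add_apply, MonoidAlgebra.coeff_smul_apply,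
    coeff_pt, smul_eq_mul, if_true, mul_one] at this ⊢
  linarith

lemma coeff_pow_pos (hT : IsPM T) (x : ℕ → W) :
    ∀ M, (∀ j < M, x j ∈ T.coeff.support) → 0 < (T ^ M).coeff (xfWord x M)
  | 0, _ => by simp [xfWord, ← pt_one, coeff_pt]
  | M + 1, h => by
    rw [pow_succ, xfWord]
    refine lt_of_lt_of_le (mul_pos (coeff_pow_pos hT x M fun j hj => h j (by omega)) ?_)
      (coeff_mul_ge (hT.pow M).1 hT.1 _ _)
    exact lt_of_le_of_ne (hT.1 _) (Ne.symm (Finsupp.mem_support_iff.mp (h M (by omega))))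

lemma xfSlot_pos (hT : IsPM T) {M i : ℕ} {x : ℕ → W} {O : Finset ℕ} (hi : i ∈ O)
    (h : ∀ j ∈ unitsOf M O, x j ∈ T.coeff.support) : 0 < (T ^ M).coeff (xfSlot M i x) :=
  coeff_pow_pos hT _ M fun j hj => h _ (slotI_subset_units hi (by simp [slotI, add_mul]; omega))

/-- expectation as a sum over a larger finite set -/
lemma E_eq_sum {V : Type*} [AddCommGroup V] [Module ℝ V] {T : Alg} {S : Finset W}
    (hS : T.coeff.support ⊆ S) (I : Finset ℕ) (F : (ℕ → W) → V) :
    E T I F = ∑ g ∈ I.pi (fun _ => S),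
      (∏ i ∈ I.attach, T.coeff (g i.1 i.2)) • F (patch om0 I g) := by
  refine sum_subset (fun g hg => ?_) fun g hg hg' => ?_
  · rw [mem_pi] at hg ⊢
    exact fun a ha => hS (hg a ha)
  · rw [mem_pi] at hg'
    push Not at hg'
    obtain ⟨a, ha, hz⟩ := hg'
    have h0 : T.coeff (g (⟨a, ha⟩ : {x // x ∈ I}).1 (⟨a, ha⟩ : {x // x ∈ I}).2) = 0 :=
      Finsupp.notMem_support_iff.mp hz
    rw [prod_eq_zero (f := fun i : {x // x ∈ I} => T.coeff (g i.1 i.2)) (mem_attach _ ⟨a, ha⟩) h0,
      zero_smul]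

lemma wpow {α : Type*} (s : Finset α) (p a : α → ℝ) (hp : ∀ x ∈ s, 0 ≤ p x) (n : ℕ)
    (hn : Even n) (h0 : 1 ≤ n) :
    (∑ x ∈ s, p x * a x) ^ n ≤ (∑ x ∈ s, p x) ^ (n - 1) * ∑ x ∈ s, p x * a x ^ n := by
  rcases eq_or_lt_of_le (sum_nonneg hp) with h | h
  · have hz : ∀ x ∈ s, p x = 0 := (sum_eq_zero_iff_of_nonneg hp).mp h.symm
    rw [sum_eq_zero fun x hx => by rw [hz x hx, zero_mul], zero_pow (by omega : n ≠ 0)]
    exact mul_nonneg (pow_nonneg (sum_nonneg hp) _)
      (sum_nonneg fun x hx => mul_nonneg (hp x hx) (hn.pow_nonneg _))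
  · set P := ∑ x ∈ s, p x
    have := Real.pow_arith_mean_le_arith_mean_pow_of_even s (fun x => p x / P) a
      (fun x hx => div_nonneg (hp x hx) h.le) (by rw [← sum_div, div_self h.ne']) hn
    have e1 : ∑ x ∈ s, p x / P * a x = (∑ x ∈ s, p x * a x) / P := by
      rw [sum_div]; exact sum_congr rfl fun x _ => by ring
    have e2 : ∑ x ∈ s, p x / P * a x ^ n = (∑ x ∈ s, p x * a x ^ n) / P := by
      rw [sum_div]; exact sum_congr rfl fun x _ => by ring
    rw [e1, e2, div_pow, div_le_iff₀ (pow_pos h n)] at this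
    refine this.trans (le_of_eq ?_)
    obtain ⟨n, rfl⟩ : ∃ j, n = j + 1 := ⟨n - 1, by omega⟩
    rw [Nat.add_sub_cancel, pow_succ]
    field_simp

/-- Jensen for a weighted expectation -/
lemma E_wpow (hT : IsPM T) (I : Finset ℕ) (u f : (ℕ → W) → ℝ) (hu : ∀ x, 0 ≤ u x) (n : ℕ)
    (hn : Even n) (h0 : 1 ≤ n) :
    E T I (fun ω => u ω * f ω) ^ n
      ≤ E T I u ^ (n - 1) * E T I (fun ω => u ω * f ω ^ n) := by
  simp only [E, Ew, smul_eq_mul, ← mul_assoc]
  exact wpow _ _ _ (fun g _ => mul_nonneg (wt_nonneg hT I g) (hu _)) n hn h0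

lemma E_prod_slots (hT : IsPM T) (M : ℕ) (h : ℕ → (ℕ → W) → ℝ)
    (hd : ∀ i, DependsOn (h i) ↑(slotI M i)) (O : Finset ℕ) :
    E T (unitsOf M O) (fun ω => ∏ i ∈ O, h i ω) = ∏ i ∈ O, E T (slotI M i) (h i) := by
  induction O using Finset.induction_on with
  | empty => simp [unitsOf, E, Ew_empty]
  | @insert i O hi ih =>
    simp only [prod_insert hi]
    rw [unitsOf_insert, E_mul_disjoint (slotI_disjoint_units hi) (h i) _ (hd i)
      (fun x y hxy => prod_congr rfl fun j hj => hd j fun l hl =>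
        hxy l (slotI_subset_units hj hl)), ih]

/-- indicator of prescribed slot words -/
def xfInd (M : ℕ) (O : Finset ℕ) (ν ω : ℕ → W) : ℝ :=
  ∏ i ∈ O, if xfSlot M i ω = ν i then 1 else 0

lemma xfInd_nonneg (M : ℕ) (O : Finset ℕ) (ν ω : ℕ → W) : 0 ≤ xfInd M O ν ω :=
  prod_nonneg fun i _ => by split_ifs <;> norm_num

lemma E_xfInd (hT : IsPM T) (M : ℕ) (O : Finset ℕ) (ν : ℕ → W) :
    E T (unitsOf M O) (xfInd M O ν) = ∏ i ∈ O, (T ^ M).coeff (ν i) := by
  refine (E_prod_slots hT M (fun i ω => if xfSlot M i ω = ν i then 1 else 0)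
    (fun i x y h => by simp only [xfSlot_dependsOn M i h]) O).trans ?_
  exact prod_congr rfl fun i _ => E_slot_ind T M i (ν i)

/-- the slot words, as an assignment -/
def xfVec (M : ℕ) (O : Finset ℕ) (ω : ℕ → W) : ℕ → W :=
  fun i => if i ∈ O then xfSlot M i ω else 1

lemma xfInd_sum {V : Type*} [AddCommGroup V] [Module ℝ V] (hT : IsPM T) {M : ℕ} {O : Finset ℕ}
    {S : Finset W} (hS : (T ^ M).coeff.support ⊆ S) (G : (ℕ → W) → V)
    (hG : DependsOn G ↑O) (ω : ℕ → W) (hω : ∀ j ∈ unitsOf M O, ω j ∈ T.coeff.support) :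
    ∑ g ∈ O.pi (fun _ => S), xfInd M O (patch om0 O g) ω • G (patch om0 O g)
      = G (xfVec M O ω) := by
  classical
  rw [sum_eq_single (fun i (_ : i ∈ O) => xfSlot M i ω)]
  · have h1 : xfInd M O (patch om0 O fun i _ => xfSlot M i ω) ω = 1 :=
      prod_eq_one fun i hi => by simp [patch, hi]
    rw [h1, one_smul]
    exact hG fun i hi => by simp [patch, xfVec, Finset.mem_coe.mp hi]
  · intro g _ hne
    obtain ⟨i, hi, hgi⟩ : ∃ i, ∃ hi : i ∈ O, g i hi ≠ xfSlot M i ω := by
      by_contra hc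
      push Not at hc
      exact hne (by funext i hi; exact hc i hi)
    have h0 : xfInd M O (patch om0 O g) ω = 0 :=
      prod_eq_zero hi (by simp [patch, hi, Ne.symm hgi])
    rw [h0, zero_smul]
  · intro hn
    refine absurd ?_ hn
    rw [mem_pi]
    exact fun i hi => hS (Finsupp.mem_support_iff.mpr (xfSlot_pos hT hi hω).ne')

/-- words on which T' is not much smaller than P -/
def xfGood (P T' : Alg) (v : W) : Prop := P.coeff v ≤ 2 * T'.coeff v

open Classical in
/-- indicator of good tuples -/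
noncomputable def xfGI (P T' : Alg) (O : Finset ℕ) (ν : ℕ → W) : ℝ :=
  if ∀ i ∈ O, xfGood P T' (ν i) then 1 else 0

open Classical in
/-- probability of a bad word -/
noncomputable def xfBad (P T' : Alg) : ℝ :=
  ∑ v ∈ P.coeff.support, if xfGood P T' v then 0 else P.coeff v

lemma xfGI_dependsOn (P T' : Alg) (O : Finset ℕ) : DependsOn (xfGI P T' O) ↑O := fun x y h => by
  have e : (∀ i ∈ O, xfGood P T' (x i)) ↔ (∀ i ∈ O, xfGood P T' (y i)) :=
    forall_congr' fun i => imp_congr_right fun hi => by rw [h i hi]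
  simp only [xfGI]
  classical exact if_congr e rfl rfl

/-- transferred density before centring -/
noncomputable def xfDens (T T' : Alg) (M : ℕ) (O : Finset ℕ) (f : (ℕ → W) → ℝ) (ν : ℕ → W) : ℝ :=
  xfGI (T ^ M) T' O ν * E T (unitsOf M O) (fun ω => xfInd M O ν ω * f ω)
    / ∏ i ∈ O, T'.coeff (ν i)

lemma xfDens_dependsOn (T T' : Alg) (M : ℕ) (O : Finset ℕ) (f : (ℕ → W) → ℝ) :
    DependsOn (xfDens T T' M O f) ↑O := fun x y h => by
  have e1 := xfGI_dependsOn (T ^ M) T' O h
  have e2 : ∀ ω, xfInd M O x ω = xfInd M O y ω := fun ω =>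
    prod_congr rfl fun i hi => by rw [h i hi]
  have e3 : ∏ i ∈ O, T'.coeff (x i) = ∏ i ∈ O, T'.coeff (y i) :=
    prod_congr rfl fun i hi => by rw [h i hi]
  simp only [xfDens, e1, e2, e3]

lemma prod_patch (O : Finset ℕ) (c : W → ℝ) (g : ∀ i ∈ O, W) :
    ∏ i ∈ O.attach, c (g i.1 i.2) = ∏ i ∈ O, c (patch om0 O g i) := by
  conv_rhs => rw [← prod_attach]
  exact prod_congr rfl fun i _ => by simp [patch, i.2]

lemma xfDens_mul (hT : IsPM T) (hT' : IsPM T') (M : ℕ) (O : Finset ℕ) (f : (ℕ → W) → ℝ)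
    (ν : ℕ → W) :
    (∏ i ∈ O, T'.coeff (ν i)) * xfDens T T' M O f ν
      = xfGI (T ^ M) T' O ν * E T (unitsOf M O) (fun ω => xfInd M O ν ω * f ω) := by
  by_cases h : ∏ i ∈ O, T'.coeff (ν i) = 0
  · rw [h, zero_mul]
    by_cases hg : ∀ i ∈ O, xfGood (T ^ M) T' (ν i)
    · obtain ⟨i, hi, h0⟩ := prod_eq_zero_iff.mp h
      have hP : (T ^ M).coeff (ν i) = 0 := by
        have := hg i hi
        rw [xfGood, h0] at this
        exact le_antisymm (by linarith) ((hT.pow M).1 _)
      have : E T (unitsOf M O) (fun ω => xfInd M O ν ω * f ω) = 0 := by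
        refine (Ew_congr T _ _ (G := fun _ => (0 : ℝ)) fun x hx _ => ?_).trans (Ew_zero T _ _)
        have : xfSlot M i x ≠ ν i := fun e => (xfSlot_pos hT hi hx).ne' (e ▸ hP)
        rw [show xfInd M O ν x = 0 from prod_eq_zero hi (if_neg this), zero_mul]
      rw [this, mul_zero]
    · rw [xfGI, if_neg hg, zero_mul]
  · rw [xfDens]; field_simp

/-- the transfer identity -/
lemma xfDens_test {V : Type*} [AddCommGroup V] [Module ℝ V] (hT : IsPM T) (hT' : IsPM T')
    (M : ℕ) (O : Finset ℕ) (f : (ℕ → W) → ℝ) (G : (ℕ → W) → V) (hG : DependsOn G ↑O) :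
    E T' O (fun ν => xfDens T T' M O f ν • G ν)
      = E T (unitsOf M O)
          (fun ω => (f ω * xfGI (T ^ M) T' O (xfVec M O ω)) • G (xfVec M O ω)) := by
  classical
  set S := T'.coeff.support ∪ (T ^ M).coeff.support
  have hS2 : (T ^ M).coeff.support ⊆ S := subset_union_right
  have hd : DependsOn (fun ν => xfGI (T ^ M) T' O ν • G ν) ↑O := fun x y h => by
    simp only [xfGI_dependsOn _ _ O h, hG h]
  rw [E_eq_sum (subset_union_left : T'.coeff.support ⊆ S)]
  symm
  calc E T (unitsOf M O) (fun ω => (f ω * xfGI (T ^ M) T' O (xfVec M O ω)) • G (xfVec M O ω))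
      = E T (unitsOf M O) (fun ω => ∑ g ∈ O.pi (fun _ => S),
          (xfInd M O (patch om0 O g) ω * f ω)
            • (xfGI (T ^ M) T' O (patch om0 O g) • G (patch om0 O g))) := by
        refine Ew_congr T _ _ fun x hx _ => ?_
        rw [mul_smul, ← xfInd_sum hT hS2 _ hd x hx, smul_sum]
        exact sum_congr rfl fun g _ => by rw [smul_smul, mul_comm]
    _ = ∑ g ∈ O.pi (fun _ => S), E T (unitsOf M O) (fun ω => xfInd M O (patch om0 O g) ω * f ω)
            • (xfGI (T ^ M) T' O (patch om0 O g) • G (patch om0 O g)) := by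
        rw [E, Ew_sum]
        refine sum_congr rfl fun g _ => ?_
        have := Ew_linear T (unitsOf M O) (fun ω => xfInd M O (patch om0 O g) ω * f ω) om0
          (LinearMap.toSpanSingleton ℝ V
            (xfGI (T ^ M) T' O (patch om0 O g) • G (patch om0 O g)))
        simpa [LinearMap.toSpanSingleton_apply, E] using this
    _ = _ := by
        refine sum_congr rfl fun g _ => ?_
        rw [prod_patch O (fun v => T'.coeff v) g, smul_smul, smul_smul,
          xfDens_mul hT hT' M O f (patch om0 O g), mul_comm (xfGI _ _ _ _)]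

lemma xfDens_bd (hT : IsPM T) (hT' : IsPM T') (hk : 1 ≤ k) (M : ℕ) (O : Finset ℕ)
    (f : (ℕ → W) → ℝ) {w : ℝ} (hf : Bd T k (unitsOf M O) f w) :
    Bd T' k O (xfDens T T' M O f) (2 ^ O.card * w) := by
  classical
  refine ⟨mul_nonneg (by positivity) hf.1, ?_⟩
  set S := T'.coeff.support ∪ (T ^ M).coeff.support
  have hev := even_two_mul k
  set K : ℝ := (2 ^ O.card) ^ (2 * k) with hK
  have key : ∀ ν, (∏ i ∈ O, T'.coeff (ν i)) * xfDens T T' M O f ν ^ (2 * k)
      ≤ K * E T (unitsOf M O) (fun ω => xfInd M O ν ω * f ω ^ (2 * k)) := by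
    intro ν
    set Q := ∏ i ∈ O, T'.coeff (ν i) with hQ
    have hQ0 : 0 ≤ Q := prod_nonneg fun i _ => hT'.1 _
    have hR0 : 0 ≤ E T (unitsOf M O) (fun ω => xfInd M O ν ω * f ω ^ (2 * k)) :=
      Ew_nonneg hT _ _ fun x => mul_nonneg (xfInd_nonneg _ _ _ _) (hev.pow_nonneg _)
    by_cases hg : ∀ i ∈ O, xfGood (T ^ M) T' (ν i)
    · rcases eq_or_lt_of_le hQ0 with h | h
      · rw [← h, zero_mul]; positivity
      · rw [xfDens, ← hQ, xfGI, if_pos hg, one_mul, div_pow]
        have h1 := E_wpow hT (unitsOf M O) (xfInd M O ν) f (xfInd_nonneg M O ν) (2 * k) hev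
          (by omega)
        rw [E_xfInd hT] at h1
        have h2 : ∏ i ∈ O, (T ^ M).coeff (ν i) ≤ 2 ^ O.card * Q := by
          rw [hQ, ← prod_const, ← prod_mul_distrib]
          exact prod_le_prod (fun i _ => (hT.pow M).1 _) fun i hi => hg i hi
        have h3 : (∏ i ∈ O, (T ^ M).coeff (ν i)) ^ (2 * k - 1)
            ≤ K * Q ^ (2 * k - 1) := by
          refine (pow_le_pow_left₀ (prod_nonneg fun i _ => (hT.pow M).1 _) h2 _).trans ?_
          rw [mul_pow]
          exact mul_le_mul_of_nonneg_right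
            (pow_le_pow_right₀ (one_le_pow₀ (by norm_num)) (by omega)) (by positivity)
        have h4 := h1.trans (mul_le_mul_of_nonneg_right h3 hR0)
        have h5 : Q ^ (2 * k) = Q * Q ^ (2 * k - 1) := by
          rw [← pow_succ', show 2 * k - 1 + 1 = 2 * k by omega]
        rw [h5, mul_div_assoc', div_le_iff₀ (by positivity)]
        calc _ ≤ Q * (K * Q ^ (2 * k - 1)
              * E T (unitsOf M O) (fun ω => xfInd M O ν ω * f ω ^ (2 * k))) :=
              mul_le_mul_of_nonneg_left h4 hQ0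
          _ = _ := by ring
    · rw [xfDens, xfGI, if_neg hg, zero_mul, zero_div, zero_pow (by omega : 2 * k ≠ 0), mul_zero]
      positivity
  rw [E_eq_sum (subset_union_left : T'.coeff.support ⊆ S)]
  calc ∑ g ∈ O.pi (fun _ => S), (∏ i ∈ O.attach, T'.coeff (g i.1 i.2))
        • xfDens T T' M O f (patch om0 O g) ^ (2 * k)
      ≤ ∑ g ∈ O.pi (fun _ => S),
          K * E T (unitsOf M O) (fun ω => xfInd M O (patch om0 O g) ω * f ω ^ (2 * k)) := by
        refine sum_le_sum fun g _ => ?_
        rw [smul_eq_mul, prod_patch O (fun v => T'.coeff v) g]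
        exact key _
    _ = K * E T (unitsOf M O) (fun ω => f ω ^ (2 * k)) := by
        unfold E
        rw [← mul_sum, show (∑ g ∈ O.pi (fun _ => S),
          Ew T (unitsOf M O) (fun ω => xfInd M O (patch om0 O g) ω * f ω ^ (2 * k)) om0)
          = Ew T (unitsOf M O) (fun ω => ∑ g ∈ O.pi (fun _ => S),
              xfInd M O (patch om0 O g) ω * f ω ^ (2 * k)) om0 from (Ew_sum _ _ _ _ _).symm]
        refine congrArg _ (Ew_congr T _ _ fun x hx _ => ?_)
        rw [← sum_mul]
        have := xfInd_sum hT (subset_union_right : (T ^ M).coeff.support ⊆ S)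
          (fun _ => (1 : ℝ)) (fun _ _ _ => rfl) x hx
        simp only [smul_eq_mul, mul_one] at this
        rw [this, one_mul]
    _ ≤ (2 ^ O.card * w) ^ (2 * k) := by
        rw [mul_pow]; exact mul_le_mul_of_nonneg_left hf.2 (by positivity)

lemma slot_bad (hT : IsPM T) (M i : ℕ) (T' : Alg) :
    E T (slotI M i) (fun ω => 1 - xfGI (T ^ M) T' {0} (fun _ => xfSlot M i ω))
      = xfBad (T ^ M) T' := by
  classical
  have h : ∀ x : ℕ → W, (∀ j ∈ slotI M i, x j ∈ T.coeff.support) →
      1 - xfGI (T ^ M) T' {0} (fun _ => xfSlot M i x)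
        = ∑ v ∈ (T ^ M).coeff.support,
            (if xfGood (T ^ M) T' v then (0 : ℝ) else 1) * if xfSlot M i x = v then 1 else 0 := by
    intro x hx
    have hmem : xfSlot M i x ∈ (T ^ M).coeff.support := Finsupp.mem_support_iff.mpr
      (xfSlot_pos hT (O := {i}) (mem_singleton_self i)
        (fun j hj => hx j (by simpa [unitsOf] using hj))).ne'
    simp only [mul_ite, mul_one, mul_zero, Finset.sum_ite_eq, if_pos hmem, xfGI, mem_singleton,
      forall_eq]
    split_ifs <;> norm_num
  refine (Ew_congr T _ _ fun x hx _ => h x hx).trans ?_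
  rw [Ew_sum, xfBad]
  refine sum_congr rfl fun v _ => ?_
  have := Ew_smul T (slotI M i) (fun ω => if xfSlot M i ω = v then (1 : ℝ) else 0) om0
    (if xfGood (T ^ M) T' v then (0 : ℝ) else 1)
  simp only [smul_eq_mul] at this
  rw [this, ← E, E_slot_ind]
  split_ifs <;> ring

lemma E_bad_le (hT : IsPM T) (M : ℕ) (T' : Alg) (O : Finset ℕ) :
    E T (unitsOf M O) (fun ω => 1 - xfGI (T ^ M) T' O (xfVec M O ω))
      ≤ O.card * xfBad (T ^ M) T' := by
  classical
  calc E T (unitsOf M O) (fun ω => 1 - xfGI (T ^ M) T' O (xfVec M O ω))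
      ≤ E T (unitsOf M O)
          (fun ω => ∑ i ∈ O, (1 - xfGI (T ^ M) T' {0} (fun _ => xfSlot M i ω))) := by
        refine Ew_mono hT _ _ fun x => ?_
        have hnn : ∀ i ∈ O, (0 : ℝ) ≤ 1 - xfGI (T ^ M) T' {0} (fun _ => xfSlot M i x) := by
          intro i _; simp only [xfGI]; split_ifs <;> norm_num
        by_cases hg : ∀ i ∈ O, xfGood (T ^ M) T' (xfVec M O x i)
        · rw [xfGI, if_pos hg, sub_self]
          exact sum_nonneg hnn
        · rw [xfGI, if_neg hg, sub_zero]
          push Not at hg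
          obtain ⟨i, hi, hgi⟩ := hg
          refine le_trans (le_of_eq ?_) (single_le_sum hnn hi)
          rw [xfGI, if_neg, sub_zero]
          simpa [xfVec, hi] using hgi
    _ = ∑ _i ∈ O, xfBad (T ^ M) T' := by
        rw [E, Ew_sum]
        refine sum_congr rfl fun i hi => ?_
        rw [Ew_superset hT (slotI M i) om0 (slotI_subset_units hi)
          (fun x y h => by simp only [xfSlot_dependsOn M i h])]
        exact slot_bad hT M i T'
    _ = _ := by simp [mul_comm]

lemma xfBad_le (hT : IsPM T) (hk : 1 ≤ k) {M : ℕ} {hG : (ℕ → W) → ℝ} {α ε : ℝ}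
    (hbd : Bd T k (range M) hG α) (herr : nrm (T' - T ^ M - piN T M hG) ≤ ε) :
    xfBad (T ^ M) T' ≤ (4 * α) ^ (2 * k) + 4 * ε := by
  classical
  set P := T ^ M with hPdef
  set Dif := piN T M hG
  set e := T' - P - Dif
  set sP := P.coeff.support
  have hev := even_two_mul k
  set R : W → ℝ := fun v =>
    E T (range M) (fun ω => (if xfWord ω M = v then (1 : ℝ) else 0) * hG ω ^ (2 * k))
  have hR0 : ∀ v, 0 ≤ R v := fun v => Ew_nonneg hT _ _ fun x =>
    mul_nonneg (by split_ifs <;> norm_num) (hev.pow_nonneg _)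
  have hdif : ∀ v, Dif.coeff v ^ (2 * k) ≤ P.coeff v ^ (2 * k - 1) * R v := by
    intro v
    have h1 := E_wpow hT (range M) (fun ω => if xfWord ω M = v then (1 : ℝ) else 0) hG
      (fun x => by split_ifs <;> norm_num) (2 * k) hev (by omega)
    have h2 : E T (range M) (fun ω => if xfWord ω M = v then (1 : ℝ) else 0) = P.coeff v := by
      rw [hPdef, ← piN_one, piN_coeff]
    have h3 : E T (range M) (fun ω => (if xfWord ω M = v then (1 : ℝ) else 0) * hG ω)
        = Dif.coeff v := by
      rw [piN_coeff]; exact Ew_congr T _ _ fun x _ _ => by split_ifs <;> simp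
    rwa [h2, h3] at h1
  have pt1 : ∀ v ∈ sP, (if xfGood P T' v then 0 else P.coeff v)
      ≤ 4 ^ (2 * k) * R v + 4 * |e.coeff v| := by
    intro v hv
    have hpos : 0 < P.coeff v :=
      lt_of_le_of_ne ((hT.pow M).1 v) (Ne.symm (Finsupp.mem_support_iff.mp hv))
    split_ifs with h
    · exact add_nonneg (mul_nonneg (by positivity) (hR0 v)) (by positivity)
    · rw [xfGood, not_le] at h
      have he : T'.coeff v = P.coeff v + Dif.coeff v + e.coeff v := by simp [e]
      rcases le_or_gt (P.coeff v) (4 * |e.coeff v|) with h1 | h1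
      · linarith [mul_nonneg (show (0:ℝ) ≤ 4 ^ (2 * k) by positivity) (hR0 v)]
      · have h2 : P.coeff v ≤ 4 * |Dif.coeff v| := by
          linarith [neg_abs_le (Dif.coeff v), neg_abs_le (e.coeff v)]
        have h3 : P.coeff v ^ (2 * k) ≤ 4 ^ (2 * k) * (P.coeff v ^ (2 * k - 1) * R v) := by
          refine (pow_le_pow_left₀ hpos.le h2 _).trans ?_
          rw [mul_pow, hev.pow_abs]
          exact mul_le_mul_of_nonneg_left (hdif v) (by positivity)
        rw [show P.coeff v ^ (2 * k) = P.coeff v * P.coeff v ^ (2 * k - 1) by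
          rw [← pow_succ', show 2 * k - 1 + 1 = 2 * k by omega]] at h3
        have h4 : P.coeff v * P.coeff v ^ (2 * k - 1)
            ≤ (4 ^ (2 * k) * R v) * P.coeff v ^ (2 * k - 1) := by linarith
        linarith [le_of_mul_le_mul_right h4 (pow_pos hpos _), abs_nonneg (e.coeff v)]
  refine (sum_le_sum pt1).trans ?_
  rw [sum_add_distrib, ← mul_sum, ← mul_sum, mul_pow]
  refine add_le_add (mul_le_mul_of_nonneg_left ?_ (by positivity)) ?_
  · calc ∑ v ∈ sP, R v = E T (range M) (fun ω => ∑ v ∈ sP,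
          (if xfWord ω M = v then (1 : ℝ) else 0) * hG ω ^ (2 * k)) :=
          (Ew_sum _ _ _ _ _).symm
      _ ≤ E T (range M) (fun ω => hG ω ^ (2 * k)) := by
          refine Ew_mono hT _ _ fun x => ?_
          rw [← sum_mul, sum_ite_eq]
          refine mul_le_of_le_one_left (hev.pow_nonneg _) ?_
          split_ifs <;> norm_num
      _ ≤ α ^ (2 * k) := hbd.2
  · refine mul_le_mul_of_nonneg_left (le_trans ?_ herr) (by norm_num)
    rw [nrm_eq_sum_of_subset (f := e) (s := sP ∪ e.coeff.support) subset_union_right]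
    exact sum_le_sum_of_subset_of_nonneg subset_union_left fun _ _ _ => abs_nonneg _

lemma E_abs_ind_le (hT : IsPM T) (hk : 1 ≤ k) {I : Finset ℕ} {f u : (ℕ → W) → ℝ} {w : ℝ}
    (hf : Bd T k I f w) (hu : ∀ x, u x = 0 ∨ u x = 1) :
    E T I (fun ω => |f ω| * u ω) ≤ w * Real.sqrt (E T I u) := by
  have hu0 : ∀ x, 0 ≤ u x := fun x => by rcases hu x with h | h <;> rw [h]; norm_num
  have hU : 0 ≤ E T I u := Ew_nonneg hT _ _ hu0
  have h1 := E_wpow hT I u (fun ω => |f ω|) hu0 2 even_two (by norm_num)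
  simp only [Nat.add_one_sub_one, pow_one, sq_abs] at h1
  have h2 := E_wpow hT I (fun _ => 1) (fun ω => u ω * f ω ^ 2) (fun _ => zero_le_one) 2
    even_two (by norm_num)
  have hA : E T I (fun ω => u ω * f ω ^ 2) ≤ E T I (fun ω => f ω ^ 2) :=
    Ew_mono hT _ _ fun x => by
      rcases hu x with h | h <;> rw [h] <;> simp [sq_nonneg]
  have hB : E T I (fun ω => f ω ^ 2) ≤ w ^ 2 := by
    have hφ : (E T I (fun ω => f ω ^ 2)) ^ k ≤ (w ^ 2) ^ k := by
      rw [← pow_mul]
      refine le_trans ?_ hf.2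
      have e : E T I (fun ω => f ω ^ (2 * k)) = E T I (fun ω => (f ω ^ 2) ^ k) := by
        simp only [← pow_mul]
      rw [e]
      simp only [E, Ew, smul_eq_mul]
      refine Real.pow_arith_mean_le_arith_mean_pow _ _ _ (fun g _ => wt_nonneg hT I g) ?_
        (fun g _ => sq_nonneg _) k
      have := Ew_const T I om0 hT (1 : ℝ)
      simpa [Ew] using this
    exact (pow_le_pow_iff_left₀ (Ew_nonneg hT _ _ fun x => sq_nonneg _) (sq_nonneg w)
      (by omega)).mp hφ
  have h3 : E T I (fun ω => |f ω| * u ω) ^ 2 ≤ w ^ 2 * E T I u := by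
    rw [show (fun ω => |f ω| * u ω) = fun ω => u ω * |f ω| from funext fun ω => mul_comm _ _]
    refine h1.trans ?_
    rw [mul_comm]
    exact mul_le_mul_of_nonneg_right (hA.trans hB) hU
  calc E T I (fun ω => |f ω| * u ω)
      = Real.sqrt (E T I (fun ω => |f ω| * u ω) ^ 2) :=
        (Real.sqrt_sq (Ew_nonneg hT _ _ fun x => mul_nonneg (abs_nonneg _) (hu0 x))).symm
    _ ≤ Real.sqrt (w ^ 2 * E T I u) := Real.sqrt_le_sqrt h3
    _ = w * Real.sqrt (E T I u) := by rw [Real.sqrt_mul (sq_nonneg w), Real.sqrt_sq hf.1]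

/-- centring in the coordinates of C -/
lemma centre_all (hT' : IsPM T') (hk : 1 ≤ k) {O : Finset ℕ} {φ : (ℕ → W) → ℝ} {w η : ℝ}
    (hd : DependsOn φ ↑O) (hb : Bd T' k O φ w)
    (hη : ∀ i ∈ O, E T' O (fun ν => |Ew T' {i} φ ν|) ≤ η) (hη0 : 0 ≤ η) :
    ∀ C, C ⊆ O → ∃ ψ : (ℕ → W) → ℝ, DependsOn ψ ↑O ∧ Cen T' C ψ ∧
      Bd T' k O ψ (2 ^ C.card * w) ∧
      E T' O (fun ν => |ψ ν - φ ν|) ≤ ((2 : ℝ) ^ C.card - 1) * η := by
  intro C
  induction C using Finset.induction_on with
  | empty =>
    intro _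
    refine ⟨φ, hd, fun i hi => absurd hi (notMem_empty i), by simpa using hb, ?_⟩
    simp [E, Ew_zero]
  | @insert i C hi ih =>
    intro hC
    rw [insert_subset_iff] at hC
    obtain ⟨ψ, h1, h2, h3, h4⟩ := ih hC.2
    set ξ := fun ν => Ew T' {i} ψ ν with hξ
    have hsplit : ∀ F : (ℕ → W) → ℝ, DependsOn F ↑O →
        E T' O (fun ν => Ew T' {i} F ν) = E T' O F := by
      intro F hF
      have hOi : O = O.erase i ∪ {i} := by
        rw [union_comm, ← insert_eq, insert_erase hC.1]
      have hdis : Disjoint (O.erase i) {i} := disjoint_singleton_right.mpr (notMem_erase _ _)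
      have hd' : DependsOn (fun ν => Ew T' {i} F ν) ↑(O.erase i) := fun x y h =>
        Ew_dependsOn T' {i} F hF fun j hj => h j (mem_coe.mpr (mem_erase.mpr
          ⟨fun e => hj.2 (by simp [e]), mem_coe.mp hj.1⟩))
      rw [E, Ew_superset hT' (O.erase i) om0 (erase_subset _ _) hd']
      conv_rhs => rw [E, hOi, Ew_union T' _ _ hdis]
    have hξd : DependsOn ξ ↑O := fun x y h =>
      Ew_dependsOn T' {i} ψ h1 fun j hj => h j hj.1
    have hξb : Bd T' k O ξ (2 ^ C.card * w) := by
      refine ⟨h3.1, le_trans ?_ h3.2⟩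
      calc E T' O (fun ν => ξ ν ^ (2 * k))
          ≤ E T' O (fun ν => Ew T' {i} (fun x => ψ x ^ (2 * k)) ν) := by
            refine Ew_mono hT' _ _ fun x => ?_
            simp only [hξ, Ew, smul_eq_mul]
            refine Real.pow_arith_mean_le_arith_mean_pow_of_even _ _ _
              (fun g _ => wt_nonneg hT' _ g) ?_ (even_two_mul k)
            have := Ew_const T' {i} x hT' (1 : ℝ)
            simpa [Ew] using this
        _ = E T' O (fun ν => ψ ν ^ (2 * k)) :=
            hsplit _ fun x y h => by simp only [h1 h]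
    refine ⟨fun ν => ψ ν - ξ ν, fun x y h => by simp only [h1 h, hξd h], ?_, ?_, ?_⟩
    · intro j hj ω
      rw [Ew_sub]
      rcases mem_insert.mp hj with rfl | hj'
      · rw [sub_eq_zero]
        exact (Ew_indep T' {j} ξ ω (Ew_dependsOn T' {j} ψ h1) (fun l hl h' => h'.2 hl) hT').symm
      · have hne : j ≠ i := fun e => hi (e ▸ hj')
        rw [h2 j hj' ω, hξ, Ew_swap T' {j} ψ ω (disjoint_singleton.mpr hne)]
        rw [Ew_congr T' {i} ω (G := fun _ => (0 : ℝ)) fun x _ _ => h2 j hj' x, Ew_zero, sub_zero]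
    · have := mink_even hT' O (univ : Finset Bool)
        (fun b ν => bif b then ψ ν else (-1) * ξ ν) (fun _ => 2 ^ C.card * w) k hk
        (fun b _ => by
          cases b
          · simpa using hξb.const_mul (-1)
          · exact h3)
      simp only [Fintype.sum_bool, cond_true, cond_false, neg_one_mul, ← sub_eq_add_neg] at this
      rw [card_insert_of_notMem hi, pow_succ]
      refine this.mono (le_of_eq (by ring))
    · have hd2 : DependsOn (fun ν => |ψ ν - φ ν|) ↑O := fun x y h => by simp only [h1 h, hd h]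
      have step : E T' O (fun ν => |ξ ν|) ≤ η + ((2 : ℝ) ^ C.card - 1) * η := by
        refine le_trans (Ew_mono hT' O om0 (G := fun ν =>
          |Ew T' {i} φ ν| + Ew T' {i} (fun x => |ψ x - φ x|) ν) fun x => ?_) ?_
        · have : ξ x = Ew T' {i} φ x + Ew T' {i} (fun y => ψ y - φ y) x := by
            rw [Ew_sub]; simp [hξ]
          rw [this]
          exact (abs_add_le _ _).trans (by gcongr; exact abs_Ew_le hT' _ _ _)
        · rw [Ew_add]
          exact add_le_add (hη i hC.1) ((hsplit _ hd2).le.trans h4)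
      refine le_trans (Ew_mono hT' O om0 (G := fun ν => |ψ ν - φ ν| + |ξ ν|) fun x => ?_) ?_
      · rw [show ψ x - ξ x - φ x = (ψ x - φ x) + (-ξ x) by ring]
        exact (abs_add_le _ _).trans (by rw [abs_neg])
      · rw [Ew_add, card_insert_of_notMem hi, pow_succ]
        refine (add_le_add h4 step).trans (le_of_eq ?_)
        ring

/-- one term for a density on slots over a background of T' -/
lemma leaf_term (hT : IsPM T) (hT' : IsPM T') (hk : 1 ≤ k) {M g : ℕ} {O : Finset ℕ}
    {f : (ℕ → W) → ℝ} {w B : ℝ} (hOg : O ⊆ range g) (hfd : DependsOn f ↑(unitsOf M O))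
    (hfc : ∀ i ∈ O, ∀ ω, Ew T (slotI M i) f ω = 0) (hf : Bd T k (unitsOf M O) f w)
    (hB : xfBad (T ^ M) T' ≤ B) :
    ∃ t : Term, t.S = O ∧ t.Good T' k ∧ t.w ≤ 4 ^ O.card * w ∧
      nrm (weave T M g O (fun _ => T') f - piN T' g t.f)
        ≤ 4 ^ O.card * w * Real.sqrt B := by
  classical
  set φ := xfDens T T' M O f with hφ
  set bad : (ℕ → W) → ℝ := fun ω => 1 - xfGI (T ^ M) T' O (xfVec M O ω) with hbad
  have hb01 : ∀ x, bad x = 0 ∨ bad x = 1 := fun x => by
    simp only [hbad, xfGI]; split_ifs <;> norm_num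
  set η := E T (unitsOf M O) (fun ω => |f ω| * bad ω) with hηdef
  have hη0 : 0 ≤ η := Ew_nonneg hT _ _ fun x => mul_nonneg (abs_nonneg _)
    (by rcases hb01 x with h | h <;> rw [h]; norm_num)
  have hηB : η ≤ (2 : ℝ) ^ O.card * w * Real.sqrt B := by
    refine (E_abs_ind_le hT hk hf hb01).trans ?_
    have h1 : E T (unitsOf M O) bad ≤ O.card * B :=
      (E_bad_le hT M T' O).trans (mul_le_mul_of_nonneg_left hB (Nat.cast_nonneg _))
    have h2 : Real.sqrt (O.card : ℝ) ≤ (2 : ℝ) ^ O.card := by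
      have h3 : (O.card : ℝ) ≤ 2 ^ O.card := by exact_mod_cast Nat.lt_two_pow_self.le
      refine Real.sqrt_le_iff.mpr ⟨by positivity, h3.trans ?_⟩
      exact le_self_pow₀ (one_le_pow₀ (by norm_num)) (by norm_num)
    calc w * Real.sqrt (E T (unitsOf M O) bad) ≤ w * Real.sqrt (O.card * B) :=
          mul_le_mul_of_nonneg_left (Real.sqrt_le_sqrt h1) hf.1
      _ = w * (Real.sqrt O.card * Real.sqrt B) := by rw [Real.sqrt_mul (Nat.cast_nonneg _)]
      _ ≤ w * (2 ^ O.card * Real.sqrt B) :=
          mul_le_mul_of_nonneg_left (mul_le_mul_of_nonneg_right h2 (Real.sqrt_nonneg _)) hf.1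
      _ = _ := by ring
  have hcent : ∀ i ∈ O, E T' O (fun ν => |Ew T' {i} φ ν|) ≤ η := by
    intro i hi
    set G : (ℕ → W) → ℝ := fun ν => if 0 ≤ Ew T' {i} φ ν then 1 else -1 with hG
    have hGi : DependsOn G ↑(O.erase i) := fun x y h => by
      have := Ew_dependsOn T' {i} φ (xfDens_dependsOn T T' M O f) (x := x) (y := y)
        fun j hj => h j (mem_coe.mpr (mem_erase.mpr ⟨fun e => hj.2 (by simp [e]), mem_coe.mp hj.1⟩))
      simp only [hG]
      simp only at this
      rw [this]
    have hGd : DependsOn G ↑O := fun x y h => hGi fun j hj =>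
      h j (mem_coe.mpr (mem_of_mem_erase (mem_coe.mp hj)))
    have hOi : O = O.erase i ∪ {i} := by rw [union_comm, ← insert_eq, insert_erase hi]
    have e1 : E T' O (fun ν => φ ν • G ν) = E T' O (fun ν => |Ew T' {i} φ ν|) := by
      have hdep : DependsOn (fun ν => |Ew T' {i} φ ν|) ↑(O.erase i) := fun x y h => by
        have := Ew_dependsOn T' {i} φ (xfDens_dependsOn T T' M O f) (x := x) (y := y)
          fun j hj => h j (mem_coe.mpr (mem_erase.mpr
            ⟨fun e => hj.2 (by simp [e]), mem_coe.mp hj.1⟩))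
        simp only at this ⊢
        rw [this]
      conv_rhs => rw [E, Ew_superset hT' (O.erase i) om0 (erase_subset _ _) hdep]
      rw [E]
      conv_lhs => rw [hOi, Ew_union T' _ _ (disjoint_singleton_right.mpr (notMem_erase _ _))]
      refine Ew_congr T' _ _ fun x _ _ => ?_
      rw [show (fun ν => φ ν • G ν) = fun ν => G ν * φ ν from funext fun ν => mul_comm _ _,
        Ew_mul_real (S := ↑(O.erase i)) (fun j hj => by simp at hj; subst hj; simp) G φ hGi x]
      simp only [hG]
      split_ifs with h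
      · rw [one_mul, abs_of_nonneg h]
      · rw [abs_of_neg (not_le.mp h)]; ring
    rw [← e1, xfDens_test hT hT' M O f G hGd]
    have e2 : E T (unitsOf M O) (fun ω => f ω * G (xfVec M O ω)) = 0 := by
      have hu : unitsOf M O = unitsOf M (O.erase i) ∪ slotI M i := by
        rw [union_comm, ← unitsOf_insert, insert_erase hi]
      have hdis : Disjoint (unitsOf M (O.erase i)) (slotI M i) :=
        (slotI_disjoint_units (notMem_erase i O)).symm
      rw [E, hu, Ew_union T _ _ hdis]
      refine (Ew_congr T _ _ (G := fun _ => (0 : ℝ)) fun x _ _ => ?_).trans (Ew_zero T _ _)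
      have hd : DependsOn (fun ω => G (xfVec M O ω)) ↑(unitsOf M (O.erase i)) := fun a b h =>
        hGi fun j hj => by
          have hj' := mem_coe.mp hj
          simp only [xfVec, mem_of_mem_erase hj', if_true]
          exact xfSlot_dependsOn M j fun l hl => h l (slotI_subset_units hj' hl)
      rw [show (fun ω => f ω * G (xfVec M O ω)) = fun ω => G (xfVec M O ω) * f ω from
        funext fun ω => mul_comm _ _,
        Ew_mul_real (fun j hj => Finset.disjoint_right.mp hdis hj) _ f hd x, hfc i hi x, mul_zero]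
    have e3 : E T (unitsOf M O)
        (fun ω => (f ω * xfGI (T ^ M) T' O (xfVec M O ω)) • G (xfVec M O ω))
        = - E T (unitsOf M O) (fun ω => f ω * bad ω * G (xfVec M O ω)) := by
      rw [eq_neg_iff_add_eq_zero, ← e2, E, E, E, ← Ew_add]
      exact Ew_congr T _ _ fun x _ _ => by simp [hbad]; ring
    rw [e3]
    refine (neg_le_abs _).trans ((abs_Ew_le hT _ _ _).trans (Ew_mono hT _ _ fun x => ?_))
    rw [abs_mul, abs_mul]
    have : |G (xfVec M O x)| = 1 := by simp only [hG]; split_ifs <;> simp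
    rw [this, mul_one]
    rcases hb01 x with h | h <;> rw [h] <;> simp
  obtain ⟨ψ, hψd, hψc, hψb, hψe⟩ := centre_all hT' hk (xfDens_dependsOn T T' M O f)
    (xfDens_bd hT hT' hk M O f hf) hcent hη0 O (Finset.Subset.refl O)
  refine ⟨⟨O, ψ, 2 ^ O.card * (2 ^ O.card * w)⟩, rfl, ⟨hψd, hψc, hψb⟩, ?_, ?_⟩
  · simp only
    rw [← mul_assoc, ← mul_pow]
    norm_num
  simp only
  have hdψ : ∀ u : (ℕ → W) → ℝ, DependsOn u ↑O →
      piN T' g u = E T' O (fun ν => u ν • sprod (xfSlots 1 O (fun _ => T') ν) g) := by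
    intro u hu
    have := weave_pow (T := T') (M := 1) u hOg (by rw [unitsOf_one]; exact hu)
    rw [pow_one, mul_one] at this
    rw [this, weave, unitsOf_one]
    rfl
  set Φ : (ℕ → W) → Alg := fun ν => sprod (xfSlots 1 O (fun _ => T') ν) g with hΦ
  have hΦ1 : ∀ ν, nrm (Φ ν) ≤ 1 := fun ν => by
    refine (nrm_sprod_le _ g).trans ?_
    refine prod_le_one (fun i _ => nrm_nonneg _) fun i _ => ?_
    simp only [xfSlots]
    split_ifs
    · rw [nrm_pt]
    · rw [hT'.nrm_eq]
  have hΦd : DependsOn Φ ↑O := fun x y h => xfSlots_dependsOn 1 g O _ (by rwa [unitsOf_one])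
  have hw : weave T M g O (fun _ => T') f
      = E T (unitsOf M O) (fun ω => f ω • Φ (xfVec M O ω)) := by
    refine Ew_congr T _ _ fun x _ _ => congrArg _ (sprod_congr g fun i _ => ?_)
    simp only [xfSlots, xfSlot_one, xfVec]
    split_ifs <;> rfl
  have d1 : nrm (weave T M g O (fun _ => T') f - piN T' g φ) ≤ η := by
    rw [hw, hdψ φ (xfDens_dependsOn T T' M O f), xfDens_test hT hT' M O f Φ hΦd, E, E, ← Ew_sub]
    refine (nrm_Ew_le hT _ _ _).trans (Ew_mono hT _ _ fun x => ?_)
    rw [← sub_smul, nrm_smul]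
    refine (mul_le_of_le_one_right (abs_nonneg _) (hΦ1 _)).trans (le_of_eq ?_)
    rw [show f x - f x * xfGI (T ^ M) T' O (xfVec M O x) = f x * bad x by simp [hbad]; ring,
      abs_mul]
    rcases hb01 x with h | h <;> rw [h] <;> simp
  have d2 : nrm (piN T' g φ - piN T' g ψ) ≤ ((2 : ℝ) ^ O.card - 1) * η := by
    rw [hdψ φ (xfDens_dependsOn T T' M O f), hdψ ψ hψd, E, E, ← Ew_sub]
    refine (nrm_Ew_le hT' _ _ _).trans ((Ew_mono hT' _ _ fun x => ?_).trans hψe)
    rw [← sub_smul, nrm_smul, abs_sub_comm]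
    exact mul_le_of_le_one_right (abs_nonneg _) (hΦ1 _)
  refine (nrm_sub_le_sub_add_sub _ (piN T' g φ) _).trans ((add_le_add d1 d2).trans ?_)
  calc η + ((2 : ℝ) ^ O.card - 1) * η = 2 ^ O.card * η := by ring
    _ ≤ 2 ^ O.card * (2 ^ O.card * w * Real.sqrt B) :=
        mul_le_mul_of_nonneg_left hηB (by positivity)
    _ = _ := by
        rw [show (4 : ℝ) ^ O.card = 2 ^ O.card * 2 ^ O.card by rw [← mul_pow]; norm_num]
        ring

/-- disjoint union of families -/
def xfApp (F F' : Fam) : Fam := ⟨F.ι ⊕ F'.ι, Sum.elim F.t F'.t⟩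

/-- negated family -/
def xfNeg (F : Fam) : Fam := ⟨F.ι, fun i => ⟨(F.t i).S, fun ω => -1 * (F.t i).f ω, (F.t i).w⟩⟩

/-- family with a single term -/
def xfSingle (t : Term) : Fam := ⟨Unit, fun _ => t⟩

/-- the family with no term -/
def xfEmpty : Fam := ⟨Empty, fun e => e.elim⟩

lemma xfApp_wt (F F' : Fam) : (xfApp F F').wt = F.wt + F'.wt := by
  show ∑ i : F.ι ⊕ F'.ι, (Sum.elim F.t F'.t i).w = _
  exact Fintype.sum_sum_type _

lemma xfApp_val (F F' : Fam) (T : Alg) (N : ℕ) :
    (xfApp F F').val T N = F.val T N + F'.val T N := by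
  rw [Fam.val, Fam.val, Fam.val, ← piN_add]
  congr 1
  funext ω
  show ∑ i : F.ι ⊕ F'.ι, (Sum.elim F.t F'.t i).f ω = _
  exact Fintype.sum_sum_type _

lemma xfApp_good {F F' : Fam} {d lo hi : ℕ} (h : F.Good T k d lo hi) (h' : F'.Good T k d lo hi) :
    (xfApp F F').Good T k d lo hi := by
  refine ⟨?_, ?_, ?_, ?_⟩ <;> rintro (i | i)
  exacts [h.good i, h'.good i, h.win i, h'.win i, h.ne i, h'.ne i, h.deg i, h'.deg i]

lemma xfNeg_wt (F : Fam) : (xfNeg F).wt = F.wt := rfl

lemma xfNeg_val (F : Fam) (T : Alg) (N : ℕ) : (xfNeg F).val T N = - F.val T N := by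
  rw [Fam.val, Fam.val, ← neg_one_smul ℝ (piN T N F.fn), ← piN_smul]
  congr 1
  funext ω
  show ∑ i : F.ι, -1 * (F.t i).f ω = -1 * ∑ i, (F.t i).f ω
  rw [mul_sum]

lemma xfNeg_good {F : Fam} {d lo hi : ℕ} (h : F.Good T k d lo hi) :
    (xfNeg F).Good T k d lo hi := by
  refine ⟨fun i => ⟨?_, ?_, ?_⟩, h.win, h.ne, h.deg⟩
  · intro x y hxy
    show -1 * (F.t i).f x = -1 * (F.t i).f y
    rw [(h.good i).dep hxy]
  · intro j hj ω
    have := (h.good i).cen j hj ω
    show Ew T {j} (fun ω => -1 * (F.t i).f ω) ω = 0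
    simp only [neg_one_mul, Ew_neg, this, neg_zero]
  · show Bd T k (F.t i).S (fun ω => -1 * (F.t i).f ω) (F.t i).w
    simpa using (h.good i).bd.const_mul (-1)

lemma xfEmpty_good (T : Alg) (k d lo hi : ℕ) : xfEmpty.Good T k d lo hi :=
  ⟨fun i => i.elim, fun i => i.elim, fun i => i.elim, fun i => i.elim⟩

lemma xfEmpty_wt : xfEmpty.wt = 0 := sum_eq_zero fun i _ => i.elim

lemma xfEmpty_val (T : Alg) (N : ℕ) : xfEmpty.val T N = 0 := by
  have : xfEmpty.fn = fun _ => 0 := funext fun ω => sum_eq_zero fun i _ => i.elim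
  simp [Fam.val, this, piN, E, Ew_zero]

lemma xfSingle_val (t : Term) (T : Alg) (N : ℕ) : (xfSingle t).val T N = piN T N t.f := by
  have : (xfSingle t).fn = t.f := funext fun ω => Fintype.sum_unique (ι := Unit) _
  rw [Fam.val, this]

open Classical in
/-- background with T^M on B and T' elsewhere -/
noncomputable def xfBack (T T' : Alg) (M : ℕ) (B : Finset ℕ) : ℕ → Alg :=
  fun i => if i ∈ B then T ^ M else T'

lemma expand_rec (k r : ℕ) (hk : 1 ≤ k) : ∀ n : ℕ,
    ∃ c : ℝ, 0 ≤ c ∧ ∀ (T T' : Alg) (M g : ℕ) (hG : (ℕ → W) → ℝ) (α ε : ℝ),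
      IsPM T → IsPM T' →
      DependsOn hG ↑(range M) → Bd T k (range M) hG α → (∀ ω, Ew T (range M) hG ω = 0) →
      nrm (T' - T ^ M - piN T M hG) ≤ ε → (g : ℝ) * α ≤ 1 →
      ∀ (O B : Finset ℕ) (f : (ℕ → W) → ℝ) (w : ℝ), O ⊆ range g → O.Nonempty → O.card ≤ n →
      B ⊆ range g → Disjoint O B →
      DependsOn f ↑(unitsOf M O) → (∀ i ∈ O, ∀ ω, Ew T (slotI M i) f ω = 0) →
      Bd T k (unitsOf M O) f w →
      ∃ F : Fam, F.Good T' k (n + r) 0 g ∧ F.wt ≤ c * w ∧
        nrm (weave T M g O (xfBack T T' M B) f - F.val T' g)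
          ≤ c * w * (((g : ℝ) * α) ^ r + (g : ℝ) * ε
              + Real.sqrt ((4 * α) ^ (2 * k) + 4 * ε)) := by
  induction r with
  | zero =>
    intro n
    refine ⟨1, zero_le_one, ?_⟩
    intro T T' M g hG α ε hT hT' _ hbd _ herr _ O B f w hOg _ _ hB _ hfd _ hf
    refine ⟨xfEmpty, xfEmpty_good _ _ _ _ _, by rw [xfEmpty_wt, one_mul]; exact hf.1, ?_⟩
    rw [xfEmpty_val, sub_zero, one_mul, pow_zero]
    have h1 := weave_nrm_le (g := g) (Y := xfBack T T' M B) hT hk hf (fun _ => 1)
      (fun i _ _ => by simp only [xfBack]; split_ifs <;> simp [(hT.pow M).nrm_eq, hT'.nrm_eq])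
      (fun _ _ => rfl) (fun _ => zero_le_one)
    rw [prod_const_one, mul_one] at h1
    have hε : 0 ≤ ε := (nrm_nonneg _).trans herr
    refine h1.trans (le_mul_of_one_le_right hf.1 ?_)
    linarith [mul_nonneg (Nat.cast_nonneg (α := ℝ) g) hε, Real.sqrt_nonneg ((4 * α) ^ (2 * k) + 4 * ε)]
  | succ r ih =>
    intro n
    obtain ⟨c, hc0, hc⟩ := ih (n + 1)
    refine ⟨4 ^ n + c + 1, by positivity, ?_⟩
    intro T T' M g hG α ε hT hT' hGd hbd hGc herr hga O B f w hOg hOne hOn hB hOB hfd hfc hf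
    classical
    set S := Real.sqrt ((4 * α) ^ (2 * k) + 4 * ε) with hS
    set δ := ((g : ℝ) * α) ^ r + (g : ℝ) * ε + S with hδ
    have hα0 : 0 ≤ α := hbd.1
    have hε : 0 ≤ ε := (nrm_nonneg _).trans herr
    have hw : 0 ≤ w := hf.1
    have hS0 : 0 ≤ S := Real.sqrt_nonneg _
    have hδ0 : 0 ≤ δ := by positivity
    have step : ∀ C, C ⊆ B → ∃ F : Fam, F.Good T' k (n + 1 + r) 0 g ∧
        F.wt ≤ C.card * (c * (w * α)) ∧
        nrm (weave T M g O (xfBack T T' M C) f - weave T M g O (fun _ => T') f - F.val T' g)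
          ≤ C.card * (c * (w * α) * δ + w * ε) := by
      intro C
      induction C using Finset.induction_on with
      | empty =>
        intro _
        refine ⟨xfEmpty, xfEmpty_good _ _ _ _ _, by simp [xfEmpty_wt], ?_⟩
        have : xfBack T T' M ∅ = fun _ => T' := funext fun i => by simp [xfBack]
        simp [this, xfEmpty_val, nrm_zero]
      | @insert i C hiC ihC =>
        intro hCB
        rw [insert_subset_iff] at hCB
        obtain ⟨F1, hF1, hw1, he1⟩ := ihC hCB.2
        have hig : i < g := mem_range.mp (hB hCB.1)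
        have hiO : i ∉ O := fun h => Finset.disjoint_left.mp hOB h hCB.1
        set f' := fun ω => f ω * shiftF (i * M) hG ω with hf'
        have hsd : DependsOn (shiftF (i * M) hG) ↑(slotI M i) := by
          rw [slotI_eq_image]; exact shiftF_dependsOn hGd _
        have hf'd : DependsOn f' ↑(unitsOf M (insert i O)) := fun x y h => by
          simp only [hf']
          rw [hfd fun j hj => h j (by simp [unitsOf_insert]; exact Or.inr hj),
            hsd fun j hj => h j (by simp [unitsOf_insert]; exact Or.inl hj)]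
        have hdis := slotI_disjoint_units (M := M) hiO
        have hf'c : ∀ j ∈ insert i O, ∀ ω, Ew T (slotI M j) f' ω = 0 := by
          intro j hj ω
          rcases mem_insert.mp hj with rfl | hj'
          · rw [hf', Ew_mul_real (fun l hl => Finset.disjoint_left.mp hdis hl) f _ hfd ω]
            have : Ew T (slotI M j) (shiftF (j * M) hG) ω = 0 := by
              rw [slotI_eq_image]
              exact (Ew_image T (range M) hG (fun l => j * M + l)
                (fun a b hab => by simpa using hab) ω).trans (hGc _)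
            rw [this, mul_zero]
          · have hne : j ≠ i := fun e => hiO (e ▸ hj')
            rw [show f' = fun ω => shiftF (i * M) hG ω * f ω from funext fun _ => mul_comm _ _,
              Ew_mul_real (fun l hl => Finset.disjoint_left.mp (slotI_disjoint hne) hl) _ f hsd ω,
              hfc j hj' ω, mul_zero]
        have hf'b : Bd T k (unitsOf M (insert i O)) f' (w * α) := by
          refine ⟨mul_nonneg hw hα0, ?_⟩
          simp only [hf', mul_pow]
          rw [unitsOf_insert, union_comm, E_mul_disjoint hdis.symm _ _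
            (fun x y h => by simp only [hfd h]) (fun x y h => by simp only [hsd h])]
          refine mul_le_mul hf.2 ?_ (Ew_nonneg hT _ _ fun x => (even_two_mul k).pow_nonneg _)
            (pow_nonneg hw _)
          rw [slotI_eq_image]
          exact (E_shiftF (T := T) (range M) (fun ω => hG ω ^ (2 * k)) (i * M)).le.trans hbd.2
        obtain ⟨F2, hF2, hw2, he2⟩ := hc T T' M g hG α ε hT hT' hGd hbd hGc herr hga
          (insert i O) C f' (w * α) (insert_subset (mem_range.mpr hig) hOg) (insert_nonempty _ _)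
          (by rw [card_insert_of_notMem hiO]; omega) (hCB.2.trans hB)
          (by
            rw [disjoint_insert_left]
            exact ⟨hiC, Finset.disjoint_of_subset_right hCB.2 hOB⟩)
          hf'd hf'c hf'b
        refine ⟨xfApp F1 (xfNeg F2), xfApp_good hF1 (xfNeg_good hF2), ?_, ?_⟩
        · rw [xfApp_wt, xfNeg_wt, card_insert_of_notMem hiC]
          push_cast
          linarith
        set e := T' - T ^ M - piN T M hG with hedef
        set Y := xfBack T T' M C with hY
        have hYi : Y i = T' := by simp [hY, xfBack, hiC]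
        have hYins : xfBack T T' M (insert i C) = xfUpd Y i (T ^ M) := by
          funext j
          by_cases hj : j = i
          · subst hj; simp [xfBack, xfUpd]
          · simp [xfBack, xfUpd, hY, hj]
        have hadd : weave T M g O Y f = weave T M g O (xfBack T T' M (insert i C)) f
            + weave T M g (insert i O) Y f' + weave T M g O (xfUpd Y i e) f := by
          rw [hYins, hf', ← weave_absorb Y f hG hig hiO hfd hGd,
            ← weave_slot_add Y f hig hiO, ← weave_slot_add Y f hig hiO,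
            show T ^ M + piN T M hG + e = Y i by rw [hYi, hedef]; abel, xfUpd_self]
        have herr2 : nrm (weave T M g O (xfUpd Y i e) f) ≤ w * ε := by
          refine (weave_nrm_le hT hk hf (fun j => if j = i then ε else 1) (fun j _ _ => ?_)
            (fun j hj => if_neg fun (h : j = i) => hiO (by rw [← h]; exact hj))
            (fun j => by split_ifs <;> [exact hε; exact zero_le_one])).trans (le_of_eq ?_)
          · by_cases hj : j = i
            · subst hj; simpa [xfUpd] using herr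
            · simp only [xfUpd, Function.update_of_ne hj, hj, if_false, hY, xfBack]
              split_ifs <;> simp [(hT.pow M).nrm_eq, hT'.nrm_eq]
          · rw [prod_ite_eq', if_pos (mem_range.mpr hig)]
        have e3 : weave T M g O (xfBack T T' M (insert i C)) f - weave T M g O (fun _ => T') f
              - (xfApp F1 (xfNeg F2)).val T' g
            = (weave T M g O Y f - weave T M g O (fun _ => T') f - F1.val T' g)
              - (weave T M g (insert i O) Y f' - F2.val T' g)
              - weave T M g O (xfUpd Y i e) f := by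
          rw [xfApp_val, xfNeg_val, hadd]; abel
        rw [e3, card_insert_of_notMem hiC]
        refine ((nrm_sub _ _).trans (add_le_add (nrm_sub _ _) le_rfl)).trans ?_
        push_cast
        linarith
    obtain ⟨F1, hF1, hw1, he1⟩ := step B (Finset.Subset.refl B)
    obtain ⟨t, htS, htg, htw, hte⟩ := leaf_term (g := g) hT hT' hk hOg hfd hfc hf
      (xfBad_le hT hk hbd herr)
    have hBg : (B.card : ℝ) ≤ g := by
      have := card_le_card hB
      rw [card_range] at this
      exact_mod_cast this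
    have h4 : (4 : ℝ) ^ O.card ≤ 4 ^ n := pow_le_pow_right₀ (by norm_num) hOn
    refine ⟨xfApp F1 (xfSingle t), ⟨?_, ?_, ?_, ?_⟩, ?_, ?_⟩
    · rintro (i | i)
      exacts [hF1.good i, htg]
    · rintro (i | i)
      · exact hF1.win i
      · intro x hx
        have : x ∈ range g := hOg (htS ▸ hx)
        simpa using this
    · rintro (i | i)
      exacts [hF1.ne i, by show t.S.Nonempty; rw [htS]; exact hOne]
    · rintro (i | i)
      · exact le_trans (hF1.deg i) (by omega)
      · show t.S.card ≤ _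
        rw [htS]; omega
    · have h1 : (xfSingle t).wt = t.w := Fintype.sum_unique (ι := Unit) _
      rw [xfApp_wt, h1]
      have h2 : (B.card : ℝ) * (c * (w * α)) ≤ c * w := by
        calc (B.card : ℝ) * (c * (w * α)) ≤ g * (c * (w * α)) :=
              mul_le_mul_of_nonneg_right hBg (by positivity)
          _ = c * w * (g * α) := by ring
          _ ≤ c * w := mul_le_of_le_one_right (by positivity) hga
      linarith [mul_le_mul_of_nonneg_right h4 hw]
    · have e4 : weave T M g O (xfBack T T' M B) f - (xfApp F1 (xfSingle t)).val T' g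
          = (weave T M g O (xfBack T T' M B) f - weave T M g O (fun _ => T') f - F1.val T' g)
            + (weave T M g O (fun _ => T') f - piN T' g t.f) := by
        rw [xfApp_val, xfSingle_val]; abel
      rw [e4]
      refine (nrm_add _ _).trans ((add_le_add he1 hte).trans ?_)
      have hgd : (g : ℝ) * α * δ ≤ ((g : ℝ) * α) ^ (r + 1) + g * ε + S := by
        rw [hδ, pow_succ, mul_add, mul_add]
        have := mul_le_of_le_one_left (mul_nonneg (Nat.cast_nonneg (α := ℝ) g) hε) hga
        have := mul_le_of_le_one_left hS0 hga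
        linarith
      set T3 := ((g : ℝ) * α) ^ (r + 1) + g * ε + S
      have hT3 : (g : ℝ) * ε ≤ T3 ∧ S ≤ T3 ∧ 0 ≤ T3 := by
        have : 0 ≤ ((g : ℝ) * α) ^ (r + 1) := by positivity
        have : 0 ≤ (g : ℝ) * ε := by positivity
        exact ⟨by simp only [T3]; linarith, by simp only [T3]; linarith,
          by simp only [T3]; linarith⟩
      have a1 : (B.card : ℝ) * (c * (w * α) * δ + w * ε) ≤ c * w * T3 + w * T3 := by
        calc (B.card : ℝ) * (c * (w * α) * δ + w * ε) ≤ g * (c * (w * α) * δ + w * ε) :=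
              mul_le_mul_of_nonneg_right hBg (by positivity)
          _ = c * w * (g * α * δ) + w * (g * ε) := by ring
          _ ≤ _ := add_le_add (mul_le_mul_of_nonneg_left hgd (by positivity))
              (mul_le_mul_of_nonneg_left hT3.1 hw)
      have a2 : 4 ^ O.card * w * S ≤ 4 ^ n * w * T3 :=
        mul_le_mul (mul_le_mul_of_nonneg_right h4 hw) hT3.2.1 hS0 (by positivity)
      linarith

/-- change of reference from units to slots -/
theorem loc_expand (k r o : ℕ) (hk : 1 ≤ k) :
    ∃ c : ℝ, ∃ d : ℕ, 0 ≤ c ∧ ∀ (T T' : Alg) (M g : ℕ) (hG f : (ℕ → W) → ℝ) (α ε w : ℝ)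
      (O : Finset ℕ),
      IsPM T → IsPM T' → 0 < M →
      DependsOn hG ↑(range M) → Bd T k (range M) hG α → (∀ ω, Ew T (range M) hG ω = 0) →
      nrm (T' - T ^ M - piN T M hG) ≤ ε → 4 * (g : ℝ) * α ≤ 1 → (g : ℝ) * ε ≤ 1 →
      O ⊆ range g → O.Nonempty → O.card ≤ o →
      DependsOn f ↑(unitsOf M O) → (∀ i ∈ O, ∀ ω, Ew T (slotI M i) f ω = 0) →
      Bd T k (unitsOf M O) f w →
      ∃ F : Fam, F.Good T' k d 0 g ∧ F.wt ≤ c * w ∧
        nrm (piN T (g * M) f - F.val T' g)
          ≤ c * w * ((4 * (g : ℝ) * α) ^ r + ((g : ℝ) + 1) * ε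
              + Real.sqrt ((4 * α) ^ (2 * k) + 4 * ε)) := by
  obtain ⟨c, hc0, hc⟩ := expand_rec k r hk o
  refine ⟨c, o + r, hc0, ?_⟩
  intro T T' M g hG f α ε w O hT hT' _ hGd hbd hGc herr hga _ hOg hOne hOn hfd hfc hf
  have hg : 0 ≤ (g : ℝ) * α := mul_nonneg (Nat.cast_nonneg _) hbd.1
  have hε : 0 ≤ ε := (nrm_nonneg _).trans herr
  obtain ⟨F, hF, hw, he⟩ := hc T T' M g hG α ε hT hT' hGd hbd hGc herr (by linarith) O
    (range g \ O) f w hOg hOne hOn sdiff_subset disjoint_sdiff hfd hfc hf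
  refine ⟨F, hF, hw, ?_⟩
  rw [weave_pow f hOg hfd]
  have hb : weave T M g O (fun _ => T ^ M) f
      = weave T M g O (xfBack T T' M (range g \ O)) f :=
    weave_congr f fun i hi hiO => by simp [xfBack, hi, hiO]
  rw [hb]
  refine he.trans (mul_le_mul_of_nonneg_left ?_ (mul_nonneg hc0 hf.1))
  have h1 : ((g : ℝ) * α) ^ r ≤ (4 * (g : ℝ) * α) ^ r := pow_le_pow_left₀ hg (by linarith) r
  nlinarith

end Vale.Agent.P321
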