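import Mathlib
import Vale.Agent.P321.Slots
import Vale.Agent.P321.Transfer

/-
One cluster of differences in a region of slots: the spreading gain.
-/

open scoped BigOperators
open Finset

namespace Vale.Agent.P321

variable {T : Alg} {k : ℕ}

lemma sprod_eq_zero (X : ℕ → Alg) : ∀ g i, i < g → X i = 0 → sprod X g = 0
  | 0, i, h, _ => absurd h (Nat.not_lt_zero i)
  | g + 1, i, h, h0 => by
    rw [sprod]
    rcases Nat.lt_succ_iff_lt_or_eq.mp h with h | rfl
    · rw [sprod_eq_zero X g i h h0, zero_mul]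
    · rw [h0, mul_zero]

lemma slotFn_congr {M : ℕ} {h h' : ℕ → (ℕ → W) → ℝ} {S : Finset ℕ} (e : ∀ i ∈ S, h i = h' i) :
    slotFn M h S = slotFn M h' S := by
  funext ω
  exact prod_congr rfl fun i hi => by rw [e i hi]

lemma slotFn_image_add (M R : ℕ) (f : (ℕ → W) → ℝ) (S : Finset ℕ) :
    slotFn M (fun _ => f) (S.image (fun i => R + i)) = shiftF (R * M) (slotFn M (fun _ => f) S) := by
  funext ω
  rw [slotFn, prod_image (fun a _ b _ h => by simpa using h)]
  refine prod_congr rfl fun i _ => ?_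
  simp only [shiftF]
  congr 1
  funext x
  simp only [Function.comp]
  congr 1
  ring

/-- a cluster averaged over translations -/
lemma main_piece (hT : IsPM T) (hk : 1 ≤ k) {σ : ℝ} (hs : Smooth T σ) {Dl : Fam} {d lo hi M : ℕ}
    (hD : Dl.Good T k d lo hi) (hhi : hi ≤ M) (n R J0 gp msm : ℕ) (hJ : 0 < J0)
    (hκ : msm * (J0 * J0) ≤ lo) (hgp : msm * (J0 * J0 + gp) ≤ R * M)
    (B : Finset ℕ) (hB : B ⊆ range n) (hBne : B.Nonempty) :
    ∃ f : (ℕ → W) → ℝ,
      DependsOn f ↑(unitsOf M (B.image (fun i => R + i))) ∧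
      (∀ i ∈ B.image (fun i => R + i), ∀ ω, Ew T (slotI M i) f ω = 0) ∧
      Bd T k (unitsOf M (B.image (fun i => R + i))) f
        (smC k ^ (n * d) * (3 ^ msm / (J0 : ℝ) * Dl.wt ^ B.card)) ∧
      nrm (piN T ((R + n + R) * M) (slotFn M (fun _ => Dl.fn) (B.image (fun i => R + i)))
          - piN T ((R + n + R) * M) f)
        ≤ (2 * ((J0 * J0 : ℕ) : ℝ) * (σ / Real.sqrt ((gp : ℝ) + 1))) ^ msm * Dl.wt ^ B.card := by
  classical
  obtain ⟨G, g1, g2, g3, g4, g5, g6⟩ := exists_prod_fam hT hD hhi B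
  set J := J0 * J0 with hJdef
  set O := B.image (fun i => R + i) with hO
  have hJp : 0 < J := Nat.mul_pos hJ hJ
  have hdB : ∀ i ∈ B, DependsOn Dl.fn ↑(range M) := fun i _ x y hxy =>
    Fam.fn_dependsOn hD fun j hj => hxy j (by
      simp only [coe_Ico, coe_range, Set.mem_Ico, Set.mem_Iio] at hj ⊢; omega)
  have hdep : DependsOn (slotFn M (fun _ => Dl.fn) B) ↑(range (n * M)) := fun x y hxy =>
    slotFn_dependsOn hdB fun j hj => hxy j (unitsOf_subset_range hB hj)
  have hκle : ∀ κ ∈ range (msm * J + 1), κ ≤ lo ∧ κ ≤ R * M := fun κ hk' => by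
    rw [mem_range] at hk'
    have := Nat.mul_le_mul_left msm (Nat.le_add_right J gp)
    omega
  set s := range (msm * J + 1) ×ˢ (univ : Finset G.ι) with hsdef
  set t : ℕ × G.ι → Term := fun p => ((G.t p.2).shift (R * M - p.1)).smul (ker J msm p.1) with htdef
  have htg : ∀ p ∈ s, (t p).Good T k := fun p _ => ((g1 p.2).shift _).smul _
  have hmove : ∀ κ ∈ range (msm * J + 1), ∀ j x : ℕ, j * M + lo ≤ x → x < j * M + hi →
      R * M - κ + x ∈ slotI M (R + j) := by
    intro κ hk' j x h1 h2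
    obtain ⟨h3, h4⟩ := hκle κ hk'
    simp only [slotI, mem_Ico, Nat.succ_mul, Nat.add_mul]
    omega
  have htS : ∀ p ∈ s, (t p).S ⊆ unitsOf M O := by
    intro p hp y hy
    obtain ⟨hp1, -⟩ := mem_product.mp hp
    simp only [htdef, Term.smul, Term.shift, mem_image] at hy
    obtain ⟨x, hx, rfl⟩ := hy
    obtain ⟨j, hj, h1, h2⟩ := g2 _ x hx
    exact mem_biUnion.mpr ⟨R + j, mem_image_of_mem _ hj, hmove _ hp1 j x h1 h2⟩
  have htd : ∀ p ∈ s, (t p).S.card ≤ n * d := by
    intro p _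
    refine card_image_le.trans ((g3 p.2).trans (Nat.mul_le_mul_right _ ?_))
    simpa using card_le_card hB
  have hwt : 0 ≤ Dl.wt := Fam.wt_nonneg hD
  have hN : nuC 1 s (fun p => (t p).S) (fun p => (t p).w)
      ≤ (3 ^ msm / (J0 : ℝ) * Dl.wt ^ B.card) ^ 2 := by
    have h := young_bound (fun i => (G.t i).S) (fun i => (G.t i).w) (fun i => (g1 i).bd.1)
      (fun i => by
        obtain ⟨j, hj⟩ := hBne
        obtain ⟨x, hx, -⟩ := g4 i j hj
        exact ⟨x, hx⟩)
      (range (msm * J + 1)) (ker J msm) (fun κ => R * M - κ)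
      (fun a ha b hb hab => by
        have := (hκle a ha).2
        have := (hκle b hb).2
        dsimp only at hab
        omega)
      (fun κ _ => ker_sup J msm κ) (by positivity) (ker_l1 J msm)
    refine le_trans (le_of_eq ?_) (h.trans (le_of_eq ?_))
    · rfl
    · have e : ∑ i, (G.t i).w = Dl.wt ^ B.card := g5
      rw [e, hJdef, Nat.cast_mul]
      have : (J0 : ℝ) ≠ 0 := by exact_mod_cast hJ.ne'
      field_simp
  have hbd := es_bd hT k hk (unitsOf M O) s t htg htS (n * d) htd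
    (N := 3 ^ msm / (J0 : ℝ) * Dl.wt ^ B.card) (by positivity) hN
  refine ⟨fun ω => ∑ p ∈ s, (t p).f ω, ?_, ?_, hbd, ?_⟩
  · intro x y hxy
    exact sum_congr rfl fun p hp => (htg p hp).dep fun j hj => hxy j (htS p hp hj)
  · intro i hi ω
    obtain ⟨j, hj, rfl⟩ := mem_image.mp hi
    have e : Ew T (slotI M (R + j)) (fun ω => ∑ p ∈ s, (t p).f ω) ω
        = ∑ p ∈ s, Ew T (slotI M (R + j)) (t p).f ω := Ew_sum T _ ω s fun p => (t p).f
    rw [e]
    refine sum_eq_zero fun p hp => ?_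
    obtain ⟨x, hx, h1, h2⟩ := g4 p.2 j hj
    exact (htg p hp).cen_set (i := R * M - p.1 + x)
      (by simp only [htdef, Term.smul, Term.shift]; exact mem_image_of_mem _ hx)
      (hmove _ (mem_product.mp hp).1 j x h1 h2) ω
  · set Z := piN T (n * M) (slotFn M (fun _ => Dl.fn) B) with hZdef
    have e1 : piN T ((R + n + R) * M) (slotFn M (fun _ => Dl.fn) O) = place T Z (R * M) (R * M) := by
      rw [hO, slotFn_image_add, show (R + n + R) * M = R * M + n * M + R * M by ring]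
      exact piN_shift T _ _ _ _ hdep
    have e2 : piN T ((R + n + R) * M) (fun ω => ∑ p ∈ s, (t p).f ω)
        = ∑ κ ∈ range (msm * J + 1), ker J msm κ • place T Z (R * M - κ) (R * M + κ) := by
      have e3 : (fun ω => ∑ p ∈ s, (t p).f ω) = fun ω => ∑ κ ∈ range (msm * J + 1),
          ker J msm κ * shiftF (R * M - κ) (slotFn M (fun _ => Dl.fn) B) ω := by
        funext ω
        rw [hsdef, sum_product]
        refine sum_congr rfl fun κ _ => ?_
        rw [← g6]
        simp only [htdef, Term.smul, Term.shift, Fam.fn, shiftF, mul_sum]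
      rw [e3, piN_sum]
      refine sum_congr rfl fun κ hκ' => ?_
      rw [piN_smul]
      congr 1
      have := (hκle κ hκ').2
      rw [show (R + n + R) * M = (R * M - κ) + n * M + (R * M + κ) by
        simp only [Nat.add_mul]; omega]
      exact piN_shift T _ _ _ _ hdep
    rw [e1, e2]
    have hc : msm * gp ≤ R * M := le_trans (Nat.mul_le_mul_left _ (Nat.le_add_left _ _)) hgp
    have hZ : nrm Z ≤ Dl.wt ^ B.card := by
      refine (nrm_piN_le_of_Bd hT hk _ ?_)
      have hb := slotFn_bd hT (h := fun _ => Dl.fn) (w := fun _ => Dl.wt) (S := B) hdB fun i _ =>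
        Fam.fn_bd hT hk hD (I := range M) fun x hx => by simp at hx ⊢; omega
      rw [prod_const] at hb
      exact hb.extend hT (slotFn_dependsOn hdB) (unitsOf_subset_range hB)
    have hbase := smooth_replace hT hs Z hJp gp msm (R * M) (R * M) hgp hc
    refine hbase.trans (mul_le_mul_of_nonneg_left hZ (pow_nonneg ?_ _))
    have := (nrm_nonneg _).trans (hs.le_div gp)
    positivity

lemma nrm_add5 {a b c d e : Alg} {A B C D E : ℝ} (ha : nrm a ≤ A) (hb : nrm b ≤ B)
    (hc : nrm c ≤ C) (hd : nrm d ≤ D) (he : nrm e ≤ E) :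
    nrm (a + b + c + d + e) ≤ A + B + C + D + E := by
  have := nrm_add (a + b + c + d) e
  have := nrm_add (a + b + c) d
  have := nrm_add (a + b) c
  have := nrm_add a b
  linarith

/-- replacing slots by push-forwards and expanding over the free slots -/
lemma region_hybrid {T' Δ : Alg} {ε : ℝ} (hT : IsPM T) (hT' : IsPM T') (hk : 1 ≤ k) {M gn n : ℕ}
    {fD fG : (ℕ → W) → ℝ} {β : ℝ} (hdD : DependsOn fD ↑(range M)) (hdG : DependsOn fG ↑(range M))
    (hbD : Bd T k (range M) fD β) (hβ1 : β ≤ 1)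
    (hεG : nrm (T' - T ^ M - piN T M fG) ≤ ε) (hεD : nrm (Δ - piN T M fD) ≤ ε) (hΔ : nrm Δ ≤ 2)
    (hgε : (gn : ℝ) * ε ≤ 1) (O : Finset ℕ) (hOsub : O ⊆ range gn) (hOn : O.card ≤ n) :
    nrm (sprod (fun i => if i ∈ O then Δ else T') gn
        - ∑ A ∈ (range gn \ O).powerset,
          piN T (gn * M) (slotFn M (fun i => if i ∈ O then fD else fG) (O ∪ A)))
      ≤ (gn : ℝ) * ε * (3 * 3 ^ n) := by
  classical
  have hε : 0 ≤ ε := (nrm_nonneg _).trans hεG
  set Fr := range gn \ O with hFr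
  set h : ℕ → (ℕ → W) → ℝ := fun i => if i ∈ O then fD else fG with hh
  set P : Finset ℕ → Alg := fun A => piN T (gn * M) (slotFn M h (O ∪ A)) with hP
  have hdh : ∀ i, DependsOn (h i) ↑(range M) := fun i => by
    simp only [hh]; split_ifs
    exacts [hdD, hdG]
  have hsubOA : ∀ A ∈ Fr.powerset, O ∪ A ⊆ range gn := fun A hA =>
    union_subset hOsub ((mem_powerset.mp hA).trans sdiff_subset)
  -- replace by push-forwards
  set X : ℕ → Alg := fun i => if i ∈ O then piN T M fD else T ^ M with hX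
  set Z : ℕ → Alg := fun i => if i ∈ O then 0 else piN T M fG with hZ
  have hyb : nrm (sprod (fun i => if i ∈ O then Δ else T') gn - sprod (fun i => X i + Z i) gn)
      ≤ (gn : ℝ) * ε * (3 * 3 ^ n) := by
    refine (nrm_sprod_sub_le _ _ (fun i => (1 + ε) * if i ∈ O then (3 : ℝ) else 1) ε gn
      fun i _ => ?_).trans (mul_le_mul_of_nonneg_left ?_ (by positivity))
    · by_cases hi' : i ∈ O
      · simp only [hX, hZ, if_pos hi', add_zero]
        refine ⟨?_, ?_, by linarith, hεD⟩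
        · nlinarith
        · have := nrm_piN_le_of_Bd hT hk M hbD
          nlinarith
      · simp only [hX, hZ, if_neg hi', mul_one]
        refine ⟨by rw [hT'.nrm_eq]; linarith, ?_, by linarith, by rwa [← sub_sub]⟩
        calc nrm (T ^ M + piN T M fG) = nrm (T' - (T' - T ^ M - piN T M fG)) := by congr 1; abel
          _ ≤ nrm T' + nrm (T' - T ^ M - piN T M fG) := nrm_sub _ _
          _ ≤ 1 + ε := by rw [hT'.nrm_eq]; linarith
    · rw [prod_mul_distrib, prod_const, card_range, prod_ite_mem, prod_const,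
        inter_eq_right.mpr hOsub]
      refine mul_le_mul ?_ (pow_le_pow_right₀ (by norm_num) hOn) (by positivity) (by norm_num)
      calc (1 + ε) ^ gn ≤ Real.exp ε ^ gn :=
            pow_le_pow_left₀ (by linarith) (by linarith [Real.add_one_le_exp ε]) _
        _ = Real.exp ((gn : ℝ) * ε) := (Real.exp_nat_mul _ _).symm
        _ ≤ Real.exp 1 := Real.exp_le_exp.mpr hgε
        _ ≤ 3 := by linarith [Real.exp_one_lt_d9]
  have hexp : sprod (fun i => X i + Z i) gn = ∑ A ∈ Fr.powerset, P A := by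
    rw [sprod_add_fun]
    rw [← sum_subset (powerset_mono.mpr (show Fr ⊆ range gn from sdiff_subset)) fun A hA hA' => ?_]
    · refine sum_congr rfl fun A hA => ?_
      rw [hP]
      dsimp only
      rw [piN_slotFn T M h gn (O ∪ A) (hsubOA A hA) fun i _ => hdh i]
      refine sprod_congr gn fun i _ => ?_
      have hdis : i ∈ A → i ∉ O := fun hi' => (mem_sdiff.mp (mem_powerset.mp hA hi')).2
      by_cases hA1 : i ∈ A
      · simp [hA1, hdis hA1, hZ, hh]
      · by_cases hO1 : i ∈ O <;> simp [hA1, hO1, hX, hh]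
    · rw [mem_powerset] at hA hA'
      rw [hFr, subset_sdiff] at hA'
      obtain ⟨i, hi', hi''⟩ := not_disjoint_iff.mp fun hd => hA' ⟨hA, hd⟩
      exact sprod_eq_zero _ gn i (mem_range.mp (hA hi')) (by simp [hi', hi'', hZ])
  rw [hexp] at hyb
  exact hyb

lemma region_wt_arith {c C1 N3 b J ga S : ℝ} (hc : 0 ≤ c) (hC1 : 0 ≤ C1) (hJ : 0 ≤ J)
    (hb : 0 ≤ b) (hga : 0 ≤ ga) (hN : 0 ≤ N3) (hS : S ≤ 2 * ga) :
    c * C1 * b * J + c * (b * S) ≤ ((2 * c + 2) * (C1 + 3) + N3) * b * (J + ga) := by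
  have h2 := mul_le_mul_of_nonneg_left hS (mul_nonneg hc hb)
  nlinarith [mul_nonneg hb hJ, mul_nonneg hb hga, mul_nonneg hc hC1,
    mul_nonneg (mul_nonneg hc hC1) (mul_nonneg hb hJ), mul_nonneg (mul_nonneg hc hC1) (mul_nonneg hb hga),
    mul_nonneg hc (mul_nonneg hb hJ), mul_nonneg hc (mul_nonneg hb hga),
    mul_nonneg hC1 (mul_nonneg hb hJ), mul_nonneg hC1 (mul_nonneg hb hga),
    mul_nonneg hN (mul_nonneg hb hJ), mul_nonneg hN (mul_nonneg hb hga)]

lemma region_err_arith {c C1 N3 ge e p S E : ℝ} (hc : 0 ≤ c) (hC1 : 0 ≤ C1) (hN : 0 ≤ N3)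
    (hge : 0 ≤ ge) (he : 0 ≤ e) (hp : 0 ≤ p) (hS : 0 ≤ S) (hE : E ≤ 2 * (ge + e + p + S)) :
    ge * N3 + e + c * C1 * E + c * 2 * E + p
      ≤ ((2 * c + 2) * (C1 + 3) + N3) * (ge + e + p + S) := by
  have h1 := mul_le_mul_of_nonneg_left hE (mul_nonneg hc hC1)
  have h2 := mul_le_mul_of_nonneg_left hE (show 0 ≤ c * 2 by linarith)
  nlinarith [mul_nonneg hc (show 0 ≤ ge + e + p + S by linarith),
    mul_nonneg hC1 (show 0 ≤ ge + e + p + S by linarith), mul_nonneg hN (show 0 ≤ e + p + S by linarith)]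

/-- one cluster of differences in a region -/
theorem region_expand (k r n d msm : ℕ) (hk : 1 ≤ k) :
    ∃ (C : ℝ) (d' : ℕ), 0 ≤ C ∧ ∀ (T T' Δ : Alg) (σ ε : ℝ) (M R J0 gp lo hi : ℕ) (G Dl : Fam)
      (B : Finset ℕ),
      IsPM T → IsPM T' → Smooth T σ → 0 < M → 0 < J0 → hi ≤ M →
      G.Good T k d lo hi → Dl.Good T k d lo hi → Dl.wt ≤ 1 →
      nrm (T' - T ^ M - piN T M G.fn) ≤ ε → nrm (Δ - piN T M Dl.fn) ≤ ε → nrm Δ ≤ 2 →
      4 * ((R + n + R : ℕ) : ℝ) * G.wt ≤ 1 → ((R + n + R : ℕ) : ℝ) * ε ≤ 1 →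
      msm * (J0 * J0) ≤ lo → msm * (J0 * J0 + gp) ≤ R * M →
      B ⊆ range n → B.Nonempty →
      ∃ F : Fam, F.Good T' k d' 0 (R + n + R) ∧
        F.wt ≤ C * Dl.wt ^ B.card * (1 / (J0 : ℝ) + ((R + n + R : ℕ) : ℝ) * G.wt) ∧
        nrm (sprod (fun i => if i ∈ B.image (fun i => R + i) then Δ else T') (R + n + R)
            - F.val T' (R + n + R))
          ≤ C * (((R + n + R : ℕ) : ℝ) * ε
              + (2 * ((J0 * J0 : ℕ) : ℝ) * (σ / Real.sqrt ((gp : ℝ) + 1))) ^ msm
              + (4 * ((R + n + R : ℕ) : ℝ) * G.wt) ^ r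
              + Real.sqrt ((4 * G.wt) ^ (2 * k) + 4 * ε)) := by
  classical
  obtain ⟨c, d', hc, hloc⟩ := loc_expand k r (n + r) hk
  set C1 : ℝ := smC k ^ (n * d) * 3 ^ msm
  have hsm : 1 ≤ smC k := smC_ge_one k
  have hC1 : 0 ≤ C1 := by
    have : 0 ≤ smC k := by linarith
    positivity
  refine ⟨(2 * c + 2) * (C1 + 3) + 3 * 3 ^ n, d', by positivity, ?_⟩
  intro T T' Δ σ ε M R J0 gp lo hi G Dl B hT hT' hs hM hJ hhi hG hD hβ1 hεG hεD hΔ hgα hgε hκ hgp hB hBne
  set gn := R + n + R with hgn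
  set O := B.image (fun i => R + i) with hOdef
  set α := G.wt with hαdef
  set β := Dl.wt with hβdef
  have hα : 0 ≤ α := Fam.wt_nonneg hG
  have hβ : 0 ≤ β := Fam.wt_nonneg hD
  have hε : 0 ≤ ε := (nrm_nonneg _).trans hεG
  have hOsub : O ⊆ range gn := by
    intro x hx
    obtain ⟨i, hi', rfl⟩ := mem_image.mp hx
    have := mem_range.mp (hB hi')
    exact mem_range.mpr (by omega)
  have hOcard : O.card = B.card := card_image_of_injective _ fun a b h => by simpa using h
  have hBn : B.card ≤ n := by simpa using card_le_card hB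
  have hdep : ∀ {F : Fam}, F.Good T k d lo hi → DependsOn F.fn ↑(range M) := fun hF x y hxy =>
    Fam.fn_dependsOn hF fun j hj => hxy j (by
      simp only [coe_Ico, coe_range, Set.mem_Ico, Set.mem_Iio] at hj ⊢; omega)
  have hbdF : ∀ {F : Fam}, F.Good T k d lo hi → Bd T k (range M) F.fn F.wt := fun hF =>
    Fam.fn_bd hT hk hF fun x hx => by simp at hx ⊢; omega
  have hcenF : ∀ {F : Fam}, F.Good T k d lo hi → ∀ ω, Ew T (range M) F.fn ω = 0 := fun hF =>
    Fam.fn_cen hF fun x hx => by simp at hx ⊢; omega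
  -- expansion over the free slots
  set Fr := range gn \ O with hFr
  set h : ℕ → (ℕ → W) → ℝ := fun i => if i ∈ O then Dl.fn else G.fn with hh
  set wh : ℕ → ℝ := fun i => if i ∈ O then β else α with hwh
  set P : Finset ℕ → Alg := fun A => piN T (gn * M) (slotFn M h (O ∪ A)) with hP
  have hdh : ∀ i, DependsOn (h i) ↑(range M) := fun i => by
    simp only [hh]; split_ifs
    exacts [hdep hD, hdep hG]
  have hbh : ∀ i, Bd T k (range M) (h i) (wh i) := fun i => by
    simp only [hh, hwh]; split_ifs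
    exacts [hbdF hD, hbdF hG]
  have hch : ∀ i ω, Ew T (range M) (h i) ω = 0 := fun i => by
    simp only [hh]; split_ifs
    exacts [hcenF hD, hcenF hG]
  have hsubOA : ∀ A ∈ Fr.powerset, O ∪ A ⊆ range gn := fun A hA =>
    union_subset hOsub ((mem_powerset.mp hA).trans sdiff_subset)
  have hyb : nrm (sprod (fun i => if i ∈ O then Δ else T') gn - ∑ A ∈ Fr.powerset, P A)
      ≤ (gn : ℝ) * ε * (3 * 3 ^ n) :=
    region_hybrid hT hT' hk (hdep hD) (hdep hG) (hbdF hD) hβ1 hεG hεD hΔ hgε O hOsub (hOcard ▸ hBn)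
  have hwP : ∀ A ∈ Fr.powerset, Bd T k (unitsOf M (O ∪ A)) (slotFn M h (O ∪ A))
      (β ^ B.card * α ^ A.card) := by
    intro A hA
    have hd : Disjoint O A := disjoint_left.mpr fun i hi' hA' =>
      (mem_sdiff.mp (mem_powerset.mp hA hA')).2 hi'
    have hb := slotFn_bd hT (h := h) (w := wh) (S := O ∪ A) (fun i _ => hdh i) fun i _ => hbh i
    rw [prod_union hd, prod_congr rfl (fun i hi' => show wh i = β by simp [hwh, hi']),
      prod_congr rfl (fun i hi' => show wh i = α by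
        simp [hwh, (mem_sdiff.mp (mem_powerset.mp hA hi')).2]),
      prod_const, prod_const, hOcard] at hb
    exact hb
  have hFrcard : Fr.card ≤ gn := (card_le_card sdiff_subset).trans (by simp)
  have hgn0 : (0 : ℝ) ≤ gn := Nat.cast_nonneg _
  have hgα' : 2 * (gn : ℝ) * α ≤ 1 := by linarith [mul_nonneg hgn0 hα]
  -- small subsets
  set small := (Fr.powerset.filter (fun A => A.card ≤ r)).erase ∅ with hsmall
  set big := Fr.powerset.filter (fun A => r + 1 ≤ A.card) with hbig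
  have hsm_mem : ∀ A ∈ small, A ∈ Fr.powerset ∧ A.card ≤ r ∧ 1 ≤ A.card := by
    intro A hA
    simp only [hsmall, mem_erase, mem_filter] at hA
    exact ⟨hA.2.1, hA.2.2, card_pos.mpr (nonempty_iff_ne_empty.mpr hA.1)⟩
  have hsplit : ∑ A ∈ Fr.powerset, P A = P ∅ + ∑ A ∈ small, P A + ∑ A ∈ big, P A := by
    rw [← sum_filter_add_sum_filter_not Fr.powerset (fun A => A.card ≤ r) P]
    congr 1
    · exact (add_sum_erase _ P (by simp)).symm
    · refine sum_congr ?_ fun _ _ => rfl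
      ext A; simp [hbig]
  have hbigb : nrm (∑ A ∈ big, P A) ≤ β ^ B.card * (2 * ((gn : ℝ) * α) ^ (r + 1)) := by
    refine (nrm_sum_le _ _).trans ((sum_le_sum fun A hA => ?_).trans
      ((le_of_eq (mul_sum big (fun A => α ^ A.card) (β ^ B.card)).symm).trans
        (mul_le_mul_of_nonneg_left (sum_pow_card_le gn α hα hgα' Fr hFrcard (r + 1)) (by positivity))))
    have hA' := (mem_filter.mp hA).1
    exact nrm_piN_le_of_Bd hT hk _ ((hwP A hA').extend hT (slotFn_dependsOn fun i _ => hdh i)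
      (unitsOf_subset_range (hsubOA A hA')))
  obtain ⟨fm, fm1, fm2, fm3, fm4⟩ := main_piece hT hk hs hD hhi n R J0 gp msm hJ hκ hgp B hB hBne
  set wm := smC k ^ (n * d) * (3 ^ msm / (J0 : ℝ) * β ^ B.card) with hwm
  set Eloc := (4 * (gn : ℝ) * α) ^ r + ((gn : ℝ) + 1) * ε
    + Real.sqrt ((4 * α) ^ (2 * k) + 4 * ε) with hEloc
  have hE0 : 0 ≤ Eloc := by positivity
  obtain ⟨Fm, Fm1, Fm2, Fm3⟩ := hloc T T' M gn G.fn fm α ε wm O hT hT' hM (hdep hG) (hbdF hG)
    (hcenF hG) hεG hgα hgε hOsub (hBne.image _) (by omega) fm1 fm2 fm3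
  have hpieces : ∀ A : {A // A ∈ small}, ∃ F : Fam, F.Good T' k d' 0 gn ∧
      F.wt ≤ c * (β ^ B.card * α ^ A.1.card) ∧
      nrm (P A.1 - F.val T' gn) ≤ c * (β ^ B.card * α ^ A.1.card) * Eloc := by
    intro A
    obtain ⟨hA, hAr, hA1⟩ := hsm_mem A.1 A.2
    exact hloc T T' M gn G.fn (slotFn M h (O ∪ A.1)) α ε _ (O ∪ A.1) hT hT' hM (hdep hG) (hbdF hG)
      (hcenF hG) hεG hgα hgε (hsubOA _ hA) ((hBne.image _).mono subset_union_left)
      ((card_union_le _ _).trans (by omega)) (slotFn_dependsOn fun i _ => hdh i)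
      (fun i hi' ω => slotFn_cen (fun i _ => hdh i) (fun i _ => hch i) hi' ω) (hwP _ hA)
  choose FA FA1 FA2 FA3 using hpieces
  have hsum : ∑ A ∈ small, α ^ A.card ≤ 2 * ((gn : ℝ) * α) := by
    refine (sum_le_sum_of_subset_of_nonneg ?_ fun _ _ _ => by positivity).trans
      ((sum_pow_card_le gn α hα hgα' Fr hFrcard 1).trans (le_of_eq (by rw [pow_one])))
    exact fun A hA => mem_filter.mpr ⟨(hsm_mem A hA).1, (hsm_mem A hA).2.2⟩
  have hβe : β ^ B.card ≤ 1 := pow_le_one₀ hβ hβ1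
  have hβe0 : 0 ≤ β ^ B.card := by positivity
  have hwm0 : 0 ≤ wm := fm3.1
  have hgα0 : 0 ≤ (gn : ℝ) * α := by positivity
  refine ⟨Fam.comb (fun _ => (1 : ℝ)) (fun o : Option {A // A ∈ small} => o.elim Fm FA),
    Fam.Good.comb _ _ (fun o => by cases o; exacts [Fm1, FA1 _]), ?_, ?_⟩
  · rw [Fam.comb_wt, Fintype.sum_option]
    simp only [abs_one, one_mul, Option.elim]
    refine (add_le_add Fm2 (sum_le_sum fun A _ => FA2 A)).trans ?_
    rw [sum_coe_sort small (fun A => c * (β ^ B.card * α ^ A.card)), ← mul_sum, ← mul_sum]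
    have e : c * wm = c * C1 * β ^ B.card * (1 / (J0 : ℝ)) := by rw [hwm]; ring
    rw [e]
    exact region_wt_arith hc hC1 (by positivity) hβe0 hgα0 (by positivity) hsum
  · rw [Fam.comb_val, Fintype.sum_option]
    simp only [one_smul, Option.elim]
    set Y := sprod (fun i => if i ∈ O then Δ else T') gn
    have eP : P ∅ = piN T (gn * M) (slotFn M (fun _ => Dl.fn) O) := by
      simp only [hP, union_empty]
      rw [slotFn_congr fun i hi' => show h i = Dl.fn by simp [hh, hi']]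
    rw [← sum_coe_sort small P] at hsplit
    have key : Y - (Fm.val T' gn + ∑ A : {A // A ∈ small}, (FA A).val T' gn)
        = (Y - ∑ A ∈ Fr.powerset, P A) + (P ∅ - piN T (gn * M) fm)
          + (piN T (gn * M) fm - Fm.val T' gn)
          + ∑ A : {A // A ∈ small}, (P A.1 - (FA A).val T' gn) + ∑ A ∈ big, P A := by
      rw [hsplit, sum_sub_distrib]; abel
    rw [key]
    set η := (2 * ((J0 * J0 : ℕ) : ℝ) * (σ / Real.sqrt ((gp : ℝ) + 1))) with hη
    have hη0 : 0 ≤ η ^ msm := by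
      have := (nrm_nonneg _).trans (hs.le_div gp)
      positivity
    have b2 : nrm (P ∅ - piN T (gn * M) fm) ≤ η ^ msm := by
      rw [eP]; exact fm4.trans (mul_le_of_le_one_right hη0 hβe)
    have b3 : nrm (piN T (gn * M) fm - Fm.val T' gn) ≤ c * C1 * Eloc := by
      refine Fm3.trans (mul_le_mul_of_nonneg_right (mul_le_mul_of_nonneg_left ?_ hc) hE0)
      have hJ1 : (1 : ℝ) ≤ J0 := by exact_mod_cast hJ
      have hp : 0 ≤ smC k ^ (n * d) := pow_nonneg (by linarith) _
      calc wm ≤ smC k ^ (n * d) * (3 ^ msm * 1) := by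
            rw [hwm]
            refine mul_le_mul_of_nonneg_left (mul_le_mul ?_ hβe hβe0 (by positivity)) hp
            exact div_le_self (by positivity) hJ1
        _ = C1 := by ring
    have b4 : nrm (∑ A : {A // A ∈ small}, (P A.1 - (FA A).val T' gn)) ≤ c * 2 * Eloc := by
      refine (nrm_sum_le _ _).trans ((sum_le_sum fun A _ => FA3 A).trans ?_)
      rw [sum_coe_sort small (fun A => c * (β ^ B.card * α ^ A.card) * Eloc), ← sum_mul, ← mul_sum,
        ← mul_sum]
      refine mul_le_mul_of_nonneg_right (mul_le_mul_of_nonneg_left ?_ hc) hE0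
      refine (mul_le_mul hβe hsum (sum_nonneg fun _ _ => by positivity) zero_le_one).trans ?_
      linarith [hgα']
    have b5 : nrm (∑ A ∈ big, P A) ≤ (4 * (gn : ℝ) * α) ^ r := by
      refine hbigb.trans ((mul_le_of_le_one_left (by positivity) hβe).trans ?_)
      rw [pow_succ, ← mul_assoc]
      calc 2 * ((gn : ℝ) * α) ^ r * ((gn : ℝ) * α) ≤ 2 * ((gn : ℝ) * α) ^ r * (1 / 4) :=
            mul_le_mul_of_nonneg_left (by linarith [hgα]) (by positivity)
        _ ≤ (4 * (gn : ℝ) * α) ^ r := by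
            have := pow_le_pow_left₀ hgα0 (show (gn : ℝ) * α ≤ 4 * gn * α by linarith [hgα0]) r
            linarith [pow_nonneg hgα0 r]
    have hgn1 : (1 : ℝ) ≤ gn := by
      obtain ⟨i, hi'⟩ := hBne
      have := mem_range.mp (hB hi')
      exact_mod_cast (show 1 ≤ gn by omega)
    set S4 := Real.sqrt ((4 * α) ^ (2 * k) + 4 * ε)
    set p4 := (4 * (gn : ℝ) * α) ^ r
    have hS4 : 0 ≤ S4 := Real.sqrt_nonneg _
    have hp4 : 0 ≤ p4 := by positivity
    have hgε0 : 0 ≤ (gn : ℝ) * ε := by positivity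
    have hEle : Eloc ≤ 2 * ((gn : ℝ) * ε) + p4 + S4 := by
      rw [hEloc]; linarith [mul_le_mul_of_nonneg_right hgn1 hε]
    set sumE := (gn : ℝ) * ε + η ^ msm + p4 + S4
    have hs0 : 0 ≤ sumE := by positivity
    have hE2 : Eloc ≤ 2 * sumE := by linarith
    refine (nrm_add5 hyb b2 b3 b4 b5).trans ?_
    exact region_err_arith hc hC1 (by positivity) hgε0 hη0 hp4 hS4 hE2

end Vale.Agent.P321
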