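import Mathlib
import Vale.Agent.P321.Region
import Vale.Agent.P321.Chain

/-
One step of the construction: from a level to the next one.
-/

open scoped BigOperators
open Finset

namespace Vale.Agent.P321

variable {T : Alg} {k : ℕ}

/-- concatenation of n strings -/
def reps (f : ℕ → List Bool) (n : ℕ) : List Bool := (List.range n).flatMap f

lemma D_reps (q : ℝ) (f : ℕ → List Bool) : ∀ n, D q (reps f n) = sprod (fun i => D q (f i)) n
  | 0 => rfl
  | n + 1 => by
    rw [sprod, ← D_reps q f n, reps, List.range_succ, List.flatMap_append, D_append]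
    simp [reps]

lemma length_reps (f : ℕ → List Bool) (L : ℕ) : ∀ n, (∀ i < n, (f i).length = L) →
    (reps f n).length = n * L
  | 0, _ => by simp [reps]
  | n + 1, h => by
    have := length_reps f L n fun i hi => h i (by omega)
    rw [reps] at this ⊢
    rw [List.range_succ, List.flatMap_append, List.length_append, this, Nat.succ_mul]
    simp [h n (by omega)]

lemma reps_ne {f g : ℕ → List Bool} {n : ℕ} (hn : 0 < n) (hl : (f 0).length = (g 0).length)
    (h : f 0 ≠ g 0) : reps f n ≠ reps g n := by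
  obtain ⟨m, rfl⟩ : ∃ m, n = m + 1 := ⟨n - 1, by omega⟩
  simp only [reps, List.range_succ_eq_map, List.flatMap_cons]
  exact fun e => h (List.append_inj_left e hl)

lemma sgn_cases : ∀ m i, sgn m i = 1 ∨ sgn m i = -1
  | 0, _ => Or.inl rfl
  | m + 1, i => by
    rw [sgn]
    split_ifs
    · exact sgn_cases m i
    · rcases sgn_cases m (i - 2 ^ m) with h | h <;> simp [h]

/-- the law of a word with differences at the positions in P -/
lemma sprod_pattern (T' Δ : Alg) (n : ℕ) (P : Finset ℕ) :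
    sprod (fun i => if i ∈ P then T' + Δ else T') n
      = ∑ B ∈ (range n).powerset,
          (if B ⊆ P then (1 : ℝ) else 0) • sprod (fun i => if i ∈ B then Δ else T') n := by
  rw [show (fun i => if i ∈ P then T' + Δ else T') = fun i => T' + (if i ∈ P then Δ else 0) by
    funext i; split_ifs <;> simp, sprod_add_fun]
  refine sum_congr rfl fun B hB => ?_
  split_ifs with h
  · rw [one_smul]
    exact sprod_congr n fun i _ => by
      by_cases hi : i ∈ B
      · simp [hi, h hi]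
      · simp [hi]
  · rw [zero_smul]
    obtain ⟨i, hi, hi'⟩ := not_subset.mp h
    exact sprod_eq_zero _ n i (mem_range.mp (mem_powerset.mp hB hi)) (by simp [hi, hi'])

lemma sprod_single (T' Δ : Alg) {n i : ℕ} (hi : i < n) :
    sprod (fun l => if l ∈ ({i} : Finset ℕ) then Δ else T') n = T' ^ i * Δ * T' ^ (n - 1 - i) := by
  conv_lhs => rw [show n = i + 1 + (n - 1 - i) by omega]
  rw [sprod_add, sprod]
  congr 1
  · congr 1
    · exact (sprod_congr i fun l hl => by simp [show l ≠ i by omega]).trans (sprod_const T' i)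
    · simp
  · exact (sprod_congr _ fun l _ => by simp [show i + 1 + l ≠ i by omega]).trans (sprod_const T' _)

lemma sprod_region (T' Δ : Alg) (R n : ℕ) (B : Finset ℕ) (hB : B ⊆ range n) :
    sprod (fun i => if i ∈ B.image (fun i => R + i) then Δ else T') (R + n + R)
      = T' ^ R * sprod (fun i => if i ∈ B then Δ else T') n * T' ^ R := by
  rw [sprod_add, sprod_add]
  congr 1
  · congr 1
    · refine (sprod_congr R fun l hl => ?_).trans (sprod_const T' R)
      rw [if_neg]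
      simp only [mem_image, not_exists, not_and]
      intro x _; omega
    · exact sprod_congr n fun l _ => by simp
  · refine (sprod_congr R fun l _ => ?_).trans (sprod_const T' R)
    rw [if_neg]
    simp only [mem_image, not_exists, not_and]
    intro x hx
    have := mem_range.mp (hB hx)
    omega

lemma Fam.Good.mono {F : Fam} {d lo hi lo' hi' : ℕ} (h : F.Good T k d lo hi) (h1 : lo' ≤ lo)
    (h2 : hi ≤ hi') : F.Good T k d lo' hi' :=
  ⟨h.good, fun i => (h.win i).trans (Ico_subset_Ico h1 h2), h.ne, h.deg⟩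

lemma mul_pow_mono {x C B : ℝ} {e e' : ℕ} (hx : 0 ≤ x) (hB : 1 ≤ B) (he : e' ≤ e)
    (h : x * B ^ e ≤ C) : x * B ^ e' ≤ C :=
  (mul_le_mul_of_nonneg_left (pow_le_pow_right₀ hB he) hx).trans h

/-- squared smoothing ratio -/
lemma ratio_sq_le {a σ S B X c C g1 : ℝ} (hσ : σ ^ 2 ≤ S) (hB : 0 ≤ B) (hX : 0 < X) (hg : 0 < g1)
    (hgX : X ≤ g1 * c) (hc : 0 ≤ c) (h : a ^ 2 * S * B * c ≤ C * X) :
    (a * (σ / Real.sqrt g1)) ^ 2 * B ≤ C := by
  rw [mul_pow, div_pow, Real.sq_sqrt hg.le]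
  have hcpos : 0 < c := by
    rcases hc.lt_or_eq with h' | h'
    · exact h'
    · rw [← h', mul_zero] at hgX; linarith
  have h1 : 0 ≤ a ^ 2 * S * B * c := by
    have : 0 ≤ S := (sq_nonneg σ).trans hσ
    positivity
  have h2 : 0 ≤ C := by
    by_contra hc'
    have := mul_neg_of_neg_of_pos (not_le.mp hc') hX
    linarith
  calc a ^ 2 * (σ ^ 2 / g1) * B = a ^ 2 * σ ^ 2 * B / g1 := by ring
    _ ≤ a ^ 2 * S * B / g1 := by gcongr
    _ ≤ C := by
        rw [div_le_iff₀ hg]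
        have := mul_le_mul_of_nonneg_left hgX h2
        refine le_of_mul_le_mul_right ?_ hcpos
        linarith

/-- high powers of a ratio with square O(1/B) -/
lemma ratio_pow_le {η B C : ℝ} {Q : ℕ} (hB : 1 ≤ B) (hη : 0 ≤ η) (h : η ^ 2 * B ≤ C) :
    η ^ (2 * (Q + 1)) * B ^ Q ≤ C ^ (Q + 1) := by
  calc η ^ (2 * (Q + 1)) * B ^ Q ≤ η ^ (2 * (Q + 1)) * B ^ (Q + 1) :=
        mul_le_mul_of_nonneg_left (pow_le_pow_right₀ hB (by omega)) (by positivity)
    _ = (η ^ 2 * B) ^ (Q + 1) := by rw [mul_pow, pow_mul]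
    _ ≤ C ^ (Q + 1) := pow_le_pow_left₀ (by positivity) h _

/-- the real inequalities of one step -/
lemma step_numeric {k A Q g b K Q' j n R : ℕ} {α ε η : ℝ}
    (hj : j = A / 8) (hR : R = b ^ (4 * j)) (hA : 16 ≤ A) (hg : 3 * A ≤ 4 * g)
    (hQ : 2 * (Q' + 3 * A + 3) ≤ Q) (hk : Q' + 1 ≤ k) (hn : n ≤ b) (hb : 12 * K + 1 ≤ b)
    (hα : 0 ≤ α) (hε : 0 ≤ ε) (hαb : α * (b : ℝ) ^ g ≤ K) (hεb : ε * (b : ℝ) ^ Q ≤ K)
    (hη : 0 ≤ η) {Cη : ℝ} (hηb : η ^ 2 * (b : ℝ) ≤ Cη) :
    4 * ((R + n + R : ℕ) : ℝ) * α ≤ 1 ∧ ((R + n + R : ℕ) : ℝ) * ε ≤ 1 ∧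
      (1 / ((b ^ j : ℕ) : ℝ) + ((R + n + R : ℕ) : ℝ) * α) * (b : ℝ) ^ j ≤ 1 + 3 * K ∧
      (((R + n + R : ℕ) : ℝ) * ε + η ^ (2 * (Q' + 1)) + (4 * ((R + n + R : ℕ) : ℝ) * α) ^ (Q' + 1)
          + Real.sqrt ((4 * α) ^ (2 * k) + 4 * ε)) * (b : ℝ) ^ Q'
        ≤ 3 * K + Cη ^ (Q' + 1) + (12 * (K : ℝ)) ^ (Q' + 1)
          + Real.sqrt ((4 * (K : ℝ)) ^ (2 * k) + 4 * K) := by
  set B : ℝ := (b : ℝ) with hBdef
  have hB : 12 * (K : ℝ) + 1 ≤ B := by rw [hBdef]; exact_mod_cast hb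
  have hK : (0 : ℝ) ≤ K := Nat.cast_nonneg _
  have hB1 : 1 ≤ B := by linarith
  have hB0 : 0 < B := by linarith
  set gn : ℝ := ((R + n + R : ℕ) : ℝ) with hgn
  have hgn0 : 0 ≤ gn := Nat.cast_nonneg _
  have hgnb : gn ≤ 3 * B ^ (4 * j) := by
    have hb1 : b ≤ R := by
      rw [hR]; exact Nat.le_self_pow (by omega) b
    have : R + n + R ≤ 3 * b ^ (4 * j) := by omega
    rw [hgn, hBdef]
    exact_mod_cast this
  have hga : gn * α * B ^ j ≤ 3 * K := by
    have h5 : α * B ^ (5 * j) ≤ K := mul_pow_mono hα hB1 (by omega) hαb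
    calc gn * α * B ^ j ≤ 3 * B ^ (4 * j) * α * B ^ j := by gcongr
      _ = 3 * (α * B ^ (5 * j)) := by rw [show 5 * j = 4 * j + j by ring, pow_add]; ring
      _ ≤ 3 * K := by linarith
  have hga1 : gn * α * B ≤ 3 * K := by
    have := mul_pow_mono (mul_nonneg hgn0 hα) hB1 (show 1 ≤ j by omega) hga
    rwa [pow_one] at this
  have hge : gn * ε * B ^ (Q' + 1) ≤ 3 * K := by
    have h5 : ε * B ^ (4 * j + (Q' + 1)) ≤ K := mul_pow_mono hε hB1 (by omega) hεb
    calc gn * ε * B ^ (Q' + 1) ≤ 3 * B ^ (4 * j) * ε * B ^ (Q' + 1) := by gcongr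
      _ = 3 * (ε * B ^ (4 * j + (Q' + 1))) := by rw [pow_add]; ring
      _ ≤ 3 * K := by linarith
  have hge0 := mul_nonneg hgn0 hε
  have hga0 := mul_nonneg hgn0 hα
  refine ⟨?_, ?_, ?_, ?_⟩
  · by_contra h
    have := mul_lt_mul_of_pos_right (not_le.mp h) hB0
    linarith
  · have h1 : gn * ε * B ≤ 3 * K := by
      have := mul_pow_mono hge0 hB1 (show 1 ≤ Q' + 1 by omega) hge
      rwa [pow_one] at this
    by_contra h
    have := mul_lt_mul_of_pos_right (not_le.mp h) hB0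
    linarith
  · rw [Nat.cast_pow, ← hBdef, add_mul, one_div_mul_cancel (by positivity)]
    linarith
  · rw [add_mul, add_mul, add_mul]
    refine add_le_add (add_le_add (add_le_add (mul_pow_mono hge0 hB1 (Nat.le_succ _) hge)
      (ratio_pow_le hB1 hη hηb)) ?_) ?_
    · calc (4 * gn * α) ^ (Q' + 1) * B ^ Q' ≤ (4 * gn * α) ^ (Q' + 1) * B ^ (Q' + 1) := by
            gcongr; omega
        _ = (4 * (gn * α * B)) ^ (Q' + 1) := by rw [← mul_pow]; ring
        _ ≤ (12 * (K : ℝ)) ^ (Q' + 1) := pow_le_pow_left₀ (by positivity) (by linarith) _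
    · have hα1 : α * B ≤ K := by
        have := mul_pow_mono hα hB1 (show 1 ≤ g by omega) hαb
        rwa [pow_one] at this
      rw [show B ^ Q' = Real.sqrt (B ^ (2 * Q')) by
          rw [show 2 * Q' = Q' * 2 by ring, pow_mul, Real.sqrt_sq (by positivity)],
        ← Real.sqrt_mul (by positivity)]
      refine Real.sqrt_le_sqrt ?_
      rw [add_mul]
      refine add_le_add ?_ ?_
      · calc (4 * α) ^ (2 * k) * B ^ (2 * Q') ≤ (4 * α) ^ (2 * k) * B ^ (2 * k) := by
              gcongr; omega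
          _ = (4 * (α * B)) ^ (2 * k) := by rw [← mul_pow]; ring
          _ ≤ (4 * (K : ℝ)) ^ (2 * k) := pow_le_pow_left₀ (by positivity) (by linarith) _
      · rw [mul_assoc]
        have := mul_pow_mono hε hB1 (show 2 * Q' ≤ Q by omega) hεb
        linarith

lemma weight_bound {β x C K B cst Y : ℝ} {e t δ j : ℕ} (hβ : 0 ≤ β) (hβ1 : β ≤ 1) (hB : 0 ≤ B)
    (hC : 0 ≤ C) (hx : 0 ≤ x) (het : t ≤ e) (hβb : β * B ^ δ ≤ K) (hxb : x * B ^ j ≤ cst)
    (hY : Y ≤ C * β ^ e * x) : Y * B ^ (t * δ + j) ≤ C * (K ^ t * cst) := by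
  have h1 : β ^ e ≤ β ^ t := pow_le_pow_of_le_one hβ hβ1 het
  calc Y * B ^ (t * δ + j) ≤ C * β ^ t * x * B ^ (t * δ + j) := by
        refine mul_le_mul_of_nonneg_right (hY.trans ?_) (by positivity)
        gcongr
    _ = C * ((β * B ^ δ) ^ t * (x * B ^ j)) := by
        rw [mul_pow, ← pow_mul, mul_comm δ t, pow_add]; ring
    _ ≤ C * (K ^ t * cst) := by
        refine mul_le_mul_of_nonneg_left (mul_le_mul ?_ hxb (by positivity) ?_) hC
        · exact pow_le_pow_left₀ (by positivity) hβb t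
        · exact pow_nonneg (le_trans (by positivity) hβb) t

/-- signed combination of shifted clusters -/
lemma combine_clusters {T' : Alg} {d lo hi N : ℕ} {wB eB : ℝ} (S : Finset (Finset ℕ))
    (coef : Finset ℕ → ℝ) (hc : ∀ B ∈ S, |coef B| ≤ 1) (Ψ : Finset ℕ → Alg)
    (h : ∀ B ∈ S, ∃ F : Fam, F.Good T' k d lo hi ∧ F.wt ≤ wB ∧ nrm (Ψ B - F.val T' N) ≤ eB) :
    ∃ F : Fam, F.Good T' k d lo hi ∧ F.wt ≤ S.card * wB ∧
      nrm (∑ B ∈ S, coef B • Ψ B - F.val T' N) ≤ S.card * eB := by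
  choose F h1 h2 h3 using h
  refine ⟨Fam.comb (fun B : {B // B ∈ S} => coef B.1) (fun B => F B.1 B.2),
    Fam.Good.comb _ _ (fun B => h1 _ _), ?_, ?_⟩
  · rw [Fam.comb_wt]
    refine (sum_le_sum (g := fun _ => wB) fun B _ => ?_).trans (le_of_eq ?_)
    · refine (mul_le_of_le_one_left ?_ (hc _ B.2)).trans (h2 _ _)
      exact Fam.wt_nonneg (h1 _ _)
    · simp
  · rw [Fam.comb_val, ← sum_coe_sort S, ← sum_sub_distrib]
    refine (nrm_sum_le _ _).trans ((sum_le_sum (g := fun _ => eB) fun B _ => ?_).trans (le_of_eq ?_))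
    · rw [← smul_sub, nrm_smul]
      exact (mul_le_of_le_one_left (nrm_nonneg _) (hc _ B.2)).trans (h3 _ _)
    · simp

/-- the clusters of one step -/
lemma step_clusters {q : ℝ} (hq0 : 0 < q) (hq1 : q < 1) {k A Q Q' g δ d d' K m n b : ℕ} {CR : ℝ}
    {s : Stage} (hs : s.OK q k d Q g δ A b K) (hCR : 0 ≤ CR)
    (hk : Q' + 1 ≤ k) (hA : 16 ≤ A) (hg : 3 * A ≤ 4 * g) (hδ : 3 * A ≤ 2 * δ)
    (hQ' : 2 * (Q' + 3 * A + 3) ≤ Q) (hm : m = 2 * (Q' + 1)) (hnpos : 0 < n)
    (hb : 12 * K + 2 * (K + m) + n + 8 ≤ b)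
    (hreg : ∀ (T T' Δ : Alg) (σ ε : ℝ) (M R J0 gp lo hi : ℕ) (G Dl : Fam) (B : Finset ℕ),
      IsPM T → IsPM T' → Smooth T σ → 0 < M → 0 < J0 → hi ≤ M →
      G.Good T k d lo hi → Dl.Good T k d lo hi → Dl.wt ≤ 1 →
      nrm (T' - T ^ M - piN T M G.fn) ≤ ε → nrm (Δ - piN T M Dl.fn) ≤ ε → nrm Δ ≤ 2 →
      4 * ((R + n + R : ℕ) : ℝ) * G.wt ≤ 1 → ((R + n + R : ℕ) : ℝ) * ε ≤ 1 →
      m * (J0 * J0) ≤ lo → m * (J0 * J0 + gp) ≤ R * M →
      B ⊆ range n → B.Nonempty →
      ∃ F : Fam, F.Good T' k d' 0 (R + n + R) ∧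
        F.wt ≤ CR * Dl.wt ^ B.card * (1 / (J0 : ℝ) + ((R + n + R : ℕ) : ℝ) * G.wt) ∧
        nrm (sprod (fun i => if i ∈ B.image (fun i => R + i) then Δ else T') (R + n + R)
            - F.val T' (R + n + R))
          ≤ CR * (((R + n + R : ℕ) : ℝ) * ε
              + (2 * ((J0 * J0 : ℕ) : ℝ) * (σ / Real.sqrt ((gp : ℝ) + 1))) ^ m
              + (4 * ((R + n + R : ℕ) : ℝ) * G.wt) ^ (Q' + 1)
              + Real.sqrt ((4 * G.wt) ^ (2 * k) + 4 * ε)))
    (W : ℕ) (hW : (n + 1) * b ^ A ≤ W) (B : Finset ℕ) (hB : B ⊆ range n) (hBne : B.Nonempty)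
    (t : ℕ) (ht : t ≤ B.card) :
    ∃ F : Fam, F.Good (D q s.x) k d' (slotLen b (2 * A + 1) / 2 - W) (slotLen b (2 * A + 1) / 2 + W) ∧
      F.wt ≤ CR * ((K : ℝ) ^ t * (1 + 3 * K)) / (b : ℝ) ^ (t * δ + A / 8) ∧
      nrm (D q s.x ^ (slotLen b (2 * A + 1) / 2)
            * sprod (fun i => if i ∈ B then D q s.y - D q s.x else D q s.x) n
            * D q s.x ^ (slotLen b (2 * A + 1) - slotLen b (2 * A + 1) / 2 - n)
          - F.val (D q s.x) (slotLen b (2 * A + 1)))
        ≤ CR * (3 * K + (8 * (K : ℝ) * m) ^ (Q' + 1) + (12 * (K : ℝ)) ^ (Q' + 1)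
            + Real.sqrt ((4 * (K : ℝ)) ^ (2 * k) + 4 * K)) / (b : ℝ) ^ Q' := by
  classical
  obtain ⟨σ, hσs, hσb⟩ := hs.smooth
  have hT : IsPM (D q s.u) := isPM_D hq0.le hq1.le _
  have hT' : IsPM (D q s.x) := isPM_D hq0.le hq1.le _
  set T := D q s.u with hTdef
  set T' := D q s.x with hT'def
  set Δ := D q s.y - D q s.x with hΔdef
  set j := A / 8 with hj
  set R := b ^ (4 * j) with hR
  set M := slotLen b A with hM
  set M' := slotLen b (2 * A + 1) with hM'
  set a := M' / 2 with ha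
  set c := M' - a - n with hc
  set gn := R + n + R with hgn
  -- natural inequalities
  have hbpos : 0 < b := by omega
  have hb1 : b ≤ R := Nat.le_self_pow (by omega) b
  have hMb : M = b ^ (A + 1) := rfl
  have hM'b : M' = b ^ (2 * A + 2) := rfl
  have hRle : R ≤ b ^ A := Nat.pow_le_pow_right hbpos (by omega)
  have hM'big : 8 * b ^ A ≤ M' := by
    rw [hM'b, show 2 * A + 2 = A + 2 + A by omega, pow_add b (A + 2) A]
    exact Nat.mul_le_mul_right _ (le_trans (by omega) (Nat.le_self_pow (by omega) b))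
  have hnb : n + 1 ≤ b ^ A := le_trans (by omega) (Nat.le_self_pow (by omega) b)
  have haR : R ≤ a := by omega
  have hcR : R ≤ c := by omega
  have hacn : a + n + c = M' := by omega
  have hmpos : 0 < m := by omega
  have hκ : m * (b ^ j * b ^ j) + winLen b A K ≤ M / 2 := by
    have h1 : b ^ j * b ^ j ≤ b ^ (A / 2) := by
      rw [← pow_add]; exact Nat.pow_le_pow_right hbpos (by omega)
    have h2 := Nat.mul_le_mul_left m h1
    have h3 : (2 * (K + m)) * b ^ (A / 2) ≤ M := by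
      rw [hMb, show A + 1 = A + 1 - A / 2 + A / 2 by omega, pow_add]
      exact Nat.mul_le_mul_right _ (le_trans (by omega) (Nat.le_self_pow (by omega) b))
    simp only [winLen]
    rw [mul_comm 2, Nat.mul_right_comm, Nat.add_mul] at h3
    omega
  set gp := R * M / (2 * m) with hgp
  have hgp1 : m * (b ^ j * b ^ j + gp) ≤ R * M := by
    have h1 : gp * (2 * m) ≤ R * M := Nat.div_mul_le_self _ _
    have h2 : 2 * m * (b ^ j * b ^ j) ≤ R * M := by
      calc 2 * m * (b ^ j * b ^ j) ≤ M * R := Nat.mul_le_mul (by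
            rw [hMb]; exact le_trans (by omega) (Nat.le_self_pow (by omega) b)) (by
            rw [← pow_add]; exact Nat.pow_le_pow_right hbpos (by omega))
        _ = R * M := mul_comm _ _
    have e1 : gp * (2 * m) = 2 * (m * gp) := by ring
    have e2 : 2 * m * (b ^ j * b ^ j) = 2 * (m * (b ^ j * b ^ j)) := by ring
    rw [Nat.mul_add]
    omega
  -- real facts
  have hB1 : (1 : ℝ) ≤ b := by exact_mod_cast hbpos
  set α := s.G.wt with hα
  set β := s.Dl.wt with hβ
  have hα0 : 0 ≤ α := Fam.wt_nonneg hs.goodG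
  have hβ0 : 0 ≤ β := Fam.wt_nonneg hs.goodD
  have hβ1 : β ≤ 1 := by
    have h1 := mul_pow_mono hβ0 hB1 (show 1 ≤ δ by omega) hs.wtD
    rw [pow_one] at h1
    have h2 : (K : ℝ) ≤ b := by exact_mod_cast (show K ≤ b by omega)
    by_contra h
    have := mul_lt_mul_of_pos_right (not_le.mp h) (show (0 : ℝ) < b by linarith)
    linarith
  set eG := nrm (T' - T ^ M - piN T M s.G.fn) with heG
  set eD := nrm (Δ - piN T M s.Dl.fn) with heD
  set ε := max eG eD with hε
  have hε0 : 0 ≤ ε := (nrm_nonneg _).trans (le_max_left _ _)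
  have hεb : ε * (b : ℝ) ^ Q ≤ K := by
    rw [hε, max_mul_of_nonneg _ _ (by positivity)]
    exact max_le hs.errG hs.errD
  have hσ0 : 0 ≤ σ := le_trans (mul_nonneg (nrm_nonneg _) (Real.sqrt_nonneg _)) (hσs 0)
  set η := 2 * ((b ^ j * b ^ j : ℕ) : ℝ) * (σ / Real.sqrt ((gp : ℝ) + 1)) with hη
  have hη0 : 0 ≤ η := by positivity
  have hηb : η ^ 2 * (b : ℝ) ≤ 8 * (K : ℝ) * m := by
    refine ratio_sq_le (S := (K : ℝ) * (b : ℝ) ^ A) (X := ((R * M : ℕ) : ℝ)) (c := 2 * (m : ℝ)) hσb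
      (by linarith) ?_ (by positivity) ?_ (by positivity) ?_
    · have : 0 < R * M := Nat.mul_pos (by positivity) (by rw [hMb]; positivity)
      exact_mod_cast this
    · have : R * M ≤ (gp + 1) * (2 * m) := (Nat.lt_mul_div_succ _ (by omega)).le.trans
        (le_of_eq (mul_comm _ _))
      exact_mod_cast this
    · rw [hR, hMb]; push_cast
      rw [show 4 * j = j + j + (j + j) by ring, pow_add, pow_add, pow_succ (b : ℝ) A]
      exact le_of_eq (by ring)
  obtain ⟨hgα, hgε, hwx, herr⟩ := step_numeric (k := k) (n := n) hj hR hA hg hQ' hk (by omega)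
    (by omega) hα0 hε0 hs.wtG hεb hη0 hηb
  rw [← hm] at herr
  obtain ⟨F, F1, F2, F3⟩ := hreg T T' Δ σ ε M R (b ^ j) gp (M / 2 - winLen b A K)
    (M / 2 + winLen b A K) s.G s.Dl B hT hT' hσs (by rw [hMb]; positivity) (by positivity)
    (by omega) hs.goodG hs.goodD hβ1 (le_max_left _ _) (le_max_right _ _)
    ((nrm_sub _ _).trans (le_of_eq (by
      rw [(isPM_D hq0.le hq1.le s.y).nrm_eq, hT'.nrm_eq]; norm_num)))
    hgα hgε (by omega) hgp1 hB hBne
  have hRW : R + n ≤ W := by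
    refine le_trans ?_ hW
    rw [Nat.succ_mul, add_comm R n]
    exact add_le_add (Nat.le_mul_of_pos_right _ (by positivity)) hRle
  refine ⟨F.shift (a - R), (F1.shift (a - R)).mono (by omega) (by omega), ?_, ?_⟩
  · rw [Fam.shift_wt, le_div_iff₀ (by positivity)]
    exact weight_bound hβ0 hβ1 (by linarith) hCR (by positivity) ht hs.wtD hwx F2
  · have hdep : DependsOn F.fn ↑(range gn) := fun x y hxy =>
      Fam.fn_dependsOn F1 fun i hi => hxy i (by simpa using hi)
    have e1 : (F.shift (a - R)).val T' M' = T' ^ (a - R) * F.val T' gn * T' ^ (c - R) := by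
      rw [Fam.val, Fam.shift_fn, show M' = a - R + gn + (c - R) by omega]
      exact piN_shift T' _ _ _ _ hdep
    have e2 : T' ^ a * sprod (fun i => if i ∈ B then Δ else T') n * T' ^ c
        = T' ^ (a - R) * (T' ^ R * sprod (fun i => if i ∈ B then Δ else T') n * T' ^ R)
          * T' ^ (c - R) := by
      conv_lhs => rw [show a = a - R + R by omega, show c = R + (c - R) by omega, pow_add, pow_add]
      simp only [mul_assoc]
    rw [e1, e2, ← sprod_region T' Δ R n B hB, ← sub_mul, ← mul_sub]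
    refine (nrm_mul _ _).trans ?_
    rw [(hT'.pow _).nrm_eq, mul_one]
    refine (nrm_mul _ _).trans ?_
    rw [(hT'.pow _).nrm_eq, one_mul, le_div_iff₀ (by positivity)]
    refine (mul_le_mul_of_nonneg_right F3 (by positivity)).trans ?_
    rw [mul_assoc]
    exact mul_le_mul_of_nonneg_left herr hCR

/-- a pattern of the two strings between runs of the first -/
def mkStr (x y : List Bool) (a n c : ℕ) (S : Finset ℕ) : List Bool :=
  reps (fun _ => x) a ++ reps (fun i => if i ∈ S then y else x) n ++ reps (fun _ => x) c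

lemma length_mkStr {x y : List Bool} (hy : y.length = x.length) (a n c : ℕ) (S : Finset ℕ) :
    (mkStr x y a n c S).length = (a + n + c) * x.length := by
  rw [mkStr, List.length_append, List.length_append, length_reps _ x.length a fun _ _ => rfl,
    length_reps _ x.length c fun _ _ => rfl,
    length_reps _ x.length n fun i _ => by split_ifs; exacts [hy, rfl], ← Nat.add_mul, ← Nat.add_mul]

lemma D_mkStr (q : ℝ) (x y : List Bool) (a n c : ℕ) (S : Finset ℕ) :
    D q (mkStr x y a n c S) = ∑ B ∈ (range n).powerset, (if B ⊆ S then (1 : ℝ) else 0) •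
      (D q x ^ a * sprod (fun i => if i ∈ B then D q y - D q x else D q x) n * D q x ^ c) := by
  rw [mkStr, D_append, D_append, D_reps, D_reps, D_reps, sprod_const, sprod_const]
  rw [sprod_congr n (X := fun i => D q (if i ∈ S then y else x))
    (Y := fun i => if i ∈ S then D q x + (D q y - D q x) else D q x) fun i _ => by
      split_ifs <;> simp]
  rw [sprod_pattern, mul_sum, sum_mul]
  exact sum_congr rfl fun B _ => by rw [mul_smul_comm, smul_mul_assoc]

/-- the two patterns differ by the signed linear sum and the clusters of size at least two -/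
lemma mkStr_split (q : ℝ) (x y : List Bool) (a c m n : ℕ) (hn : n = 2 ^ m)
    (P : Finset ℕ) (hP : P = (range n).filter (fun i => sgn m i < 0)) :
    D q (mkStr x y a n c (range n \ P)) - D q (mkStr x y a n c P)
      = tmSum (D q x) (D q y - D q x) m a (c + n - 1)
        + ∑ B ∈ ((range n).powerset.erase ∅).filter (fun B => 2 ≤ B.card),
            ((if B ⊆ range n \ P then (1 : ℝ) else 0) - (if B ⊆ P then (1 : ℝ) else 0)) •
              (D q x ^ a * sprod (fun i => if i ∈ B then D q y - D q x else D q x) n * D q x ^ c) := by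
  rw [D_mkStr, D_mkStr, ← sum_sub_distrib, sum_congr rfl fun B _ => (sub_smul _ _ _).symm]
  rw [← add_sum_erase _ _ (empty_mem_powerset _)]
  simp only [empty_subset, if_true, sub_self, zero_smul, zero_add]
  rw [← sum_filter_add_sum_filter_not ((range n).powerset.erase ∅) (fun B => 2 ≤ B.card), add_comm]
  congr 1
  have e : ((range n).powerset.erase ∅).filter (fun B => ¬ 2 ≤ B.card)
      = (range n).image (fun i => ({i} : Finset ℕ)) := by
    ext B
    simp only [mem_filter, mem_image, mem_erase, mem_powerset, not_le]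
    constructor
    · rintro ⟨⟨h1, h2⟩, h3⟩
      obtain ⟨i, rfl⟩ := card_eq_one.mp (show B.card = 1 by
        have := card_pos.mpr (nonempty_iff_ne_empty.mpr h1); omega)
      exact ⟨i, singleton_subset_iff.mp h2, rfl⟩
    · rintro ⟨i, hi, rfl⟩
      exact ⟨⟨singleton_ne_empty i, singleton_subset_iff.mpr hi⟩, by simp⟩
  rw [e, sum_image (fun x _ y _ h => singleton_inj.mp h), tmSum_eq, ← hn]
  refine sum_congr rfl fun i hi => ?_
  have hi2 := mem_range.mp hi
  have e1 : D q x ^ a * sprod (fun l => if l ∈ ({i} : Finset ℕ) then D q y - D q x else D q x) n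
      * D q x ^ c = place (D q x) (D q y - D q x) (a + i) (c + n - 1 - i) := by
    rw [sprod_single _ _ hi2, place, pow_add, show c + n - 1 - i = n - 1 - i + c by omega, pow_add]
    simp only [mul_assoc]
  rw [e1]
  congr 1
  simp only [hP, singleton_subset_iff, mem_sdiff, mem_filter, hi, true_and]
  rcases sgn_cases m i with h | h <;> rw [h] <;> norm_num

/-- the linear part cancels -/
lemma step_linear {q : ℝ} (hq0 : 0 ≤ q) (hq1 : q ≤ 1) (x y : List Bool) {σ : ℝ} {K1 A b m n Q : ℕ}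
    (hs : Smooth (D q x) σ) (hσb : σ ^ 2 ≤ K1 * (b : ℝ) ^ (2 * A + 1)) (hb : 0 < b)
    (hm : m = 2 * (Q + 1)) (hn : n = 2 ^ m) (a c M : ℕ) (hM : M = b ^ (2 * A + 2))
    (ha : M ≤ 4 * a) (hc : M + 4 * (n + 1) ≤ 4 * c + 4 * n) :
    nrm (tmSum (D q x) (D q y - D q x) m a (c + n - 1)) * (b : ℝ) ^ Q
      ≤ 2 * (16 * (m : ℝ) * (n : ℝ) ^ 2 * K1) ^ (Q + 1) := by
  have hT' : IsPM (D q x) := isPM_D hq0 hq1 _
  set gt := M / (4 * m) with hgt
  have hgt1 : gt * (4 * m) ≤ M := Nat.div_mul_le_self _ _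
  have egt : gt * (4 * m) = 4 * (m * gt) := by ring
  have hn1 : 1 ≤ n := by rw [hn]; exact Nat.two_pow_pos m
  have htm := nrm_tmSum hT' hs (D q y - D q x) gt m a (c + n - 1) (by omega)
    (by rw [← hn]; omega)
  have hσ0 : 0 ≤ σ := le_trans (mul_nonneg (nrm_nonneg _) (Real.sqrt_nonneg _)) (hs 0)
  have hB1 : (1 : ℝ) ≤ b := by exact_mod_cast hb
  have hr : (2 * (2 : ℝ) ^ m * (σ / Real.sqrt ((gt : ℝ) + 1))) ^ 2 * (b : ℝ)
      ≤ 16 * (m : ℝ) * (n : ℝ) ^ 2 * K1 := by
    refine ratio_sq_le (S := (K1 : ℝ) * (b : ℝ) ^ (2 * A + 1)) (X := (M : ℝ)) (c := 4 * (m : ℝ))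
      hσb (by linarith) ?_ (by positivity) ?_ (by positivity) ?_
    · rw [hM, Nat.cast_pow]; positivity
    · have : M ≤ (gt + 1) * (4 * m) := (Nat.lt_mul_div_succ _ (by omega)).le.trans
        (le_of_eq (mul_comm _ _))
      exact_mod_cast this
    · rw [hM, hn]; push_cast
      rw [show 2 * A + 2 = 2 * A + 1 + 1 by ring, pow_succ (b : ℝ) (2 * A + 1)]
      exact le_of_eq (by ring)
  have hp := ratio_pow_le (Q := Q) hB1 (by positivity) hr
  rw [← hm] at hp
  have hΔ2 : nrm (D q y - D q x) ≤ 2 := (nrm_sub _ _).trans (le_of_eq (by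
    rw [(isPM_D hq0 hq1 y).nrm_eq, hT'.nrm_eq]; norm_num))
  refine (mul_le_mul_of_nonneg_right htm (by positivity)).trans ?_
  rw [mul_right_comm]
  exact (mul_le_mul hp hΔ2 (nrm_nonneg _) (by positivity)).trans (le_of_eq (mul_comm _ _))

/-- one step of the construction -/
theorem stage_step {q : ℝ} (hq0 : 0 < q) (hq1 : q < 1) (k A Q Q' g δ d K : ℕ) (hk : Q' + 1 ≤ k)
    (hA : 16 ≤ A) (hg : 3 * A ≤ 4 * g) (hδ : 3 * A ≤ 2 * δ) (hQ : 20 * (A + 1) ≤ Q)
    (hQ' : 2 * (Q' + 3 * A + 3) ≤ Q) :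
    ∃ d' K' b0 : ℕ, ∀ b ≥ b0, ∀ s : Stage, s.OK q k d Q g δ A b K →
      ∃ s' : Stage, s'.OK q k d' Q' (δ + A / 8) (2 * δ + A / 8) (2 * A + 1) b K' := by
  classical
  obtain ⟨K1, b1, hchain⟩ := chain_smooth hq0 hq1 k A Q g δ d K (by omega) hA hg hQ
  set m := 2 * (Q' + 1) with hm
  set n := 2 ^ m with hn
  obtain ⟨CR, d', hCR, hreg⟩ := region_expand k (Q' + 1) n d m (by omega)
  set cW : ℝ := CR * (1 + 3 * K) with hcW
  set cη : ℝ := 8 * K * m with hcη
  set cE : ℝ := CR * (3 * K + cη ^ (Q' + 1) + (12 * (K : ℝ)) ^ (Q' + 1)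
    + Real.sqrt ((4 * (K : ℝ)) ^ (2 * k) + 4 * K)) with hcE
  set cT : ℝ := 2 * (16 * (m : ℝ) * (n : ℝ) ^ 2 * K1) ^ (Q' + 1) with hcT
  set N : ℝ := 2 ^ n with hN
  refine ⟨d', K1 + K + n + 1 + ⌈N * (cW * (K + K ^ 2))⌉₊ + ⌈N * cE + cT⌉₊,
    b1 + 12 * K + 2 * (K + m) + n + 8, ?_⟩
  intro b hb s hs
  have hnpos : 0 < n := Nat.two_pow_pos m
  clear_value n
  set K' := K1 + K + n + 1 + ⌈N * (cW * (K + K ^ 2))⌉₊ + ⌈N * cE + cT⌉₊ with hK'
  obtain ⟨σ', hσ's, hσ'b⟩ := hchain b (by omega) s hs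
  have hT' : IsPM (D q s.x) := isPM_D hq0.le hq1.le _
  set T' := D q s.x with hT'def
  set Δ := D q s.y - D q s.x with hΔdef
  set j := A / 8 with hj
  set M' := slotLen b (2 * A + 1) with hM'
  set a := M' / 2 with ha
  set c := M' - a - n with hc
  -- natural inequalities
  have hbpos : 0 < b := by omega
  have hM'b : M' = b ^ (2 * A + 2) := rfl
  have hbA : b ≤ b ^ A := Nat.le_self_pow (by omega) b
  have hM'big : 8 * b ^ A ≤ M' := by
    rw [hM'b, show 2 * A + 2 = A + 2 + A by omega, pow_add b (A + 2) A]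
    exact Nat.mul_le_mul_right _ (le_trans (by omega) (Nat.le_self_pow (by omega) b))
  have hacn : a + n + c = M' := by omega
  have hmpos : 0 < m := by omega
  have hB1 : (1 : ℝ) ≤ b := by exact_mod_cast hbpos
  -- clusters
  set Ψ : Finset ℕ → Alg := fun B => T' ^ a * sprod (fun i => if i ∈ B then Δ else T') n * T' ^ c
    with hΨ
  set lo' := M' / 2 - winLen b (2 * A + 1) K' with hlo'
  set hi' := M' / 2 + winLen b (2 * A + 1) K' with hhi'
  have hwin : (n + 1) * b ^ A ≤ winLen b (2 * A + 1) K' := by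
    rw [winLen, show (2 * A + 1) / 2 = A by omega]
    exact Nat.mul_le_mul_right _ (by omega)
  have hclus : ∀ B ⊆ range n, B.Nonempty → ∀ t ≤ B.card, ∃ F : Fam, F.Good T' k d' lo' hi' ∧
      F.wt ≤ CR * ((K : ℝ) ^ t * (1 + 3 * K)) / (b : ℝ) ^ (t * δ + j) ∧
      nrm (Ψ B - F.val T' M') ≤ cE / (b : ℝ) ^ Q' :=
    fun B hB hBne t ht => step_clusters hq0 hq1 hs hCR hk hA hg hδ hQ' hm hnpos (by omega) hreg _
      hwin B hB hBne t ht
  -- the next strings
  set P := (range n).filter (fun i => sgn m i < 0) with hP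
  set Nn := range n \ P with hNn
  set mk : Finset ℕ → List Bool := mkStr s.x s.y a n c with hmk
  have hDmk : ∀ S, D q (mk S) = ∑ B ∈ (range n).powerset, (if B ⊆ S then (1 : ℝ) else 0) • Ψ B :=
    fun S => D_mkStr q s.x s.y a n c S
  have hlen : ∀ S, (mk S).length = M' * s.x.length := fun S => by
    rw [hmk, length_mkStr hs.leny, hacn]
  set S1 := (range n).powerset.erase ∅ with hS1
  set S2 := S1.filter (fun B => 2 ≤ B.card) with hS2
  have hS1mem : ∀ B ∈ S1, B ⊆ range n ∧ B.Nonempty := fun B hB => by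
    rw [hS1, mem_erase, mem_powerset] at hB
    exact ⟨hB.2, nonempty_iff_ne_empty.mpr hB.1⟩
  have hcard1 : (S1.card : ℝ) ≤ N := by
    have : S1.card ≤ 2 ^ n := (card_erase_le).trans (by simp)
    rw [hN]; exact_mod_cast this
  have hcard2 : (S2.card : ℝ) ≤ N := le_trans (by exact_mod_cast card_filter_le _ _) hcard1
  set coef : Finset ℕ → ℝ := fun B =>
    (if B ⊆ Nn then (1 : ℝ) else 0) - (if B ⊆ P then (1 : ℝ) else 0) with hcoef
  obtain ⟨G', G'1, G'2, G'3⟩ := combine_clusters S1 (fun B => if B ⊆ P then (1 : ℝ) else 0)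
    (fun B _ => by split_ifs <;> norm_num) Ψ
    (fun B hB => hclus B (hS1mem B hB).1 (hS1mem B hB).2 1 (hS1mem B hB).2.card_pos)
  obtain ⟨D', D'1, D'2, D'3⟩ := combine_clusters S2 coef
    (fun B _ => by rw [hcoef]; dsimp only; split_ifs <;> norm_num) Ψ
    (fun B hB => hclus B (hS1mem B (mem_filter.mp hB).1).1 (hS1mem B (mem_filter.mp hB).1).2 2
      (mem_filter.mp hB).2)
  have hB0 : (0 : ℝ) < b := by linarith
  have hK'1 : N * (cW * (K + K ^ 2)) ≤ (K' : ℝ) := (Nat.le_ceil _).trans (by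
    exact_mod_cast (show ⌈N * (cW * (K + K ^ 2))⌉₊ ≤ K' by omega))
  have hK'2 : N * cE + cT ≤ (K' : ℝ) := (Nat.le_ceil _).trans (by
    exact_mod_cast (show ⌈N * cE + cT⌉₊ ≤ K' by omega))
  have hN0 : 0 ≤ N := by positivity
  have hcW0 : 0 ≤ cW := by positivity
  have hcE0 : 0 ≤ cE := by positivity
  have hcT0 : 0 ≤ cT := by positivity
  refine ⟨⟨s.x, mk P, mk Nn, G', D'⟩, ?_, ?_, ?_, ⟨σ', hσ's, ?_⟩, G'1, D'1, ?_, ?_, ?_, ?_⟩
  · rw [hlen, Nat.cast_mul, hM'b, Nat.cast_pow]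
    calc (b : ℝ) ^ (2 * A + 2) * (s.x.length : ℝ)
        ≤ (b : ℝ) ^ (2 * A + 2) * ((K : ℝ) * (b : ℝ) ^ (2 * A + 1)) := by gcongr; exact hs.len
      _ = (K : ℝ) * (b : ℝ) ^ (2 * (2 * A + 1) + 1) := by
          rw [show 2 * (2 * A + 1) + 1 = 2 * A + 2 + (2 * A + 1) by ring, pow_add]; ring
      _ ≤ (K' : ℝ) * (b : ℝ) ^ (2 * (2 * A + 1) + 1) := by gcongr; omega
  · rw [hlen, hlen]
  · intro e
    simp only [hmk, mkStr, List.append_left_inj, List.append_right_inj] at e
    refine reps_ne (n := n) (by positivity) ?_ ?_ e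
    · split_ifs <;> simp [hs.leny]
    · have h0 : (0 : ℕ) ∈ range n := mem_range.mpr (by positivity)
      by_cases h : (0 : ℕ) ∈ P
      · simp [hNn, h, hs.ne.symm]
      · simp [hNn, h, h0, hs.ne]
  · exact hσ'b.trans (by gcongr; omega)
  · rw [show δ + j = 1 * δ + j by ring]
    refine (mul_le_mul_of_nonneg_right G'2 (by positivity)).trans ?_
    rw [mul_assoc, div_mul_cancel₀ _ (by positivity), pow_one]
    refine le_trans ?_ hK'1
    have h1 : CR * ((K : ℝ) * (1 + 3 * K)) ≤ cW * (K + K ^ 2) := by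
      rw [hcW] at hcW0 ⊢; linarith [mul_nonneg hcW0 (sq_nonneg (K : ℝ))]
    exact mul_le_mul hcard1 h1 (by positivity) hN0
  · refine (mul_le_mul_of_nonneg_right D'2 (by positivity)).trans ?_
    rw [mul_assoc, div_mul_cancel₀ _ (by positivity)]
    refine le_trans ?_ hK'1
    have h1 : CR * ((K : ℝ) ^ 2 * (1 + 3 * K)) ≤ cW * (K + K ^ 2) := by
      rw [hcW] at hcW0 ⊢; linarith [mul_nonneg hcW0 (Nat.cast_nonneg K : (0:ℝ) ≤ K)]
    exact mul_le_mul hcard2 h1 (by positivity) hN0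
  · show nrm (D q (mk P) - T' ^ M' - G'.val T' M') * (b : ℝ) ^ Q' ≤ (K' : ℝ)
    have h0 : Ψ ∅ = T' ^ M' := by
      rw [hΨ]; dsimp only
      simp only [notMem_empty, if_false, sprod_const]
      rw [← pow_add, ← pow_add, hacn]
    rw [hDmk, ← add_sum_erase _ _ (empty_mem_powerset _), if_pos (empty_subset _), one_smul, h0,
      add_sub_cancel_left]
    refine (mul_le_mul_of_nonneg_right G'3 (by positivity)).trans ?_
    rw [mul_assoc, div_mul_cancel₀ _ (by positivity)]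
    have := mul_le_mul_of_nonneg_right hcard1 hcE0
    linarith
  · show nrm (D q (mk Nn) - D q (mk P) - D'.val T' M') * (b : ℝ) ^ Q' ≤ (K' : ℝ)
    rw [show D q (mk Nn) - D q (mk P)
        = tmSum T' Δ m a (c + n - 1) + ∑ B ∈ S2, coef B • Ψ B from mkStr_split q s.x s.y a c m n hn P hP,
      add_sub_assoc]
    have hT2 : nrm (tmSum T' Δ m a (c + n - 1)) * (b : ℝ) ^ Q' ≤ cT :=
      step_linear hq0.le hq1.le s.x s.y hσ's hσ'b hbpos hm hn a c M' hM'b (by omega) (by omega)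
    have hS : nrm (∑ B ∈ S2, coef B • Ψ B - D'.val T' M') * (b : ℝ) ^ Q' ≤ N * cE := by
      refine (mul_le_mul_of_nonneg_right D'3 (by positivity)).trans ?_
      rw [mul_assoc, div_mul_cancel₀ _ (by positivity)]
      exact mul_le_mul_of_nonneg_right hcard2 hcE0
    have := mul_le_mul_of_nonneg_right
      (nrm_add (tmSum T' Δ m a (c + n - 1)) (∑ B ∈ S2, coef B • Ψ B - D'.val T' M'))
      (show 0 ≤ (b : ℝ) ^ Q' by positivity)
    rw [add_mul] at this
    linarith

end Vale.Agent.P321
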