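import Mathlib
import Vale.Agent.P321.Model
import Vale.Agent.P321.Step
import Vale.Agent.P321.Start

/-
Iterating the construction; the two-point bound for estimators.
-/

open scoped BigOperators
open Finset

namespace Vale.Agent.P321

variable {q : ℝ}

lemma maskProb_nonneg (h0 : 0 ≤ q) (h1 : q ≤ 1) {n : ℕ} (s : Fin n → Bool) : 0 ≤ maskProb q s :=
  prod_nonneg fun i _ => by split_ifs <;> linarith

lemma sum_maskProb (q : ℝ) (n : ℕ) : ∑ s : Fin n → Bool, maskProb q s = 1 := by
  unfold maskProb
  rw [← Fintype.prod_sum (fun (_ : Fin n) (b : Bool) => if b then 1 - q else q)]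
  simp

lemma sum_prod_maskProb (q : ℝ) (n m : ℕ) :
    ∑ s : Fin m → Fin n → Bool, ∏ j, maskProb q (s j) = 1 := by
  rw [← Fintype.prod_sum (fun (_ : Fin m) (t : Fin n → Bool) => maskProb q t)]
  simp [sum_maskProb]

lemma prod_maskProb_nonneg (h0 : 0 ≤ q) (h1 : q ≤ 1) {n m : ℕ} (s : Fin m → Fin n → Bool) :
    0 ≤ ∏ j, maskProb q (s j) :=
  prod_nonneg fun j _ => maskProb_nonneg h0 h1 _

/-- the law of the surviving bits is D -/
lemma maskLaw (q : ℝ) : ∀ {n : ℕ} (x : Fin n → Bool),
    ∑ s : Fin n → Bool, maskProb q s • pt (FreeMonoid.ofList (survivors x s)) = D q (List.ofFn x)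
  | 0, x => by simp [maskProb, survivors, D_nil, pt_one]
  | n + 1, x => by
    rw [List.ofFn_succ, D_cons, ← maskLaw q (fun i : Fin n => x i.succ),
      ← Equiv.sum_comp (Fin.consEquiv fun _ : Fin (n + 1) => Bool), Fintype.sum_prod_type,
      Fintype.sum_bool, dbit, add_mul, mul_sum, mul_sum, add_comm (∑ i, _ • 1 * _)]
    congr 1
    all_goals
      refine sum_congr rfl fun s _ => ?_
      simp [maskProb, Fin.prod_univ_succ, survivors, List.finRange_succ, List.filter_cons,
        List.filter_map, Function.comp_def, FreeMonoid.ofList_cons, ← pt_mul, smul_smul, mul_comm]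

lemma coeff_maskLaw (q : ℝ) {n : ℕ} (x : Fin n → Bool) (w : W) :
    (D q (List.ofFn x)).coeff w = ∑ s ∈ (univ : Finset (Fin n → Bool)).filter
      (fun s => FreeMonoid.ofList (survivors x s) = w), maskProb q s := by
  classical
  rw [← maskLaw, MonoidAlgebra.coeff_sum, Finsupp.finsetSum_apply, sum_filter]
  exact sum_congr rfl fun s _ => by
    rw [MonoidAlgebra.coeff_smul_apply, coeff_pt, smul_eq_mul]; split_ifs <;> simp

/-- one trace separates two strings by at most their total variation norm -/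
lemma one_trace {n : ℕ} (x y : Fin n → Bool) (G : List Bool → ℝ) (hG : ∀ l, |G l| ≤ 1) :
    ∑ s, maskProb q s * G (survivors x s) - ∑ s, maskProb q s * G (survivors y s)
      ≤ nrm (D q (List.ofFn x) - D q (List.ofFn y)) := by
  classical
  set f := D q (List.ofFn x) - D q (List.ofFn y) with hf
  set S : Finset W := f.coeff.support
    ∪ (univ : Finset (Fin n → Bool)).image (fun s => FreeMonoid.ofList (survivors x s))
    ∪ (univ : Finset (Fin n → Bool)).image (fun s => FreeMonoid.ofList (survivors y s)) with hS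
  have key : ∀ z : Fin n → Bool,
      (∀ s ∈ (univ : Finset (Fin n → Bool)), FreeMonoid.ofList (survivors z s) ∈ S) →
      ∑ s, maskProb q s * G (survivors z s)
        = ∑ w ∈ S, (D q (List.ofFn z)).coeff w * G w.toList := by
    intro z hz
    rw [← sum_fiberwise_of_maps_to hz]
    refine sum_congr rfl fun w _ => ?_
    rw [coeff_maskLaw, sum_mul]
    refine sum_congr rfl fun s hs => ?_
    rw [← (mem_filter.mp hs).2, FreeMonoid.toList_ofList]
  rw [key x (fun s _ => by simp [hS]), key y (fun s _ => by simp [hS]), ← sum_sub_distrib,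
    nrm_eq_sum_of_subset (s := S) (by rw [hS]; exact subset_union_left.trans subset_union_left)]
  refine sum_le_sum fun w _ => ?_
  rw [← sub_mul, hf, MonoidAlgebra.coeff_sub, Finsupp.sub_apply]
  refine (le_abs_self _).trans ?_
  rw [abs_mul]
  exact mul_le_of_le_one_right (abs_nonneg _) (hG _)

/-- m traces separate two strings by at most m times the total variation norm -/
lemma many_traces (h0 : 0 ≤ q) (h1 : q ≤ 1) {n : ℕ} (x y : Fin n → Bool) :
    ∀ m (F : (Fin m → List Bool) → ℝ), (∀ t, 0 ≤ F t) → (∀ t, F t ≤ 1) →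
      ∑ s : Fin m → Fin n → Bool, (∏ j, maskProb q (s j)) * F (fun j => survivors x (s j))
        - ∑ s : Fin m → Fin n → Bool, (∏ j, maskProb q (s j)) * F (fun j => survivors y (s j))
      ≤ m * nrm (D q (List.ofFn x) - D q (List.ofFn y)) := by
  intro m
  induction m with
  | zero =>
    intro F _ _
    have : ∀ z : Fin n → Bool, (fun s : Fin 0 → Fin n → Bool =>
        (∏ j, maskProb q (s j)) * F (fun j => survivors z (s j))) = fun _ => F Fin.elim0 := by
      intro z; funext s
      simp [Subsingleton.elim (fun j => survivors z (s j)) Fin.elim0]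
    simp only [this]
    simp
  | succ m ih =>
    intro F hF0 hF1
    have e : ∀ z : Fin n → Bool,
        ∑ s : Fin (m + 1) → Fin n → Bool, (∏ j, maskProb q (s j)) * F (fun j => survivors z (s j))
          = ∑ a, maskProb q a * ∑ s : Fin m → Fin n → Bool, (∏ j, maskProb q (s j))
              * F (Fin.cons (survivors z a) fun j => survivors z (s j)) := by
      intro z
      rw [← Equiv.sum_comp (Fin.consEquiv fun _ : Fin (m + 1) => Fin n → Bool), Fintype.sum_prod_type]
      refine sum_congr rfl fun a _ => ?_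
      rw [mul_sum]
      refine sum_congr rfl fun s _ => ?_
      rw [← mul_assoc, Fin.prod_univ_succ]
      congr 1
      · congr 1
        funext j
        refine Fin.cases ?_ (fun i => ?_) j <;> simp [Fin.consEquiv]
    set d := nrm (D q (List.ofFn x) - D q (List.ofFn y)) with hd
    set G : List Bool → ℝ := fun l =>
      ∑ s : Fin m → Fin n → Bool, (∏ j, maskProb q (s j)) * F (Fin.cons l fun j => survivors y (s j))
      with hG
    have hG1 : ∀ l, |G l| ≤ 1 := by
      intro l
      rw [abs_le]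
      refine ⟨le_trans (by norm_num) (sum_nonneg fun s _ =>
        mul_nonneg (prod_maskProb_nonneg h0 h1 s) (hF0 _)), ?_⟩
      refine (sum_le_sum fun s _ => mul_le_of_le_one_right (prod_maskProb_nonneg h0 h1 s) (hF1 _)).trans
        (le_of_eq ?_)
      exact sum_prod_maskProb q n m
    have step1 : ∑ a, maskProb q a * ∑ s : Fin m → Fin n → Bool, (∏ j, maskProb q (s j))
              * F (Fin.cons (survivors x a) fun j => survivors x (s j))
        ≤ ∑ a, maskProb q a * G (survivors x a) + m * d := by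
      have hsum : ∑ a : Fin n → Bool, maskProb q a * ((m : ℝ) * d) = m * d := by
        rw [← sum_mul, sum_maskProb, one_mul]
      rw [← hsum, ← sum_add_distrib]
      refine sum_le_sum fun a _ => ?_
      rw [← mul_add]
      refine mul_le_mul_of_nonneg_left ?_ (maskProb_nonneg h0 h1 a)
      have := ih (fun t => F (Fin.cons (survivors x a) t)) (fun t => hF0 _) (fun t => hF1 _)
      simp only [hG]
      linarith
    have step2 := one_trace (q := q) x y G hG1
    rw [e x, e y]
    push_cast
    simp only [hG] at step1 step2 ⊢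
    linarith

/-- the two-point lower bound -/
lemma two_point (h0 : 0 ≤ q) (h1 : q ≤ 1) {n m : ℕ} {x y : Fin n → Bool} (hxy : x ≠ y)
    (h : Reconstructs q n m) :
    1 / 3 ≤ (m : ℝ) * nrm (D q (List.ofFn x) - D q (List.ofFn y)) := by
  obtain ⟨E, hE0, hE1, hE⟩ := h
  have hle : ∀ t, E t x + E t y ≤ 1 := fun t => by
    rw [← hE1 t, ← sum_pair hxy]
    exact sum_le_sum_of_subset_of_nonneg (subset_univ _) fun z _ _ => hE0 t z
  have hF1 : ∀ t, E t x ≤ 1 := fun t => by linarith [hle t, hE0 t y]
  have hm := many_traces h0 h1 x y m (fun t => E t x) (fun t => hE0 t x) hF1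
  have hy : ∑ s : Fin m → Fin n → Bool, (∏ j, maskProb q (s j)) * E (fun j => survivors y (s j)) x
      ≤ 1 - successProb q E y := by
    rw [successProb, ← sum_prod_maskProb q n m, ← sum_sub_distrib]
    refine sum_le_sum fun s _ => ?_
    rw [← mul_one_sub]
    exact mul_le_mul_of_nonneg_left (by linarith [hle (fun j => survivors y (s j))])
      (prod_maskProb_nonneg h0 h1 s)
  have := hE x
  have := hE y
  unfold successProb at *
  linarith

lemma survivors_full {n : ℕ} (x s : Fin n → Bool) (h : (survivors x s).length = n) :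
    survivors x s = List.ofFn x := by
  have hs : (List.finRange n).filter (fun i => s i) = List.finRange n := by
    refine List.filter_sublist.eq_of_length ?_
    simpa [survivors] using h
  rw [survivors, hs, List.ofFn_eq_map]

lemma survivors_all {n : ℕ} (x : Fin n → Bool) :
    (survivors x fun _ => true).length = n := by simp [survivors]

/-- finitely many traces suffice: one of them is the whole string -/
lemma exists_reconstructs (h0 : 0 ≤ q) (h1 : q < 1) (n : ℕ) : ∃ m, Reconstructs q n m := by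
  classical
  set p := maskProb q (fun _ : Fin n => true) with hp
  have hp0 : 0 < p := prod_pos fun i _ => by simp only [if_true]; linarith
  have hp1 : p ≤ 1 := by
    rw [← sum_maskProb q n]
    exact single_le_sum (fun s _ => maskProb_nonneg h0 h1.le s) (mem_univ _)
  obtain ⟨m, hm⟩ := exists_pow_lt_of_lt_one (show (0 : ℝ) < 1 / 3 by norm_num)
    (show 1 - p < 1 by linarith)
  set guess : (Fin m → List Bool) → (Fin n → Bool) := fun t =>
    if h : ∃ j, (t j).length = n then fun i => (t h.choose).getD (i : ℕ) false else fun _ => false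
    with hguess
  refine ⟨m, fun t y => if y = guess t then 1 else 0, fun t y => by dsimp only; split_ifs <;> norm_num,
    fun t => by simp, fun x => ?_⟩
  set bad := Fintype.piFinset fun _ : Fin m => (univ : Finset (Fin n → Bool)).erase fun _ => true
    with hbad
  have hgood : ∀ s : Fin m → Fin n → Bool, s ∉ bad → guess (fun j => survivors x (s j)) = x := by
    intro s hs
    simp only [hbad, Fintype.mem_piFinset, mem_erase, mem_univ, and_true, not_forall, not_not] at hs
    obtain ⟨j, hj⟩ := hs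
    have hex : ∃ j, (survivors x (s j)).length = n := ⟨j, by rw [hj]; exact survivors_all x⟩
    rw [hguess]
    dsimp only
    rw [dif_pos hex]
    funext i
    rw [survivors_full x _ hex.choose_spec]
    simp [List.getD_eq_getElem?_getD, i.isLt]
  have hbadsum : ∑ s ∈ bad, ∏ j, maskProb q (s j) = (1 - p) ^ m := by
    rw [hbad, ← prod_univ_sum (fun _ : Fin m => (univ : Finset (Fin n → Bool)).erase fun _ => true)
      (fun _ t => maskProb q t), prod_const, card_univ, Fintype.card_fin, sum_erase_eq_sub (mem_univ _),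
      sum_maskProb]
  unfold successProb
  have hsplit := sum_sdiff (f := fun s : Fin m → Fin n → Bool => ∏ j, maskProb q (s j)) (subset_univ bad)
  rw [sum_prod_maskProb, hbadsum] at hsplit
  refine le_trans (show (2 : ℝ) / 3 ≤ ∑ s ∈ univ \ bad, ∏ j, maskProb q (s j) by linarith) ?_
  refine le_trans (le_of_eq (sum_congr rfl fun s hs => ?_))
    (sum_le_sum_of_subset_of_nonneg (sdiff_subset : univ \ bad ⊆ univ) fun s _ _ =>
      mul_nonneg (prod_maskProb_nonneg h0 h1.le s) (by dsimp only; split_ifs <;> norm_num))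
  dsimp only
  rw [hgood s (mem_sdiff.mp hs).2, if_pos rfl, mul_one]

/-- the levels of the construction -/
lemma levels (hq0 : 0 < q) (hq1 : q < 1) : ∀ i : ℕ, ∃ A g δ : ℕ,
    A + 1 = 17 * 2 ^ i ∧ 3 * A ≤ 4 * g ∧ 3 * A ≤ 2 * δ ∧ i * 2 ^ i ≤ δ ∧
      ∀ Qt, ∃ k0, ∀ k ≥ k0, ∃ d K b0 : ℕ, ∀ b ≥ b0, ∃ s : Stage, s.OK q k d Qt g δ A b K := by
  intro i
  induction i with
  | zero =>
    exact ⟨16, 16, 3 * (16 / 2), by norm_num, by norm_num, by norm_num, by norm_num, fun Qt =>
      ⟨1, fun k hk => base_stage hq0 hq1 k 16 Qt hk le_rfl ⟨8, rfl⟩⟩⟩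
  | succ i ih =>
    obtain ⟨A, g, δ, hA, hg, hδ, hiδ, hok⟩ := ih
    have h2 : 1 ≤ 2 ^ i := Nat.one_le_two_pow
    refine ⟨2 * A + 1, δ + A / 8, 2 * δ + A / 8, by rw [pow_succ]; omega, by omega, by omega, ?_,
      fun Qt => ?_⟩
    · rw [pow_succ, Nat.succ_mul, ← Nat.mul_assoc]
      omega
    · obtain ⟨k0, hk0⟩ := hok (max (20 * (A + 1)) (2 * (Qt + 3 * A + 3)))
      refine ⟨max k0 (Qt + 1), fun k hk => ?_⟩
      obtain ⟨d, K, b0, hb0⟩ := hk0 k (le_trans (le_max_left _ _) hk)
      obtain ⟨d', K', b0', hstep⟩ := stage_step hq0 hq1 k A _ Qt g δ d K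
        (le_trans (le_max_right _ _) hk) (by omega) hg hδ (le_max_left _ _) (le_max_right _ _)
      refine ⟨d', K', max b0 b0', fun b hb => ?_⟩
      obtain ⟨s, hs⟩ := hb0 b (le_trans (le_max_left _ _) hb)
      exact hstep b (le_trans (le_max_right _ _) hb) s hs

/-- distinct strings with polynomially close trace laws, of every polynomial order -/
lemma close_pair (hq0 : 0 < q) (hq1 : q < 1) (C : ℕ) : ∃ e δ K b0 : ℕ, e * C + 1 ≤ δ ∧ 1 ≤ e ∧ 1 ≤ K ∧
    ∀ b ≥ b0, ∃ x y : List Bool, x ≠ y ∧ y.length = x.length ∧ x.length ≤ K * b ^ e ∧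
      nrm (D q x - D q y) * (b : ℝ) ^ δ ≤ 2 * K := by
  obtain ⟨A, g, δ, hA, -, hδ, hiδ, hok⟩ := levels hq0 hq1 (34 * C + 1)
  obtain ⟨k0, hk0⟩ := hok δ
  obtain ⟨d, K, b0, hb⟩ := hk0 (max k0 1) (le_max_left _ _)
  refine ⟨2 * A + 1, δ, K + 1, max b0 (2 * K + 1), ?_, by omega, by omega, fun b hbb => ?_⟩
  · have h1 : (2 * A + 1) * C ≤ 34 * 2 ^ (34 * C + 1) * C := Nat.mul_le_mul_right _ (by omega)
    have h2 : 1 ≤ 2 ^ (34 * C + 1) := Nat.one_le_two_pow
    rw [Nat.succ_mul, Nat.mul_right_comm] at hiδ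
    omega
  obtain ⟨s, hs⟩ := hb b (le_trans (le_max_left _ _) hbb)
  refine ⟨s.x, s.y, hs.ne, hs.leny, ?_, ?_⟩
  · have h : s.x.length ≤ K * b ^ (2 * A + 1) := by exact_mod_cast hs.len
    exact h.trans (Nat.mul_le_mul_right _ (Nat.le_succ _))
  · have hT : IsPM (D q s.u) := isPM_D hq0.le hq1.le _
    set M := slotLen b A with hM
    have hW : winLen b A K ≤ M / 2 := by
      have h1 : 2 * K * b ^ (A / 2) ≤ M := by
        rw [hM, slotLen, show A + 1 = A + 1 - A / 2 + A / 2 by omega, pow_add]
        exact Nat.mul_le_mul_right _ (le_trans (by omega) (Nat.le_self_pow (by omega) b))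
      rw [Nat.mul_assoc] at h1
      simp only [winLen]
      omega
    have hval : nrm (s.Dl.val (D q s.u) M) ≤ s.Dl.wt :=
      nrm_piN_le_of_Bd hT (le_max_right k0 1) _ (Fam.fn_bd hT (le_max_right k0 1) hs.goodD fun x hx => by
        simp only [Finset.mem_Ico, Finset.mem_range] at hx ⊢; omega)
    have htri : nrm (D q s.x - D q s.y)
        ≤ nrm (D q s.y - D q s.x - s.Dl.val (D q s.u) M) + nrm (s.Dl.val (D q s.u) M) := by
      rw [nrm_sub_comm]
      refine le_trans (le_of_eq ?_) (nrm_add _ _)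
      rw [sub_add_cancel]
    calc nrm (D q s.x - D q s.y) * (b : ℝ) ^ δ
        ≤ (nrm (D q s.y - D q s.x - s.Dl.val (D q s.u) M) + s.Dl.wt) * (b : ℝ) ^ δ := by
          gcongr; linarith
      _ ≤ K + K := by rw [add_mul]; exact add_le_add hs.errD hs.wtD
      _ ≤ 2 * ((K + 1 : ℕ) : ℝ) := by push_cast; linarith

/-- every polynomial is eventually below the sample complexity -/
theorem superpolynomial (hq0 : 0 < q) (hq1 : q < 1) (C : ℕ) :
    ∃ N : ℕ, ∀ n ≥ N, n ^ C ≤ sampleComplexity q n := by
  classical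
  obtain ⟨e, δ, K, b0, heδ, he, hK, hpair⟩ := close_pair hq0 hq1 C
  set B := b0 + 6 * K * (K * 2 ^ e) ^ C + 1 with hB
  refine ⟨K * B ^ e, fun n hn => ?_⟩
  set b := Nat.findGreatest (fun b => K * b ^ e ≤ n) n with hbdef
  have hBn : B ≤ n := le_trans ((Nat.le_self_pow (by omega) B).trans
    (Nat.le_mul_of_pos_left _ hK)) hn
  have hbB : B ≤ b := Nat.le_findGreatest hBn hn
  have hbn : K * b ^ e ≤ n := Nat.findGreatest_spec (P := fun b => K * b ^ e ≤ n) hBn hn
  have hnb : n ≤ K * 2 ^ e * b ^ e := by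
    by_contra hlt
    rw [not_le, Nat.mul_assoc, ← Nat.mul_pow] at hlt
    have h2 : 2 * b ≤ n := by
      refine le_trans ?_ hlt.le
      exact le_trans (Nat.le_self_pow (by omega) _) (Nat.le_mul_of_pos_left _ hK)
    have := Nat.le_findGreatest (P := fun b => K * b ^ e ≤ n) h2 hlt.le
    omega
  have hmain : 6 * K * n ^ C ≤ b ^ δ := by
    calc 6 * K * n ^ C ≤ 6 * K * (K * 2 ^ e * b ^ e) ^ C := by gcongr
      _ = 6 * K * (K * 2 ^ e) ^ C * b ^ (e * C) := by rw [mul_pow, ← pow_mul]; ring
      _ ≤ b * b ^ (e * C) := Nat.mul_le_mul_right _ (by omega)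
      _ = b ^ (e * C + 1) := by rw [pow_succ]; ring
      _ ≤ b ^ δ := Nat.pow_le_pow_right (by omega) heδ
  obtain ⟨x, y, hxy, hlen, hxlen, hclose⟩ := hpair b (by omega)
  set pad := List.replicate (n - x.length) false with hpad
  have hl : ∀ z : List Bool, z.length = x.length →
      List.ofFn (fun i : Fin n => (z ++ pad).getD (i : ℕ) false) = z ++ pad := by
    intro z hz
    refine List.ext_getElem ?_ fun i h1 h2 => ?_
    · simp [hz, hpad]; omega
    · simp [List.getElem_ofFn, List.getD_eq_getElem?_getD, List.getElem?_eq_getElem h2]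
  refine le_csInf (exists_reconstructs hq0.le hq1 n) fun m hm => ?_
  have hne : (fun i : Fin n => (x ++ pad).getD (i : ℕ) false)
      ≠ fun i : Fin n => (y ++ pad).getD (i : ℕ) false := fun h => hxy (by
    have := hl x rfl
    rw [h, hl y hlen] at this
    exact ((List.append_left_inj _).mp this).symm)
  have h3 := two_point hq0.le hq1.le hne hm
  rw [hl x rfl, hl y hlen, D_append, D_append, ← sub_mul] at h3
  have hd : nrm ((D q x - D q y) * D q pad) ≤ nrm (D q x - D q y) := by
    refine (nrm_mul _ _).trans ?_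
    rw [(isPM_D hq0.le hq1.le pad).nrm_eq, mul_one]
  have hb0 : (0 : ℝ) ≤ (b : ℝ) ^ δ := by positivity
  have h4 : (b : ℝ) ^ δ ≤ 6 * K * m := by
    have h5 := mul_le_mul_of_nonneg_right
      (h3.trans (mul_le_mul_of_nonneg_left hd (Nat.cast_nonneg m))) hb0
    have h6 := mul_le_mul_of_nonneg_left hclose (Nat.cast_nonneg (α := ℝ) m)
    linarith
  have h7 : b ^ δ ≤ 6 * K * m := by exact_mod_cast h4
  exact Nat.le_of_mul_le_mul_left (hmain.trans h7) (by omega)

end Vale.Agent.P321
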